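import Crest.Agent.R134.Defs

/-!
Basic facts on the Fock representation.
-/

set_option autoImplicit false

open Crest.OpAlg
open scoped InnerProductSpace

noncomputable section

namespace Crest.Agent.R134

section L2

variable {X Y : Type*}

@[simp] theorem pull_apply (f : X → Y) (hf : Function.Injective f) (ξ : ltwo Y) (x : X) :
    pull f hf ξ x = ξ (f x) := rfl

theorem dl_eq_single [DecidableEq X] (x : X) : dl x = lp.single 2 x (1 : ℂ) := by
  unfold dl
  congr
  exact Subsingleton.elim _ _

open Classical in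
theorem dl_apply (x y : X) : dl x y = if y = x then 1 else 0 := by
  unfold dl
  by_cases h : y = x
  · subst h; simp
  · simp [h]

@[simp] theorem dl_apply_self (x : X) : dl x x = 1 := by simp [dl_apply]

theorem dl_apply_ne {x y : X} (h : y ≠ x) : dl x y = 0 := by simp [dl_apply, h]

theorem dl_congr {x y : X} {x' y' : Y} (h : y = x ↔ y' = x') : dl x y = dl x' y' := by
  by_cases h1 : y = x
  · rw [h1, h.1 h1, dl_apply_self, dl_apply_self]
  · rw [dl_apply_ne h1, dl_apply_ne (fun h2 => h1 (h.2 h2))]

theorem inner_dl_left (x : X) (ξ : ltwo X) : ⟪dl x, ξ⟫_ℂ = ξ x := by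
  classical
  rw [dl_eq_single, lp.inner_single_left]
  simp

theorem inner_dl_right (x : X) (ξ : ltwo X) : ⟪ξ, dl x⟫_ℂ = starRingEnd ℂ (ξ x) := by
  rw [← inner_conj_symm, inner_dl_left]

@[simp] theorem norm_dl (x : X) : ‖dl x‖ = 1 := by
  classical
  rw [dl_eq_single, lp.norm_single (by norm_num)]
  simp

theorem ext_dl {E : Type*} [NormedAddCommGroup E] [NormedSpace ℂ E] {S T : ltwo X →L[ℂ] E}
    (h : ∀ x, S (dl x) = T (dl x)) : S = T := by
  classical
  refine lp.ext_continuousLinearMap (by norm_num) fun x => ?_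
  ext
  have := h x
  rw [dl_eq_single] at this
  simpa using this

theorem push_apply (f : X → Y) (hf : Function.Injective f) (ξ : ltwo X) (y : Y) :
    push f hf ξ y = ⟪pull f hf (dl y), ξ⟫_ℂ := by
  rw [← inner_dl_left, push, ContinuousLinearMap.adjoint_inner_right]

theorem pull_dl (f : X → Y) (hf : Function.Injective f) (x : X) : pull f hf (dl (f x)) = dl x := by
  ext z
  exact dl_congr hf.eq_iff

theorem pull_dl_of_notMem (f : X → Y) (hf : Function.Injective f) {y : Y} (hy : y ∉ Set.range f) :
    pull f hf (dl y) = 0 := by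
  ext z
  have : f z ≠ y := fun h => hy ⟨z, h⟩
  simp [dl_apply, this]

@[simp] theorem push_apply_self (f : X → Y) (hf : Function.Injective f) (ξ : ltwo X) (x : X) :
    push f hf ξ (f x) = ξ x := by
  rw [push_apply, pull_dl, inner_dl_left]

theorem push_apply_of_notMem (f : X → Y) (hf : Function.Injective f) (ξ : ltwo X) {y : Y}
    (hy : y ∉ Set.range f) : push f hf ξ y = 0 := by
  rw [push_apply, pull_dl_of_notMem f hf hy, inner_zero_left]

@[simp] theorem push_dl (f : X → Y) (hf : Function.Injective f) (x : X) :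
    push f hf (dl x) = dl (f x) := by
  ext y
  by_cases hy : y ∈ Set.range f
  · obtain ⟨z, rfl⟩ := hy
    rw [push_apply_self]
    exact dl_congr hf.eq_iff.symm
  · rw [push_apply_of_notMem f hf _ hy, dl_apply_ne]
    exact fun h => hy ⟨x, h.symm⟩

@[simp] theorem pull_push (f : X → Y) (hf : Function.Injective f) (ξ : ltwo X) :
    pull f hf (push f hf ξ) = ξ := by
  ext x
  simp

theorem adjoint_push (f : X → Y) (hf : Function.Injective f) :
    ContinuousLinearMap.adjoint (push f hf) = pull f hf := by
  simp [push]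

theorem adjoint_pull (f : X → Y) (hf : Function.Injective f) :
    ContinuousLinearMap.adjoint (pull f hf) = push f hf := rfl

theorem inner_push_left (f : X → Y) (hf : Function.Injective f) (ξ : ltwo X) (η : ltwo Y) :
    ⟪push f hf ξ, η⟫_ℂ = ⟪ξ, pull f hf η⟫_ℂ := by
  rw [push, ContinuousLinearMap.adjoint_inner_left]

theorem inner_push_right (f : X → Y) (hf : Function.Injective f) (ξ : ltwo X) (η : ltwo Y) :
    ⟪η, push f hf ξ⟫_ℂ = ⟪pull f hf η, ξ⟫_ℂ := by
  rw [push, ContinuousLinearMap.adjoint_inner_right]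

@[simp] theorem norm_push_apply (f : X → Y) (hf : Function.Injective f) (ξ : ltwo X) :
    ‖push f hf ξ‖ = ‖ξ‖ := by
  rw [@norm_eq_sqrt_re_inner ℂ, @norm_eq_sqrt_re_inner ℂ, inner_push_left, pull_push]

theorem norm_pull_apply_le (f : X → Y) (hf : Function.Injective f) (ξ : ltwo Y) :
    ‖pull f hf ξ‖ ≤ ‖ξ‖ := by
  have := norm_pullLin_le f hf ξ
  rw [one_mul] at this
  exact this

theorem norm_push_le (f : X → Y) (hf : Function.Injective f) : ‖push f hf‖ ≤ 1 :=
  ContinuousLinearMap.opNorm_le_bound _ zero_le_one fun ξ => by simp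

theorem norm_pull_le (f : X → Y) (hf : Function.Injective f) : ‖pull f hf‖ ≤ 1 :=
  ContinuousLinearMap.opNorm_le_bound _ zero_le_one fun ξ => by simpa using norm_pull_apply_le f hf ξ

/-- A closed subspace containing all basis vectors is everything. -/
theorem eq_top_of_dl_mem (K : Submodule ℂ (ltwo X)) (hK : IsClosed (K : Set (ltwo X)))
    (h : ∀ x, dl x ∈ K) : K = ⊤ := by
  classical
  rw [eq_top_iff]
  intro ξ _
  have hs := lp.hasSum_single (p := 2) (by norm_num) ξ
  refine hK.mem_of_tendsto hs (Filter.Eventually.of_forall fun s => K.sum_mem fun x _ => ?_)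
  have : lp.single 2 x (ξ x) = (ξ x) • dl x := by
    rw [dl_eq_single, ← lp.single_smul]
    simp
  rw [this]
  exact K.smul_mem _ (h x)

theorem dense_span_dl : Dense (Submodule.span ℂ (Set.range (dl : X → ltwo X)) : Set (ltwo X)) := by
  rw [Submodule.dense_iff_topologicalClosure_eq_top]
  exact eq_top_of_dl_mem _ (Submodule.isClosed_topologicalClosure _) fun x =>
    Submodule.le_topologicalClosure _ (Submodule.subset_span ⟨x, rfl⟩)

theorem separableSpace_ltwo [Countable X] : TopologicalSpace.SeparableSpace (ltwo X) := by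
  rw [← TopologicalSpace.isSeparable_univ_iff, ← dense_span_dl.closure_eq]
  exact (Set.countable_range _).isSeparable.span.closure

theorem leftRegular_dl {G : Type*} [Group G] (g h : G) : leftRegular g (dl h) = dl (g * h) := by
  ext k
  change dl h (g⁻¹ * k) = _
  exact dl_congr inv_mul_eq_iff_eq_mul

theorem rightRegular_dl {G : Type*} [Group G] (g h : G) :
    rightRegular g (dl h) = dl (h * g⁻¹) := by
  ext k
  change dl h (k * g) = _
  exact dl_congr eq_mul_inv_iff_mul_eq.symm

end L2

namespace Wd

/-- The list of letters. -/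
def toList {G : Type} : Wd G → List G
  | one g => [g]
  | cons g w => g :: toList w

theorem toList_injective {G : Type} : Function.Injective (toList : Wd G → List G) := by
  intro a
  induction a with
  | one g =>
    intro b h
    cases b with
    | one g' => simpa [toList] using h
    | cons g' b => cases b <;> simp [toList] at h
  | cons g a ih =>
    intro b h
    cases b with
    | one g' => cases a <;> simp [toList] at h
    | cons g' b =>
      simp only [toList, List.cons.injEq] at h
      rw [h.1, ih h.2]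

instance {G : Type} [Countable G] : Countable (Wd G) := toList_injective.countable

variable {G : Type} [Group G]

theorem lmul_rmul (g h : G) (w : Wd G) : lmul g (rmul h w) = rmul h (lmul g w) := by
  cases w <;> simp [lmul, rmul, mul_assoc]

theorem lmul_rcre (g : G) (w : Wd G) : lmul g (rcre w) = rcre (lmul g w) := by
  cases w <;> simp [lmul, rcre]

theorem cre_rmul (h : G) (w : Wd G) : cre (rmul h w) = rmul h (cre w) := rfl

theorem cre_rcre (w : Wd G) : cre (rcre w) = rcre (cre w) := rfl

@[simp] theorem head_lmul (g : G) (w : Wd G) : (lmul g w).head = g * w.head := by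
  cases w <;> rfl

@[simp] theorem last_rmul (g : G) (w : Wd G) : (rmul g w).last = w.last * g := by
  induction w <;> simp_all [rmul, last]

@[simp] theorem head_cre (w : Wd G) : (cre w).head = 1 := rfl

@[simp] theorem last_cre (w : Wd G) : (cre w).last = w.last := rfl

@[simp] theorem last_rcre (w : Wd G) : (rcre w).last = 1 := by
  induction w <;> simp_all [rcre, last]

end Wd

section Fock

variable {G : Type} [Group G]

@[simp] theorem opL_dl (g : G) (w : Wd G) : opL g (dl w) = dl (w.lmul g) := push_dl _ _ _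
@[simp] theorem opR_dl (g : G) (w : Wd G) : opR g (dl w) = dl (w.rmul g) := push_dl _ _ _
@[simp] theorem creL_dl (w : Wd G) : creL (dl w) = dl w.cre := push_dl _ _ _
@[simp] theorem creR_dl (w : Wd G) : creR (dl w) = dl w.rcre := push_dl _ _ _
omit [Group G] in
@[simp] theorem emb_dl (g : G) : emb (dl g) = dl (Wd.one g) := push_dl _ _ _

@[simp] theorem annL_apply (ξ : Fock G) (w : Wd G) : annL ξ w = ξ w.cre := rfl
@[simp] theorem annR_apply (ξ : Fock G) (w : Wd G) : annR ξ w = ξ w.rcre := rfl

theorem opL_apply (g : G) (ξ : Fock G) (w : Wd G) : opL g ξ w = ξ (w.lmul g⁻¹) := by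
  conv_lhs => rw [show w = (w.lmul g⁻¹).lmul g by simp [Wd.lmul_lmul, Wd.lmul_one]]
  exact push_apply_self _ _ _ _

theorem opR_apply (g : G) (ξ : Fock G) (w : Wd G) : opR g ξ w = ξ (w.rmul g⁻¹) := by
  conv_lhs => rw [show w = (w.rmul g⁻¹).rmul g by simp [Wd.rmul_rmul, Wd.rmul_one]]
  exact push_apply_self _ _ _ _

@[simp] theorem creL_apply_cre (ξ : Fock G) (w : Wd G) : creL ξ w.cre = ξ w :=
  push_apply_self _ _ _ _

theorem creL_apply_one (ξ : Fock G) (g : G) : creL ξ (Wd.one g) = 0 :=
  push_apply_of_notMem _ _ _ (by rintro ⟨w, h⟩; simp [Wd.cre] at h)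

theorem creL_apply_cons (ξ : Fock G) {g : G} (hg : g ≠ 1) (w : Wd G) : creL ξ (Wd.cons g w) = 0 :=
  push_apply_of_notMem _ _ _ (by
    rintro ⟨w', h⟩
    simp only [Wd.cre, Wd.cons.injEq] at h
    exact hg h.1.symm)

@[simp] theorem annL_dl_one (g : G) : annL (dl (Wd.one g)) = 0 :=
  pull_dl_of_notMem _ _ (by rintro ⟨w, h⟩; simp [Wd.cre] at h)

@[simp] theorem annL_dl_cre (w : Wd G) : annL (dl w.cre) = dl w := pull_dl _ _ _

theorem annL_dl_cons {g : G} (hg : g ≠ 1) (w : Wd G) : annL (dl (Wd.cons g w)) = 0 :=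
  pull_dl_of_notMem _ _ (by
    rintro ⟨w', h⟩
    simp only [Wd.cre, Wd.cons.injEq] at h
    exact hg h.1.symm)

@[simp] theorem annR_dl_one (g : G) : annR (dl (Wd.one g)) = 0 :=
  pull_dl_of_notMem _ _ (by rintro ⟨w, h⟩; cases w <;> simp [Wd.rcre] at h)

@[simp] theorem annR_dl_rcre (w : Wd G) : annR (dl w.rcre) = dl w := pull_dl _ _ _

@[simp] theorem annL_creL (ξ : Fock G) : annL (creL ξ) = ξ := pull_push _ _ _
@[simp] theorem annR_creR (ξ : Fock G) : annR (creR ξ) = ξ := pull_push _ _ _

@[simp] theorem annL_Om : annL (Om : Fock G) = 0 := annL_dl_one 1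
@[simp] theorem annR_Om : annR (Om : Fock G) = 0 := annR_dl_one 1
@[simp] theorem norm_Om : ‖(Om : Fock G)‖ = 1 := norm_dl _

theorem inner_Om_left (ξ : Fock G) : ⟪(Om : Fock G), ξ⟫_ℂ = ξ (Wd.one 1) := inner_dl_left _ _

@[simp] theorem norm_opL_apply (g : G) (ξ : Fock G) : ‖opL g ξ‖ = ‖ξ‖ := norm_push_apply _ _ _
@[simp] theorem norm_opR_apply (g : G) (ξ : Fock G) : ‖opR g ξ‖ = ‖ξ‖ := norm_push_apply _ _ _
@[simp] theorem norm_creL_apply (ξ : Fock G) : ‖creL ξ‖ = ‖ξ‖ := norm_push_apply _ _ _
@[simp] theorem norm_creR_apply (ξ : Fock G) : ‖creR ξ‖ = ‖ξ‖ := norm_push_apply _ _ _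
omit [Group G] in
@[simp] theorem norm_emb_apply (ξ : ltwo G) : ‖emb ξ‖ = ‖ξ‖ := norm_push_apply _ _ _

theorem opL_mul (g h : G) : opL (g * h) = opL g * opL h := opLHom.map_mul g h
@[simp] theorem opL_one : opL (1 : G) = 1 := opLHom.map_one
theorem opR_mul (g h : G) : opR (g * h) = opR h * opR g :=
  congrArg MulOpposite.unop (opRHom.map_mul g h)
@[simp] theorem opR_one : opR (1 : G) = 1 := congrArg MulOpposite.unop opRHom.map_one

@[simp] theorem star_creL : star (creL : BF G) = annL := adjoint_push _ _
@[simp] theorem star_annL : star (annL : BF G) = creL := adjoint_pull _ _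
@[simp] theorem star_creR : star (creR : BF G) = annR := adjoint_push _ _
@[simp] theorem star_annR : star (annR : BF G) = creR := adjoint_pull _ _

@[simp] theorem star_opL (g : G) : star (opL g) = opL g⁻¹ := by
  rw [show star (opL g) = pull _ (Wd.lmul_injective g) from adjoint_push _ _]
  ext ξ w
  simp [opL_apply]

@[simp] theorem star_opR (g : G) : star (opR g) = opR g⁻¹ := by
  rw [show star (opR g) = pull _ (Wd.rmul_injective g) from adjoint_push _ _]
  ext ξ w
  simp [opR_apply]

/-- The projection onto the vacuum. -/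
def projOm : BF G := (innerSL ℂ (Om : Fock G)).smulRight Om

theorem projOm_apply (ξ : Fock G) : projOm ξ = ⟪(Om : Fock G), ξ⟫_ℂ • Om := rfl

@[simp] theorem star_projOm : star (projOm : BF G) = projOm := by
  symm
  rw [ContinuousLinearMap.star_eq_adjoint, ContinuousLinearMap.eq_adjoint_iff]
  intro x y
  simp [projOm_apply, inner_smul_left, inner_smul_right, mul_comm]

theorem commute_opL_opR (g h : G) : Commute (opL g) (opR h) :=
  ext_dl fun w => by simp [Wd.lmul_rmul]

theorem commute_opL_creR (g : G) : Commute (opL g) creR :=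
  ext_dl fun w => by simp [Wd.lmul_rcre]

theorem commute_creL_opR (h : G) : Commute creL (opR h) :=
  ext_dl fun w => by simp [Wd.cre_rmul]

theorem commute_creL_creR : Commute (creL : BF G) creR :=
  ext_dl fun w => by simp [Wd.cre_rcre]

theorem commute_opL_annR (g : G) : Commute (opL g) annR := by
  simpa using (commute_opL_creR g⁻¹).star_star

theorem commute_annL_opR (h : G) : Commute annL (opR h) := by
  simpa using (commute_creL_opR h⁻¹).star_star

theorem commute_annL_annR : Commute (annL : BF G) annR := by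
  simpa using (commute_creL_creR (G := G)).star_star

theorem annL_creR_comm : (annL : BF G) * creR - creR * annL = projOm := by
  refine ext_dl fun w => ?_
  simp only [sub_apply, mul_apply_eq_comp, creR_dl, projOm_apply,
    inner_Om_left]
  cases w with
  | one g =>
    by_cases hg : g = 1
    · subst hg
      have : (Wd.one (1 : G)).rcre = (Wd.one 1).cre := rfl
      simp [this, Om]
    · rw [Wd.rcre, annL_dl_cons hg, dl_apply_ne (by simpa using Ne.symm hg)]
      simp
  | cons g w =>
    rw [dl_apply_ne (by simp)]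
    by_cases hg : g = 1
    · subst hg
      have h1 : (Wd.cons (1 : G) w).rcre = w.rcre.cre := rfl
      have h2 : Wd.cons (1 : G) w = w.cre := rfl
      rw [h1, h2]
      simp
    · rw [Wd.rcre, annL_dl_cons hg, annL_dl_cons hg]
      simp

theorem annR_creL_comm : (annR : BF G) * creL - creL * annR = projOm := by
  simpa using congrArg star (annL_creR_comm (G := G))

@[simp] theorem piL_gA (g : G) : piL (gA g) = opL g := by simp [piL, opLHom]
@[simp] theorem piL_aA : piL (aA : Alg G) = creL + annL := by simp [piL]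
@[simp] theorem piR_gA (g : G) : piR (gA g) = opR g := by simp [piR, piRop, opRHom]
@[simp] theorem piR_aA : piR (aA : Alg G) = creR + annR := by simp [piR, piRop]
theorem piR_mul (x y : Alg G) : piR (x * y) = piR y * piR x := by simp [piR]
@[simp] theorem piR_one : piR (1 : Alg G) = 1 := by simp [piR]

theorem piL_star (x : Alg G) : piL (star x) = star (piL x) := by
  induction x using Alg.induction with
  | hg g => simp
  | ha => simp [add_comm]
  | hadd x y hx hy => simp [hx, hy]
  | hsmul c x hx => simp [hx]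
  | hmul x y hx hy => simp [hx, hy]

theorem piR_star (x : Alg G) : piR (star x) = star (piR x) := by
  induction x using Alg.induction with
  | hg g => simp
  | ha => simp [add_comm]
  | hadd x y hx hy => simp [hx, hy]
  | hsmul c x hx => simp [hx]
  | hmul x y hx hy => simp [piR_mul, hx, hy]

theorem commute_piL_piR (x y : Alg G) : Commute (piL x) (piR y) := by
  have haa : Commute (creL + annL : BF G) (creR + annR) := by
    have h1 := annL_creR_comm (G := G)
    have h2 := annR_creL_comm (G := G)
    have h3 := (commute_creL_creR (G := G)).eq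
    have h4 := (commute_annL_annR (G := G)).eq
    rw [sub_eq_iff_eq_add] at h1 h2
    change _ * _ = _ * _
    simp only [add_mul, mul_add, h1, h2, h3, h4]
    abel
  have hg : ∀ g : G, Commute (opL g) (piR y) := by
    intro g
    induction y using Alg.induction with
    | hg h => simpa using commute_opL_opR g h
    | ha => simpa using (commute_opL_creR g).add_right (commute_opL_annR g)
    | hadd x y hx hy => simpa using hx.add_right hy
    | hsmul c x hx => simpa using hx.smul_right c
    | hmul x y hx hy => simpa [piR_mul] using hy.mul_right hx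
  have ha : Commute (creL + annL : BF G) (piR y) := by
    clear hg
    induction y using Alg.induction with
    | hg h => simpa using (commute_creL_opR h).add_left (commute_annL_opR h)
    | ha => simpa using haa
    | hadd x y hx hy => simpa using hx.add_right hy
    | hsmul c x hx => simpa using hx.smul_right c
    | hmul x y hx hy => simpa [piR_mul] using hy.mul_right hx
  induction x using Alg.induction with
  | hg g => simpa using hg g
  | ha => simpa using ha
  | hadd x y hx hy => simpa using hx.add_left hy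
  | hsmul c x hx => simpa using hx.smul_left c
  | hmul x y hx hy => simpa using hx.mul_left hy

theorem vec_apply (y : Alg G) : vec y = piL y Om := rfl

theorem tau_apply (y : Alg G) : tau y = ⟪(Om : Fock G), vec y⟫_ℂ := rfl

theorem vec_mul (x y : Alg G) : vec (x * y) = piL x (vec y) := by simp [vec_apply]

@[simp] theorem vec_one : vec (1 : Alg G) = Om := by simp [vec_apply]

@[simp] theorem vec_gA (g : G) : vec (gA g) = dl (Wd.one g) := by simp [vec_apply, Om, Wd.lmul]

@[simp] theorem vec_aA : vec (aA : Alg G) = dl (Wd.cons 1 (Wd.one 1)) := by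
  simp [vec_apply, Om, Wd.cre]

theorem piR_Om (y : Alg G) : piR y Om = vec y := by
  induction y using Alg.induction with
  | hg g => simp [Om, Wd.rmul]
  | ha => simp [Om, Wd.rcre]
  | hadd x y hx hy => simp [hx, hy]
  | hsmul c x hx => simp [hx]
  | hmul x y hx hy =>
    rw [piR_mul, mul_apply_eq_comp, hx, vec_apply, ← mul_apply_eq_comp,
      ← (commute_piL_piR x y).eq, mul_apply_eq_comp, hy, vec_mul]

theorem vec_mul' (x y : Alg G) : vec (x * y) = piR y (vec x) := by
  rw [← piR_Om, piR_mul, mul_apply_eq_comp, piR_Om]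

theorem dl_mem_range_vec (w : Wd G) : dl w ∈ LinearMap.range (vec : Alg G →ₗ[ℂ] Fock G) := by
  have key : ∀ w : Wd G, dl w ∈ LinearMap.range (vec : Alg G →ₗ[ℂ] Fock G) ∧
      annL (dl w) ∈ LinearMap.range (vec : Alg G →ₗ[ℂ] Fock G) := by
    intro w
    induction w with
    | one g => exact ⟨⟨gA g, by simp⟩, by simp⟩
    | cons g w ih =>
      obtain ⟨⟨y, hy⟩, ⟨z, hz⟩⟩ := ih
      refine ⟨⟨gA g * (aA * y - z), ?_⟩, ?_⟩
      · simp [vec_mul, hy, hz, Wd.cre, Wd.lmul]
      · by_cases hg : g = 1
        · subst hg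
          exact ⟨y, by rw [hy]; exact (annL_dl_cre w).symm⟩
        · simp [annL_dl_cons hg]
  exact (key w).1

theorem denseRange_vec : DenseRange (vec : Alg G → Fock G) := by
  refine dense_span_dl.mono ?_
  have : Submodule.span ℂ (Set.range (dl : Wd G → Fock G)) ≤ LinearMap.range vec :=
    Submodule.span_le.2 (by rintro _ ⟨w, rfl⟩; exact dl_mem_range_vec w)
  exact this

theorem inner_vec_vec (x y : Alg G) : ⟪vec x, vec y⟫_ℂ = tau (star x * y) := by
  rw [tau_apply, vec_mul, piL_star, ContinuousLinearMap.star_eq_adjoint,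
    ContinuousLinearMap.adjoint_inner_right, vec_apply x]

theorem tau_comm (x y : Alg G) : tau (x * y) = tau (y * x) := by
  have h := inner_vec_vec (star y) x
  rw [star_star] at h
  rw [← h, tau_apply, vec_mul', ← piR_Om (star y), piR_star, ContinuousLinearMap.star_eq_adjoint,
    ContinuousLinearMap.adjoint_inner_left]

theorem norm_vec_star (x : Alg G) : ‖vec (star x)‖ = ‖vec x‖ := by
  rw [@norm_eq_sqrt_re_inner ℂ, @norm_eq_sqrt_re_inner ℂ, inner_vec_vec, inner_vec_vec, star_star,
    tau_comm]

open Classical in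
theorem tau_gA (g : G) : tau (gA g) = if g = 1 then 1 else 0 := by
  rw [tau_apply, inner_Om_left, vec_gA, dl_apply]
  simp [eq_comm]

@[simp] theorem tau_one : tau (1 : Alg G) = 1 := by
  simp [tau_apply, inner_self_eq_norm_sq_to_K]

theorem norm_opL_le (g : G) : ‖opL g‖ ≤ 1 := norm_push_le _ _
theorem norm_opR_le (g : G) : ‖opR g‖ ≤ 1 := norm_push_le _ _

theorem norm_piL_aA_le : ‖piL (aA : Alg G)‖ ≤ 2 := by
  rw [piL_aA]
  refine (norm_add_le _ _).trans ?_
  have h1 : ‖(creL : BF G)‖ ≤ 1 := norm_push_le _ _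
  have h2 : ‖(annL : BF G)‖ ≤ 1 := norm_pull_le _ _
  linarith

theorem norm_piR_aA_le : ‖piR (aA : Alg G)‖ ≤ 2 := by
  rw [piR_aA]
  refine (norm_add_le _ _).trans ?_
  have h1 : ‖(creR : BF G)‖ ≤ 1 := norm_push_le _ _
  have h2 : ‖(annR : BF G)‖ ≤ 1 := norm_pull_le _ _
  linarith

theorem norm_vec_mul_le (x y : Alg G) : ‖vec (x * y)‖ ≤ ‖piL x‖ * ‖vec y‖ := by
  rw [vec_mul]; exact (piL x).le_opNorm _

theorem norm_vec_mul_le' (x y : Alg G) : ‖vec (x * y)‖ ≤ ‖piR y‖ * ‖vec x‖ := by
  rw [vec_mul']; exact (piR y).le_opNorm _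

@[simp] theorem norm_vec_gA_mul (g : G) (y : Alg G) : ‖vec (gA g * y)‖ = ‖vec y‖ := by
  simp [vec_mul]

@[simp] theorem norm_vec_mul_gA (g : G) (y : Alg G) : ‖vec (y * gA g)‖ = ‖vec y‖ := by
  simp [vec_mul']

theorem opL_comp_emb (g : G) : (opL g).comp emb = emb.comp (leftRegular g) :=
  ext_dl fun h => by simp [leftRegular_dl, Wd.lmul]

theorem opR_comp_emb (g : G) : (opR g⁻¹).comp emb = emb.comp (rightRegular g) :=
  ext_dl fun h => by simp [rightRegular_dl, Wd.rmul]

end Fock

/-! ### Twisted derivations -/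

section Der

variable {ι : Type} {B : Type*} [Ring B] [Algebra ℂ B]

@[elab_as_elim]
theorem Alg.induction_free {P : Alg (FreeGroup ι) → Prop} (y : Alg (FreeGroup ι)) (h1 : P 1)
    (hof : ∀ i, P (gA (FreeGroup.of i))) (hinv : ∀ i, P (gA (FreeGroup.of i)⁻¹)) (ha : P aA)
    (hadd : ∀ x y, P x → P y → P (x + y)) (hsmul : ∀ (c : ℂ) x, P x → P (c • x))
    (hmul : ∀ x y, P x → P y → P (x * y)) : P y := by
  refine Alg.induction y (fun g => ?_) ha hadd hsmul hmul
  induction g using FreeGroup.induction_on with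
  | C1 => simpa using h1
  | of i => exact hof i
  | inv_of i _ => exact hinv i
  | mul x y hx hy => rw [map_mul]; exact hmul _ _ hx hy

variable (φ ψ : Alg (FreeGroup ι) →ₐ[ℂ] B) (d : ι → B) (da : B)

theorem derHom_of (i : ι) : derHom φ ψ d da (gA (FreeGroup.of i)) =
    !![φ (gA (FreeGroup.of i)), d i; 0, ψ (gA (FreeGroup.of i))] := by
  simp [derHom, derUnit]

theorem derHom_of_inv (i : ι) : derHom φ ψ d da (gA (FreeGroup.of i)⁻¹) =
    !![φ (gA (FreeGroup.of i)⁻¹), -(φ (gA (FreeGroup.of i)⁻¹) * d i * ψ (gA (FreeGroup.of i)⁻¹));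
      0, ψ (gA (FreeGroup.of i)⁻¹)] := by
  rw [derHom, Alg.lift_gA, MonoidHom.comp_apply, map_inv, FreeGroup.lift_apply_of]
  rfl

theorem derHom_aA : derHom φ ψ d da aA = !![φ aA, da; 0, ψ aA] := by
  simp [derHom]

theorem derHom_eq (y : Alg (FreeGroup ι)) :
    derHom φ ψ d da y = !![φ y, der φ ψ d da y; 0, ψ y] := by
  have key : derHom φ ψ d da y 0 0 = φ y ∧ derHom φ ψ d da y 1 0 = 0 ∧
      derHom φ ψ d da y 1 1 = ψ y := by
    induction y using Alg.induction_free with
    | h1 => simp
    | hof i => simp [derHom_of]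
    | hinv i => rw [derHom_of_inv]; simp
    | ha => simp [derHom_aA]
    | hadd x y hx hy => simp [hx, hy]
    | hsmul c x hx => simp [hx]
    | hmul x y hx hy => simp [Matrix.mul_apply, Fin.sum_univ_two, hx, hy]
  ext i j
  fin_cases i <;> fin_cases j
  · simpa using key.1
  · rfl
  · simpa using key.2.1
  · simpa using key.2.2

theorem der_mul (x y : Alg (FreeGroup ι)) :
    der φ ψ d da (x * y) = der φ ψ d da x * ψ y + φ x * der φ ψ d da y := by
  change derHom φ ψ d da (x * y) 0 1 = _
  rw [map_mul, derHom_eq, derHom_eq]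
  simp [add_comm]

@[simp] theorem der_one : der φ ψ d da 1 = 0 := by
  change derHom φ ψ d da 1 0 1 = _
  simp

@[simp] theorem der_of (i : ι) : der φ ψ d da (gA (FreeGroup.of i)) = d i := by
  change derHom φ ψ d da _ 0 1 = _
  simp [derHom_of]

theorem der_of_inv (i : ι) : der φ ψ d da (gA (FreeGroup.of i)⁻¹) =
    -(φ (gA (FreeGroup.of i)⁻¹) * d i * ψ (gA (FreeGroup.of i)⁻¹)) := by
  change derHom φ ψ d da _ 0 1 = _
  rw [derHom_of_inv]
  simp

@[simp] theorem der_aA : der φ ψ d da aA = da := by
  change derHom φ ψ d da _ 0 1 = _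
  simp [derHom_aA]

/-- A twisted derivation is determined by its values on the generators. -/
theorem der_unique (D : Alg (FreeGroup ι) →ₗ[ℂ] B)
    (hD : ∀ x y, D (x * y) = D x * ψ y + φ x * D y) (hof : ∀ i, D (gA (FreeGroup.of i)) = 0)
    (ha : D aA = 0) (y : Alg (FreeGroup ι)) : D y = 0 := by
  have h1 : D 1 = 0 := by simpa using hD 1 1
  induction y using Alg.induction_free with
  | h1 => exact h1
  | hof i => exact hof i
  | hinv i =>
    have := hD (gA (FreeGroup.of i)⁻¹) (gA (FreeGroup.of i))
    rw [← map_mul, inv_mul_cancel, map_one, h1, hof, mul_zero, add_zero] at this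
    have h2 := congrArg (· * ψ (gA (FreeGroup.of i)⁻¹)) this
    simpa [mul_assoc, ← map_mul] using h2.symm
  | ha => exact ha
  | hadd x y hx hy => simp [hx, hy]
  | hsmul c x hx => simp [hx]
  | hmul x y hx hy => simp [hD, hx, hy]

end Der

section VV

variable {ι : Type} (u v : ι) (L : ℕ)

theorem VV_mul (x y : Alg (FreeGroup ι)) :
    VV u v L (x * y) = VV u v L x * y + x * VV u v L y := der_mul _ _ _ _ x y

@[simp] theorem VV_one : VV u v L 1 = 0 := der_one _ _ _ _

@[simp] theorem VV_aA : VV u v L aA = -pp u v L := der_aA _ _ _ _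

theorem VV_u : VV u v L (gA (FreeGroup.of u)) = kk u v L * gA (FreeGroup.of u) := by
  simp [VV]

theorem VV_of_ne {i : ι} (h : i ≠ u) : VV u v L (gA (FreeGroup.of i)) = 0 := by
  simp [VV, h]

theorem VV_gA_inv (g : FreeGroup ι) :
    VV u v L (gA g⁻¹) = -(gA g⁻¹ * VV u v L (gA g) * gA g⁻¹) := by
  have := VV_mul u v L (gA g⁻¹) (gA g)
  rw [← map_mul, inv_mul_cancel, map_one, VV_one] at this
  have h2 := congrArg (· * gA g⁻¹) this
  simp only [zero_mul, add_mul, mul_assoc, ← map_mul, mul_inv_cancel, map_one, mul_one] at h2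
  rw [mul_assoc]
  exact eq_neg_of_add_eq_zero_left h2.symm

theorem star_bb : star (bb u v L) = -bb u v L := by simp [bb]

theorem star_Ad (g : FreeGroup ι) (y : Alg (FreeGroup ι)) : star (Ad g y) = Ad g (star y) := by
  simp [Ad, mul_assoc]

theorem star_kk : star (kk u v L) = -kk u v L := by
  simp [kk, star_bb, Ad, mul_assoc]

theorem star_pp : star (pp u v L) = pp u v L := by simp [pp, add_comm]

theorem VV_star (y : Alg (FreeGroup ι)) : VV u v L (star y) = star (VV u v L y) := by
  have hof : ∀ i, VV u v L (gA (FreeGroup.of i)⁻¹) = star (VV u v L (gA (FreeGroup.of i))) := by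
    intro i
    rw [VV_gA_inv]
    by_cases h : i = u
    · subst h
      simp [VV_u, star_kk, mul_assoc, ← map_mul]
    · simp [VV_of_ne u v L h]
  induction y using Alg.induction_free with
  | h1 => simp
  | hof i => simpa using hof i
  | hinv i => rw [hof, star_star]; simp
  | ha => simp [star_pp]
  | hadd x y hx hy => simp [hx, hy]
  | hsmul c x hx => simp [hx]
  | hmul x y hx hy => simp [VV_mul, hx, hy, add_comm]

end VV

end Crest.Agent.R134

end
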