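import Crest.Agent.R134.Basic

/-!
Factorial growth of the iterates of a derivation in operator norm.
-/

set_option autoImplicit false

open scoped Nat

noncomputable section

namespace Crest.Agent.R134

namespace Bound

variable {ι : Type}

/-- The letters: `a`, the generators and their inverses. -/
def letter : Option (ι × Bool) → Alg (FreeGroup ι)
  | none => aA
  | some (i, true) => gA (FreeGroup.of i)
  | some (i, false) => gA (FreeGroup.of i)⁻¹

/-- The product of a list of letters. -/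
def ev (l : List (Option (ι × Bool))) : Alg (FreeGroup ι) := (l.map letter).prod

@[simp] theorem ev_nil : ev ([] : List (Option (ι × Bool))) = 1 := rfl

theorem ev_cons (a : Option (ι × Bool)) (l : List (Option (ι × Bool))) :
    ev (a :: l) = letter a * ev l := by simp [ev]

theorem ev_append (l l' : List (Option (ι × Bool))) : ev (l ++ l') = ev l * ev l' := by
  simp [ev]

/-- `Bd d y C`: `y` is a combination of words of length at most `d` with total weight `≤ C`. -/
inductive Bd (d : ℕ) : Alg (FreeGroup ι) → ℝ → Prop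
  | mono (l : List (Option (ι × Bool))) (h : l.length ≤ d) : Bd d (ev l) 1
  | zero : Bd d 0 0
  | add {x y : Alg (FreeGroup ι)} {C C' : ℝ} : Bd d x C → Bd d y C' → Bd d (x + y) (C + C')
  | smul (c : ℂ) {x : Alg (FreeGroup ι)} {C : ℝ} : Bd d x C → Bd d (c • x) (‖c‖ * C)
  | weaken {x : Alg (FreeGroup ι)} {C C' : ℝ} : Bd d x C → C ≤ C' → Bd d x C'

theorem Bd.nonneg {d : ℕ} {y : Alg (FreeGroup ι)} {C : ℝ} (h : Bd d y C) : 0 ≤ C := by
  induction h with
  | mono l h => exact zero_le_one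
  | zero => exact le_rfl
  | add _ _ h1 h2 => positivity
  | smul c _ h1 => positivity
  | weaken _ h h1 => exact h1.trans h

theorem Bd.mono_deg {d d' : ℕ} {y : Alg (FreeGroup ι)} {C : ℝ} (h : Bd d y C) (hd : d ≤ d') :
    Bd d' y C := by
  induction h with
  | mono l h => exact Bd.mono l (h.trans hd)
  | zero => exact Bd.zero
  | add _ _ h1 h2 => exact h1.add h2
  | smul c _ h1 => exact h1.smul c
  | weaken _ h h1 => exact h1.weaken h

theorem Bd.ev_mul {d d' : ℕ} (l : List (Option (ι × Bool))) (hl : l.length ≤ d)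
    {y : Alg (FreeGroup ι)} {C : ℝ} (h : Bd d' y C) : Bd (d + d') (ev l * y) C := by
  induction h with
  | mono l' h =>
    rw [← ev_append]
    exact Bd.mono _ (by rw [List.length_append]; omega)
  | zero => rw [mul_zero]; exact Bd.zero
  | add _ _ h1 h2 => rw [mul_add]; exact h1.add h2
  | smul c _ h1 => rw [mul_smul_comm]; exact h1.smul c
  | weaken _ h h1 => exact h1.weaken h

theorem Bd.mul {d d' : ℕ} {x y : Alg (FreeGroup ι)} {C C' : ℝ} (h : Bd d x C) (h' : Bd d' y C') :
    Bd (d + d') (x * y) (C * C') := by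
  induction h with
  | mono l hl => rw [one_mul]; exact h'.ev_mul l hl
  | zero => rw [zero_mul, zero_mul]; exact Bd.zero
  | add _ _ h1 h2 => rw [add_mul, add_mul]; exact h1.add h2
  | smul c _ h1 => rw [smul_mul_assoc, mul_assoc]; exact h1.smul c
  | weaken _ h h1 => exact h1.weaken (mul_le_mul_of_nonneg_right h h'.nonneg)

theorem bd_letter (a : Option (ι × Bool)) : Bd 1 (letter a) 1 := by
  have := Bd.mono (d := 1) [a] le_rfl
  simpa [ev] using this

theorem exists_bd (y : Alg (FreeGroup ι)) : ∃ d C, Bd d y C := by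
  induction y using Alg.induction_free with
  | h1 => exact ⟨0, 1, Bd.mono [] le_rfl⟩
  | hof i => exact ⟨1, 1, bd_letter (some (i, true))⟩
  | hinv i => exact ⟨1, 1, bd_letter (some (i, false))⟩
  | ha => exact ⟨1, 1, bd_letter none⟩
  | hadd x y hx hy =>
    obtain ⟨d, C, h⟩ := hx
    obtain ⟨d', C', h'⟩ := hy
    exact ⟨max d d', C + C', (h.mono_deg (le_max_left _ _)).add (h'.mono_deg (le_max_right _ _))⟩
  | hsmul c x hx =>
    obtain ⟨d, C, h⟩ := hx
    exact ⟨d, _, h.smul c⟩
  | hmul x y hx hy =>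
    obtain ⟨d, C, h⟩ := hx
    obtain ⟨d', C', h'⟩ := hy
    exact ⟨_, _, h.mul h'⟩

theorem norm_letter (a : Option (ι × Bool)) :
    ‖piL (letter a)‖ ≤ 2 ∧ ‖piR (letter a)‖ ≤ 2 := by
  rcases a with _ | ⟨i, _ | _⟩
  · exact ⟨norm_piL_aA_le, norm_piR_aA_le⟩
  · simp only [letter, piL_gA, piR_gA]
    exact ⟨(norm_opL_le _).trans one_le_two, (norm_opR_le _).trans one_le_two⟩
  · simp only [letter, piL_gA, piR_gA]
    exact ⟨(norm_opL_le _).trans one_le_two, (norm_opR_le _).trans one_le_two⟩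

theorem norm_one_le : ‖(1 : BF (FreeGroup ι))‖ ≤ 1 := ContinuousLinearMap.norm_id_le

theorem norm_ev (l : List (Option (ι × Bool))) :
    ‖piL (ev l)‖ ≤ 2 ^ l.length ∧ ‖piR (ev l)‖ ≤ 2 ^ l.length := by
  induction l with
  | nil =>
    simp only [ev_nil, map_one, piR_one, List.length_nil, pow_zero]
    exact ⟨norm_one_le, norm_one_le⟩
  | cons a l ih =>
    rw [ev_cons, map_mul, piR_mul, List.length_cons]
    constructor
    · rw [pow_succ']
      exact (norm_mul_le _ _).trans
        (mul_le_mul (norm_letter a).1 ih.1 (norm_nonneg _) (by norm_num))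
    · rw [pow_succ]
      exact (norm_mul_le _ _).trans
        (mul_le_mul ih.2 (norm_letter a).2 (norm_nonneg _) (by positivity))

theorem Bd.norm_le {d : ℕ} {y : Alg (FreeGroup ι)} {C : ℝ} (h : Bd d y C) :
    ‖piL y‖ ≤ C * 2 ^ d ∧ ‖piR y‖ ≤ C * 2 ^ d := by
  induction h with
  | mono l h =>
    have h2 : (2 : ℝ) ^ l.length ≤ 1 * 2 ^ d := by
      rw [one_mul]; exact pow_le_pow_right₀ one_le_two h
    exact ⟨(norm_ev l).1.trans h2, (norm_ev l).2.trans h2⟩
  | zero => simp
  | add _ _ h1 h2 =>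
    rw [map_add, map_add, add_mul]
    exact ⟨(norm_add_le _ _).trans (add_le_add h1.1 h2.1),
      (norm_add_le _ _).trans (add_le_add h1.2 h2.2)⟩
  | smul c _ h1 =>
    rw [map_smul, map_smul, norm_smul, norm_smul, mul_assoc]
    exact ⟨mul_le_mul_of_nonneg_left h1.1 (norm_nonneg _),
      mul_le_mul_of_nonneg_left h1.2 (norm_nonneg _)⟩
  | weaken _ h h1 =>
    have := mul_le_mul_of_nonneg_right h (show (0 : ℝ) ≤ 2 ^ d by positivity)
    exact ⟨h1.1.trans this, h1.2.trans this⟩

section Der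

variable (V : Alg (FreeGroup ι) →ₗ[ℂ] Alg (FreeGroup ι))
  (hV : ∀ x y, V (x * y) = V x * y + x * V y) {D : ℕ} {B : ℝ} (hB : 0 ≤ B)
  (hl : ∀ a, Bd (D + 1) (V (letter a)) B)

include hV hB hl

theorem bd_V_ev (l : List (Option (ι × Bool))) :
    Bd (l.length + D) (V (ev l)) (l.length * B) := by
  induction l with
  | nil =>
    have h1 : V 1 = 0 := by simpa using hV 1 1
    simp only [ev_nil, h1, List.length_nil, Nat.cast_zero, zero_mul]
    exact Bd.zero
  | cons a l ih =>
    rw [ev_cons, hV, List.length_cons]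
    have h1 := (hl a).mul (Bd.mono (d := l.length) l le_rfl)
    have h2 := (bd_letter a).mul ih
    have h3 := (h1.mono_deg (d' := l.length + 1 + D) (by omega)).add
      (h2.mono_deg (d' := l.length + 1 + D) (by omega))
    refine h3.weaken (le_of_eq ?_)
    push_cast
    ring

theorem Bd.der {d : ℕ} {y : Alg (FreeGroup ι)} {C : ℝ} (h : Bd d y C) :
    Bd (d + D) (V y) (d * B * C) := by
  induction h with
  | mono l h =>
    refine ((bd_V_ev V hV hB hl l).mono_deg (by omega)).weaken ?_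
    rw [mul_one]
    exact mul_le_mul_of_nonneg_right (by exact_mod_cast h) hB
  | zero => rw [map_zero, mul_zero]; exact Bd.zero
  | add _ _ h1 h2 => rw [map_add, mul_add]; exact h1.add h2
  | smul c _ h1 =>
    rw [map_smul]
    exact (h1.smul c).weaken (le_of_eq (by ring))
  | weaken _ h h1 => exact h1.weaken (mul_le_mul_of_nonneg_left h (by positivity))

theorem Bd.iter {d : ℕ} {y : Alg (FreeGroup ι)} {C : ℝ} (h : Bd d y C) (k : ℕ) :
    Bd (d + k * D) ((V ^ k) y) (C * ((D + 1) * B) ^ k * (d + k)!) := by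
  induction k with
  | zero =>
    simp only [zero_mul, add_zero, pow_zero, Module.End.one_apply, mul_one]
    refine h.weaken (le_mul_of_one_le_right h.nonneg ?_)
    exact_mod_cast Nat.factorial_pos d
  | succ k ih =>
    rw [pow_succ', Module.End.mul_apply]
    refine ((ih.der V hV hB hl).mono_deg (le_of_eq (by ring))).weaken ?_
    have hC := h.nonneg
    rw [← add_assoc, Nat.factorial_succ, pow_succ]
    push_cast
    have h1 : ((d : ℝ) + k * D) ≤ (D + 1) * (d + k + 1) := by
      have : (0 : ℝ) ≤ d := by positivity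
      have : (0 : ℝ) ≤ k := by positivity
      have : (0 : ℝ) ≤ D := by positivity
      nlinarith [mul_nonneg ‹(0 : ℝ) ≤ d› ‹(0 : ℝ) ≤ D›]
    have h2 : (0 : ℝ) ≤ B * (C * ((D + 1) * B) ^ k * (d + k)!) := by positivity
    calc ((d : ℝ) + k * D) * B * (C * ((D + 1) * B) ^ k * (d + k)!)
        = ((d : ℝ) + k * D) * (B * (C * ((D + 1) * B) ^ k * (d + k)!)) := by ring
      _ ≤ ((D + 1) * (d + k + 1)) * (B * (C * ((D + 1) * B) ^ k * (d + k)!)) :=
        mul_le_mul_of_nonneg_right h1 h2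
      _ = _ := by ring

end Der

theorem factorial_add_le (d k : ℕ) : (d + k)! ≤ 2 ^ (d + k) * d ! * k ! := by
  rw [← Nat.add_choose_mul_factorial_mul_factorial d k]
  gcongr
  exact Nat.choose_le_two_pow _ _

theorem exists_letter_bd [Finite ι] (V : Alg (FreeGroup ι) →ₗ[ℂ] Alg (FreeGroup ι)) :
    ∃ (D : ℕ) (B : ℝ), 0 < B ∧ ∀ a, Bd (D + 1) (V (letter a)) B := by
  choose d C h using fun a : Option (ι × Bool) => exists_bd (V (letter a))
  obtain ⟨D, hD⟩ := (Set.finite_range d).bddAbove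
  obtain ⟨B, hB⟩ := (Set.finite_range C).bddAbove
  refine ⟨D, max B 1, lt_max_of_lt_right one_pos, fun a => ?_⟩
  refine ((h a).mono_deg ?_).weaken ?_
  · exact (hD ⟨a, rfl⟩).trans (Nat.le_succ _)
  · exact (hB ⟨a, rfl⟩).trans (le_max_left _ _)

end Bound

open _root_.Crest.Agent.R134.Bound in
theorem exists_factorial_bound {ι : Type} [Finite ι] (V : Alg (FreeGroup ι) →ₗ[ℂ] Alg (FreeGroup ι))
    (hV : ∀ x y, V (x * y) = V x * y + x * V y) :
    ∃ R : ℝ, 0 < R ∧ ∀ y, ∃ C : ℝ, ∀ k : ℕ,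
      ‖piL ((V ^ k) y)‖ ≤ C * R ^ k * k ! ∧ ‖piR ((V ^ k) y)‖ ≤ C * R ^ k * k ! := by
  obtain ⟨D, B, hB, hl⟩ := exists_letter_bd V
  refine ⟨(D + 1) * B * 2 * 2 ^ D, by positivity, fun y => ?_⟩
  obtain ⟨d, C, h⟩ := exists_bd y
  refine ⟨C * 2 ^ d * d ! * 2 ^ d, fun k => ?_⟩
  have h1 := (h.iter V hV hB.le hl k).norm_le
  have hC := h.nonneg
  have h2 : (((d + k)! : ℕ) : ℝ) ≤ 2 ^ (d + k) * d ! * k ! := by
    exact_mod_cast factorial_add_le d k
  have h3 : C * ((D + 1) * B) ^ k * (d + k)! * 2 ^ (d + k * D) ≤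
      C * 2 ^ d * d ! * 2 ^ d * ((D + 1) * B * 2 * 2 ^ D) ^ k * k ! := by
    calc C * ((D + 1) * B) ^ k * (d + k)! * 2 ^ (d + k * D)
        ≤ C * ((D + 1) * B) ^ k * (2 ^ (d + k) * d ! * k !) * 2 ^ (d + k * D) := by gcongr
      _ = _ := by
        rw [mul_pow (((D : ℝ) + 1) * B * 2), mul_pow (((D : ℝ) + 1) * B), ← pow_mul, pow_add,
          pow_add, mul_comm D k]
        ring
  exact ⟨h1.1.trans h3, h1.2.trans h3⟩

end Crest.Agent.R134

end
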