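import Mathlib
import Crest.Prelude.Def_GroupVNA

/-!
Shared definitions for row 134 (S0183, S0184): isomorphism of the free group factors.
-/

set_option autoImplicit false

open Crest.OpAlg
open scoped InnerProductSpace

noncomputable section

namespace Crest.Agent.R134

/-! ### Operators on `ℓ²` induced by injective maps -/

section L2

variable {X Y : Type*}

theorem memℓp_comp (f : X → Y) (hf : Function.Injective f) (ξ : ltwo Y) :
    Memℓp (fun x => ξ (f x)) 2 :=
  memℓp_gen <| ((lp.memℓp ξ).summable (by norm_num)).comp_injective hf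

/-- Restriction along an injective map, as a linear map. -/
def pullLin (f : X → Y) (hf : Function.Injective f) : ltwo Y →ₗ[ℂ] ltwo X where
  toFun ξ := ⟨fun x => ξ (f x), memℓp_comp f hf ξ⟩
  map_add' _ _ := by ext; rfl
  map_smul' _ _ := by ext; rfl

theorem norm_pullLin_le (f : X → Y) (hf : Function.Injective f) (ξ : ltwo Y) :
    ‖pullLin f hf ξ‖ ≤ 1 * ‖ξ‖ := by
  rw [one_mul]
  refine lp.norm_le_of_tsum_le (by norm_num) (norm_nonneg _) ?_
  rw [lp.norm_rpow_eq_tsum (by norm_num)]
  have hs := (lp.memℓp ξ).summable (p := 2) (by norm_num)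
  exact Summable.tsum_le_tsum_of_inj f hf (fun _ _ => by positivity) (fun _ => le_rfl)
    (hs.comp_injective hf) hs

/-- Restriction along an injective map: `(pull f ξ) x = ξ (f x)`. -/
def pull (f : X → Y) (hf : Function.Injective f) : ltwo Y →L[ℂ] ltwo X :=
  (pullLin f hf).mkContinuous 1 (norm_pullLin_le f hf)

/-- Extension by zero along an injective map: `push f (δ x) = δ (f x)`. -/
def push (f : X → Y) (hf : Function.Injective f) : ltwo X →L[ℂ] ltwo Y :=
  ContinuousLinearMap.adjoint (pull f hf)

open Classical in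
/-- The basis vector at `x`. -/
def dl (x : X) : ltwo X := lp.single 2 x (1 : ℂ)

end L2

/-- The right regular representation: `(rightRegular g ξ) h = ξ (h * g)`. -/
def rightRegular {G : Type*} [Group G] (g : G) : ltwo G →L[ℂ] ltwo G :=
  ((ltwoReindex (Equiv.mulRight g) : ltwo G ≃ₗᵢ[ℂ] ltwo G) : ltwo G →L[ℂ] ltwo G)

/-! ### Nonempty words -/

/-- Nonempty words `g₀ a g₁ a ⋯ a g_k` (Wick-ordered), the basis of the Fock space. -/
inductive Wd (G : Type) : Type
  | one (g : G) : Wd G
  | cons (g : G) (w : Wd G) : Wd G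

namespace Wd

variable {G : Type}

/-- First letter. -/
def head : Wd G → G
  | one g => g
  | cons g _ => g

/-- Last letter. -/
def last : Wd G → G
  | one g => g
  | cons _ w => w.last

variable [Group G]

/-- Multiply the first letter on the left. -/
def lmul (g : G) : Wd G → Wd G
  | one h => one (g * h)
  | cons h w => cons (g * h) w

/-- Multiply the last letter on the right. -/
def rmul (g : G) : Wd G → Wd G
  | one h => one (h * g)
  | cons h w => cons h (rmul g w)

/-- Prepend the unit. -/
def cre (w : Wd G) : Wd G := cons 1 w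

/-- Append the unit. -/
def rcre : Wd G → Wd G
  | one h => cons h (one 1)
  | cons h w => cons h (rcre w)

theorem lmul_lmul (g h : G) (w : Wd G) : lmul g (lmul h w) = lmul (g * h) w := by
  cases w <;> simp [lmul, mul_assoc]

theorem lmul_one (w : Wd G) : lmul 1 w = w := by
  cases w <;> simp [lmul]

theorem rmul_rmul (g h : G) (w : Wd G) : rmul g (rmul h w) = rmul (h * g) w := by
  induction w <;> simp_all [rmul, mul_assoc]

theorem rmul_one (w : Wd G) : rmul 1 w = w := by
  induction w <;> simp_all [rmul]

theorem lmul_injective (g : G) : Function.Injective (lmul g : Wd G → Wd G) := fun a b h => by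
  have := congrArg (lmul g⁻¹) h
  simpa [lmul_lmul, lmul_one] using this

theorem rmul_injective (g : G) : Function.Injective (rmul g : Wd G → Wd G) := fun a b h => by
  have := congrArg (rmul g⁻¹) h
  simpa [rmul_rmul, rmul_one] using this

theorem cre_injective : Function.Injective (cre : Wd G → Wd G) := fun a b h => by
  simpa [cre] using h

theorem rcre_injective : Function.Injective (rcre : Wd G → Wd G) := by
  intro a
  induction a with
  | one g =>
    intro b h
    cases b with
    | one g' => simpa [rcre] using h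
    | cons g' b => cases b <;> simp [rcre] at h
  | cons g a ih =>
    intro b h
    cases b with
    | one g' => cases a <;> simp [rcre] at h
    | cons g' b =>
      simp only [rcre, cons.injEq] at h
      rw [h.1, ih h.2]

omit [Group G] in
theorem one_injective : Function.Injective (one : G → Wd G) := fun _ _ h => by simpa using h

end Wd

/-! ### The algebra `ℂ[G] * ℂ[a]` -/

/-- The free product of the group algebra of `G` with polynomials in one variable. -/
def Alg (G : Type) [Group G] : Type := MonoidAlgebra ℂ (Monoid.Coprod G (Multiplicative ℕ))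

section Alg

variable {G : Type} [Group G]

instance : Ring (Alg G) := inferInstanceAs (Ring (MonoidAlgebra ℂ _))
instance : Algebra ℂ (Alg G) := inferInstanceAs (Algebra ℂ (MonoidAlgebra ℂ _))

/-- Monomials. -/
def Alg.mon : Monoid.Coprod G (Multiplicative ℕ) →* Alg G := MonoidAlgebra.of ℂ _

/-- Group elements in the algebra. -/
def gA : G →* Alg G := Alg.mon.comp Monoid.Coprod.inl

/-- The extra variable. -/
def aA : Alg G := Alg.mon (Monoid.Coprod.inr (Multiplicative.ofAdd 1))

/-- The universal property. -/
def Alg.lift {B : Type*} [Semiring B] [Algebra ℂ B] (φ : G →* B) (b : B) : Alg G →ₐ[ℂ] B :=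
  MonoidAlgebra.lift ℂ B _ (Monoid.Coprod.lift φ (powersHom B b))

@[simp] theorem Alg.lift_gA {B : Type*} [Semiring B] [Algebra ℂ B] (φ : G →* B) (b : B) (g : G) :
    Alg.lift φ b (gA g) = φ g := by
  change MonoidAlgebra.lift ℂ B _ _ (MonoidAlgebra.of ℂ _ _) = _
  rw [MonoidAlgebra.lift_of]
  simp

@[simp] theorem Alg.lift_aA {B : Type*} [Semiring B] [Algebra ℂ B] (φ : G →* B) (b : B) :
    Alg.lift φ b (aA : Alg G) = b := by
  change MonoidAlgebra.lift ℂ B _ _ (MonoidAlgebra.of ℂ _ _) = _
  rw [MonoidAlgebra.lift_of]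
  simp

@[elab_as_elim]
theorem Alg.induction {P : Alg G → Prop} (y : Alg G) (hg : ∀ g, P (gA g)) (ha : P aA)
    (hadd : ∀ x y, P x → P y → P (x + y)) (hsmul : ∀ (c : ℂ) x, P x → P (c • x))
    (hmul : ∀ x y, P x → P y → P (x * y)) : P y := by
  have hmon : ∀ m, P (Alg.mon m) := by
    intro m
    induction m using Monoid.Coprod.induction_on with
    | inl g => exact hg g
    | inr k =>
      have : ∀ j : ℕ, P (Alg.mon (Monoid.Coprod.inr (Multiplicative.ofAdd j))) := by
        intro j
        induction j with
        | zero =>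
          have := hg 1
          simpa [gA] using this
        | succ j ih =>
          rw [ofAdd_add, map_mul, map_mul]
          exact hmul _ _ ih ha
      exact this k.toAdd
    | mul x y hx hy =>
      rw [map_mul]
      exact hmul _ _ hx hy
  exact MonoidAlgebra.induction_on (R := ℂ) (motive := P) y hmon hadd hsmul

/-- The inversion anti-homomorphism on group elements. -/
def gInvOp : G →* (Alg G)ᵐᵒᵖ where
  toFun g := MulOpposite.op (gA g⁻¹)
  map_one' := by simp
  map_mul' g h := by simp [← MulOpposite.op_mul]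

/-- The adjoint, as a ring homomorphism to the opposite ring. -/
def starHom : Alg G →+* (Alg G)ᵐᵒᵖ :=
  MonoidAlgebra.liftNCRingHom ((algebraMap ℂ (Alg G)ᵐᵒᵖ).comp (starRingEnd ℂ))
    (Monoid.Coprod.lift gInvOp (powersHom _ (MulOpposite.op aA)))
    (fun x _ => Algebra.commute_algebraMap_left (starRingEnd ℂ x) _)

theorem starHom_gA (g : G) : starHom (gA g) = MulOpposite.op (gA g⁻¹) := by
  change MonoidAlgebra.liftNCRingHom _ _ _ (MonoidAlgebra.single _ 1) = _
  rw [MonoidAlgebra.liftNCRingHom_single]
  simp [gInvOp]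

theorem starHom_aA : starHom (aA : Alg G) = MulOpposite.op aA := by
  change MonoidAlgebra.liftNCRingHom _ _ _ (MonoidAlgebra.single _ 1) = _
  rw [MonoidAlgebra.liftNCRingHom_single]
  simp

theorem starHom_algebraMap (c : ℂ) :
    starHom (algebraMap ℂ (Alg G) c) = algebraMap ℂ _ (starRingEnd ℂ c) := by
  change MonoidAlgebra.liftNCRingHom _ _ _ (MonoidAlgebra.single 1 c) = _
  rw [MonoidAlgebra.liftNCRingHom_single]
  simp

theorem starHom_smul (c : ℂ) (x : Alg G) : starHom (c • x) = starRingEnd ℂ c • starHom x := by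
  rw [Algebra.smul_def, map_mul, starHom_algebraMap, Algebra.smul_def]

instance : StarRing (Alg G) where
  star x := (starHom x).unop
  star_involutive x := by
    induction x using Alg.induction with
    | hg g => simp [starHom_gA]
    | ha => simp [starHom_aA]
    | hadd x y hx hy => simp_all
    | hsmul c x hx => simp_all [starHom_smul]
    | hmul x y hx hy => simp_all
  star_mul x y := by simp
  star_add x y := by simp

instance : StarModule ℂ (Alg G) where
  star_smul c x := by
    change (starHom (c • x)).unop = _ • (starHom x).unop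
    simp [starHom_smul]

@[simp] theorem star_gA (g : G) : star (gA g) = gA g⁻¹ := by
  change (starHom _).unop = _
  simp [starHom_gA]

@[simp] theorem star_aA : star (aA : Alg G) = aA := by
  change (starHom _).unop = _
  simp [starHom_aA]

/-- The subalgebra spanned by the group elements. -/
def grpAlg (G : Type) [Group G] : Submodule ℂ (Alg G) := Submodule.span ℂ (Set.range gA)

end Alg

/-! ### The Fock representation -/

section Fock

variable {G : Type} [Group G]

/-- The Fock space. -/
abbrev Fock (G : Type) : Type := ltwo (Wd G)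

/-- Bounded operators on the Fock space. -/
abbrev BF (G : Type) : Type := Fock G →L[ℂ] Fock G

/-- The vacuum vector. -/
def Om : Fock G := dl (Wd.one 1)

/-- Left translation. -/
def opL (g : G) : BF G := push (Wd.lmul g) (Wd.lmul_injective g)

/-- Right translation. -/
def opR (g : G) : BF G := push (Wd.rmul g) (Wd.rmul_injective g)

/-- Left creation operator. -/
def creL : BF G := push Wd.cre Wd.cre_injective

/-- Left annihilation operator. -/
def annL : BF G := pull Wd.cre Wd.cre_injective

/-- Right creation operator. -/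
def creR : BF G := push Wd.rcre Wd.rcre_injective

/-- Right annihilation operator. -/
def annR : BF G := pull Wd.rcre Wd.rcre_injective

/-- The embedding of `ℓ²(G)` as the words of length one. -/
def emb : ltwo G →L[ℂ] Fock G := push Wd.one Wd.one_injective

theorem push_comp_apply {X Y Z : Type*} (f : X → Y) (hf : Function.Injective f) (g : Y → Z)
    (hg : Function.Injective g) :
    (push g hg).comp (push f hf) = push (g ∘ f) (hg.comp hf) := by
  unfold push
  rw [← ContinuousLinearMap.adjoint_comp]
  rfl

theorem push_congr {X Y : Type*} {f g : X → Y} (hf : Function.Injective f)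
    (hg : Function.Injective g) (h : f = g) : push f hf = push g hg := by
  subst h; rfl

theorem push_id {X : Type*} : push (id : X → X) Function.injective_id = 1 := by
  unfold push
  have : pull (id : X → X) Function.injective_id = ContinuousLinearMap.id ℂ _ := by
    ext; rfl
  rw [this, ContinuousLinearMap.adjoint_id]
  rfl

/-- Left translations as a monoid homomorphism. -/
def opLHom : G →* BF G where
  toFun := opL
  map_one' := (push_congr _ _ (funext Wd.lmul_one)).trans push_id
  map_mul' g h := by
    change _ = (opL g).comp (opL h)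
    unfold opL
    rw [push_comp_apply]
    exact push_congr _ _ (funext fun w => (Wd.lmul_lmul g h w).symm)

/-- Right translations as a monoid homomorphism to the opposite algebra. -/
def opRHom : G →* (BF G)ᵐᵒᵖ where
  toFun g := MulOpposite.op (opR g)
  map_one' := congrArg MulOpposite.op ((push_congr _ _ (funext Wd.rmul_one)).trans push_id)
  map_mul' g h := by
    rw [← MulOpposite.op_mul]
    congr 1
    change _ = (opR h).comp (opR g)
    unfold opR
    rw [push_comp_apply]
    exact push_congr _ _ (funext fun w => (Wd.rmul_rmul h g w).symm)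

/-- The left representation. -/
def piL : Alg G →ₐ[ℂ] BF G := Alg.lift opLHom (creL + annL)

/-- The right representation, as a homomorphism to the opposite algebra. -/
def piRop : Alg G →ₐ[ℂ] (BF G)ᵐᵒᵖ := Alg.lift opRHom (MulOpposite.op (creR + annR))

/-- The right representation. -/
def piR : Alg G →ₗ[ℂ] BF G :=
  (MulOpposite.opLinearEquiv ℂ).symm.toLinearMap ∘ₗ piRop.toLinearMap

/-- The vector of an algebra element. -/
def vec : Alg G →ₗ[ℂ] Fock G where
  toFun y := piL y Om
  map_add' x y := by simp
  map_smul' c x := by simp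

/-- The vacuum state. -/
def tau : Alg G →ₗ[ℂ] ℂ where
  toFun y := ⟪(Om : Fock G), vec y⟫_ℂ
  map_add' x y := by simp
  map_smul' c x := by simp

end Fock

/-! ### Unitaries normalising two commutants -/

/-- Unitaries that fix `Ω` and normalise the commutants of `𝓛` and of `𝓡`. -/
def normGrp {H : Type*} [NormedAddCommGroup H] [InnerProductSpace ℂ H] [CompleteSpace H]
    (Ω : H) (𝓛 𝓡 : Set (H →L[ℂ] H)) : Subgroup (unitary (H →L[ℂ] H)) where
  carrier := {W | (W : H →L[ℂ] H) Ω = Ω ∧
    (∀ z, z ∈ 𝓛.centralizer ↔ (W : H →L[ℂ] H) * z * star (W : H →L[ℂ] H) ∈ 𝓛.centralizer) ∧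
    (∀ z, z ∈ 𝓡.centralizer ↔ (W : H →L[ℂ] H) * z * star (W : H →L[ℂ] H) ∈ 𝓡.centralizer)}
  one_mem' := by simp
  mul_mem' := by
    rintro W W' ⟨h1, h2, h3⟩ ⟨h1', h2', h3'⟩
    refine ⟨by simp [h1, h1'], fun z => ?_, fun z => ?_⟩
    · rw [h2', h2]; simp [mul_assoc]
    · rw [h3', h3]; simp [mul_assoc]
  inv_mem' := by
    rintro W ⟨h1, h2, h3⟩
    have key : ∀ z : H →L[ℂ] H, (W : H →L[ℂ] H) * (((W⁻¹ : unitary _) : H →L[ℂ] H) * z *
        star ((W⁻¹ : unitary _) : H →L[ℂ] H)) * star (W : H →L[ℂ] H) = z := by
      intro z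
      rw [← Unitary.star_eq_inv, Unitary.coe_star, star_star]
      have h0 : (W : H →L[ℂ] H) * star (W : H →L[ℂ] H) = 1 := W.2.2
      simp only [← mul_assoc, h0, one_mul]
      rw [mul_assoc, h0, mul_one]
    refine ⟨?_, fun z => ?_, fun z => ?_⟩
    · conv_lhs => rw [← h1]
      have h0 : star (W : H →L[ℂ] H) * (W : H →L[ℂ] H) = 1 := W.2.1
      rw [← mul_apply_eq_comp, ← Unitary.star_eq_inv, Unitary.coe_star, h0]
      rfl
    · rw [h2 (_ * z * _), key]
    · rw [h3 (_ * z * _), key]

/-- The normaliser group of the Fock representation. -/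
abbrev fockGrp (G : Type) [Group G] : Subgroup (unitary (BF G)) :=
  normGrp Om (Set.range (piL : Alg G → BF G)) (Set.range (piR : Alg G → BF G))

/-! ### Twisted derivations on the algebra of a free group -/

section Der

variable {ι : Type} {B : Type*} [Ring B] [Algebra ℂ B]

/-- The triangular unit attached to a generator. -/
def derUnit (φ ψ : Alg (FreeGroup ι) →ₐ[ℂ] B) (d : ι → B) (i : ι) :
    (Matrix (Fin 2) (Fin 2) B)ˣ where
  val := !![φ (gA (FreeGroup.of i)), d i; 0, ψ (gA (FreeGroup.of i))]
  inv := !![φ (gA (FreeGroup.of i)⁻¹), -(φ (gA (FreeGroup.of i)⁻¹) * d i * ψ (gA (FreeGroup.of i)⁻¹));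
    0, ψ (gA (FreeGroup.of i)⁻¹)]
  val_inv := by
    rw [Matrix.mul_fin_two, Matrix.one_fin_two]
    simp [← mul_assoc, ← map_mul]
  inv_val := by
    rw [Matrix.mul_fin_two, Matrix.one_fin_two]
    simp [mul_assoc, ← map_mul]

/-- The triangular homomorphism. -/
def derHom (φ ψ : Alg (FreeGroup ι) →ₐ[ℂ] B) (d : ι → B) (da : B) :
    Alg (FreeGroup ι) →ₐ[ℂ] Matrix (Fin 2) (Fin 2) B :=
  Alg.lift ((Units.coeHom _).comp (FreeGroup.lift (derUnit φ ψ d))) !![φ aA, da; 0, ψ aA]

/-- The `(φ, ψ)`-derivation with values `d i` on the generators and `da` on `a`. -/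
def der (φ ψ : Alg (FreeGroup ι) →ₐ[ℂ] B) (d : ι → B) (da : B) : Alg (FreeGroup ι) →ₗ[ℂ] B where
  toFun y := derHom φ ψ d da y 0 1
  map_add' x y := by simp
  map_smul' c x := by simp

end Der

/-! ### The long words and the derivation -/

section Words

variable {ι : Type} (u v : ι)

/-- The long word `∏_{j<L} v^(2^j) u v^(-2^j)`. -/
def ww : ℕ → FreeGroup ι
  | 0 => 1
  | L + 1 => ww L * (FreeGroup.of v ^ (2 ^ L) * FreeGroup.of u * (FreeGroup.of v ^ (2 ^ L))⁻¹)

/-- The prefix of the long word cut before the `j`-th letter `u`. -/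
def qq (j : ℕ) : FreeGroup ι := ww u v j * FreeGroup.of v ^ (2 ^ j)

/-- Conjugation by a group element. -/
def Ad (g : FreeGroup ι) (y : Alg (FreeGroup ι)) : Alg (FreeGroup ι) := gA g * y * gA g⁻¹

/-- `b = w a - a w⁻¹`. -/
def bb (L : ℕ) : Alg (FreeGroup ι) := gA (ww u v L) * aA - aA * gA (ww u v L)⁻¹

/-- `k = -(1/L) ∑ q_j⁻¹ b q_j`. -/
def kk (L : ℕ) : Alg (FreeGroup ι) :=
  (-(L : ℂ)⁻¹) • ∑ j ∈ Finset.range L, Ad (qq u v j)⁻¹ (bb u v L)

/-- `p = w + w⁻¹`. -/
def pp (L : ℕ) : Alg (FreeGroup ι) := gA (ww u v L) + gA (ww u v L)⁻¹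

open Classical in
/-- The derivation `u ↦ k u`, `a ↦ -p`, other generators `↦ 0`. -/
def VV (L : ℕ) : Alg (FreeGroup ι) →ₗ[ℂ] Alg (FreeGroup ι) :=
  der (AlgHom.id ℂ _) (AlgHom.id ℂ _)
    (fun i => if i = u then kk u v L * gA (FreeGroup.of u) else 0) (-pp u v L)

end Words

end Crest.Agent.R134

end
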