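import Crest.Agent.R134.Orth

/-!
Uniform estimates for the derivations `VV u v L`.
-/

set_option autoImplicit false

open Crest.OpAlg Filter Topology
open scoped InnerProductSpace

noncomputable section

namespace Crest.Agent.R134

namespace Est

variable {ι : Type}

local notation "A" => Alg (FreeGroup ι)

/-! ### Conjugation -/

theorem Ad_add (g : FreeGroup ι) (x y : A) : Ad g (x + y) = Ad g x + Ad g y := by
  simp [Ad, mul_add, add_mul]
theorem Ad_sub (g : FreeGroup ι) (x y : A) : Ad g (x - y) = Ad g x - Ad g y := by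
  simp [Ad, mul_sub, sub_mul]
theorem Ad_neg (g : FreeGroup ι) (x : A) : Ad g (-x) = -Ad g x := by simp [Ad]
theorem Ad_smul (g : FreeGroup ι) (c : ℂ) (x : A) : Ad g (c • x) = c • Ad g x := by simp [Ad]
theorem Ad_sum {α : Type*} (g : FreeGroup ι) (S : Finset α) (x : α → A) :
    Ad g (∑ a ∈ S, x a) = ∑ a ∈ S, Ad g (x a) := by simp [Ad, Finset.mul_sum, Finset.sum_mul]
theorem gA_inv_mul (g : FreeGroup ι) (x : A) : gA g⁻¹ * (gA g * x) = x := by
  rw [← mul_assoc, ← map_mul]; simp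
theorem gA_mul_inv (g : FreeGroup ι) (x : A) : gA g * (gA g⁻¹ * x) = x := by
  rw [← mul_assoc, ← map_mul]; simp
theorem gA_inv_mul' (g : FreeGroup ι) : (gA g⁻¹ * gA g : A) = 1 := by
  rw [← map_mul]; simp
theorem gA_mul_inv' (g : FreeGroup ι) : (gA g * gA g⁻¹ : A) = 1 := by
  rw [← map_mul]; simp
theorem Ad_mul (g : FreeGroup ι) (x y : A) : Ad g (x * y) = Ad g x * Ad g y := by
  simp [Ad, mul_assoc, gA_inv_mul]
theorem Ad_Ad (g h : FreeGroup ι) (x : A) : Ad g (Ad h x) = Ad (g * h) x := by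
  simp [Ad, mul_assoc]
@[simp] theorem Ad_one (x : A) : Ad 1 x = x := by simp [Ad]

variable (u v : ι) (L : ℕ)

local notation "V" => VV u v L
local notation "w" => ww u v L
local notation "b" => bb u v L

theorem VV_gA_inv' {g : FreeGroup ι} {h : A} (hg : V (gA g) = h * gA g) :
    V (gA g⁻¹) = -(gA g⁻¹ * h) := by
  rw [VV_gA_inv, hg]; simp [mul_assoc, gA_mul_inv']

theorem VV_Ad {g : FreeGroup ι} {h : A} (hg : V (gA g) = h * gA g) (y : A) :
    V (Ad g y) = h * Ad g y - Ad g y * h + Ad g (V y) := by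
  simp only [Ad, VV_mul, hg, VV_gA_inv' u v L hg]
  noncomm_ring

theorem VV_Ad_inv {g : FreeGroup ι} {h : A} (hg : V (gA g) = h * gA g) (y : A) :
    V (Ad g⁻¹ y) = Ad g⁻¹ (V y - (h * y - y * h)) := by
  simp only [Ad, VV_mul, inv_inv, hg, VV_gA_inv' u v L hg]
  noncomm_ring

/-! ### The building blocks -/

/-- The quotients `q_j q_m⁻¹`. -/
def gg (p : ℕ × ℕ) : FreeGroup ι := qq u v p.1 * (qq u v p.2)⁻¹

/-- Off-diagonal pairs. -/
def Off (L : ℕ) : Finset (ℕ × ℕ) := (Finset.range L).offDiag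

/-- The logarithmic derivative of the prefixes. -/
def Hs (j : ℕ) : A := ∑ i ∈ Finset.range j, Ad (qq u v i) (kk u v L)

/-- The off-diagonal part. -/
def Ho (j : ℕ) : A := (L : ℂ)⁻¹ • ∑ p ∈ (Off L).filter (·.1 < j), Ad (gg u v p) b

/-- Averaging. -/
def Av (F : ℕ × ℕ → A) : A :=
  (L : ℂ)⁻¹ • ∑ j ∈ Finset.range L, ∑ m ∈ Finset.range L, F (j, m)

@[simp] theorem gg_diag (j : ℕ) : gg u v (j, j) = 1 := by simp [gg]

theorem Ad_bb (g : FreeGroup ι) : Ad g b = TT (g * w) g⁻¹ - TT g (w⁻¹ * g⁻¹) := by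
  simp [Ad, bb, TT, mul_sub, sub_mul, mul_assoc]

theorem sum_split {M : Type*} [AddCommMonoid M] (F : ℕ × ℕ → M) {j : ℕ} (hj : j ≤ L) :
    ∑ i ∈ Finset.range j, ∑ m ∈ Finset.range L, F (i, m) =
      ∑ i ∈ Finset.range j, F (i, i) + ∑ p ∈ (Off L).filter (·.1 < j), F p := by
  rw [← Finset.sum_product', ← Finset.sum_filter_add_sum_filter_not _ (fun p => p.1 = p.2),
    ← Finset.sum_diag]
  congr 1
  · refine Finset.sum_congr ?_ fun _ _ => rfl
    ext ⟨i, m⟩
    simp only [Finset.mem_filter, Finset.mem_product, Finset.mem_range, Finset.mem_diag]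
    omega
  · refine Finset.sum_congr ?_ fun _ _ => rfl
    ext ⟨i, m⟩
    simp only [Off, Finset.mem_filter, Finset.mem_product, Finset.mem_range, Finset.mem_offDiag]
    omega

theorem filter_Off : (Off L).filter (·.1 < L) = Off L := by
  ext ⟨i, m⟩
  simp only [Off, Finset.mem_filter, Finset.mem_range, Finset.mem_offDiag]
  omega

theorem sqrt_card_le {S : Finset (ℕ × ℕ)} (hS : S ⊆ Off L) : √(S.card) ≤ L := by
  have h1 : S.card ≤ L * L := by
    refine (Finset.card_le_card hS).trans ?_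
    rw [Off, Finset.offDiag_card, Finset.card_range]
    omega
  rw [Real.sqrt_le_left (by positivity), sq]
  exact_mod_cast h1

theorem Ad_qq_kk (j : ℕ) :
    Ad (qq u v j) (kk u v L) = (-(L : ℂ)⁻¹) • ∑ m ∈ Finset.range L, Ad (gg u v (j, m)) b := by
  simp only [kk, Ad_smul, Ad_sum, Ad_Ad, gg]

theorem Hs_eq {j : ℕ} (hj : j ≤ L) : Hs u v L j = -(((j : ℂ) * (L : ℂ)⁻¹) • b) - Ho u v L j := by
  simp only [Hs, Ad_qq_kk, ← Finset.smul_sum]
  rw [sum_split L (fun p => Ad (gg u v p) b) hj]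
  simp only [gg_diag, Ad_one, Finset.sum_const, Finset.card_range, Ho, neg_smul, smul_add,
    ← Nat.cast_smul_eq_nsmul ℂ, smul_smul, mul_comm (j : ℂ), neg_mul, sub_eq_add_neg]

theorem star_Hs (j : ℕ) : star (Hs u v L j) = -Hs u v L j := by
  simp [Hs, star_Ad, star_kk, Ad_neg]

theorem star_Ho (j : ℕ) : star (Ho u v L j) = -Ho u v L j := by
  simp [Ho, star_Ad, star_bb, Ad_neg]

theorem norm_piL_bb : ‖piL b‖ ≤ 4 := by
  have := Ad_bb u v L 1
  rw [Ad_one] at this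
  rw [this, map_sub]
  refine (norm_sub_le _ _).trans ?_
  linarith [norm_piL_TT_le (1 * w) 1⁻¹, norm_piL_TT_le 1 (w⁻¹ * 1⁻¹)]

theorem norm_piL_sum_Ad_bb {α : Type*} (S : Finset α) (g : α → FreeGroup ι) (hg : Set.InjOn g S) :
    ‖piL (∑ a ∈ S, Ad (g a) b)‖ ≤ 4 * √(S.card) := by
  simp only [Ad_bb, Finset.sum_sub_distrib, map_sub]
  refine (norm_sub_le _ _).trans ?_
  have h1 := norm_piL_sum_TT S (fun a => g a * w) (fun a => (g a)⁻¹)
    (fun a ha c hc h => hg ha hc (by simpa using h)) (fun a ha c hc h => hg ha hc (by simpa using h))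
  have h2 := norm_piL_sum_TT S g (fun a => w⁻¹ * (g a)⁻¹) hg
    (fun a ha c hc h => hg ha hc (by simpa using h))
  linarith

theorem norm_inv_mul_le {x M : ℝ} (hM : 0 ≤ M) (h : x ≤ L * M) : ‖(L : ℂ)⁻¹‖ * x ≤ M := by
  rw [norm_inv, Complex.norm_natCast]
  rcases Nat.eq_zero_or_pos L with h0 | h0
  · simp [h0, hM]
  · have : (0 : ℝ) < L := by exact_mod_cast h0
    rwa [inv_mul_le_iff₀ this]

theorem norm_vec_Av_le (F : ℕ × ℕ → A) {M M' : ℝ} (hM : 0 ≤ M) (hM' : 0 ≤ M')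
    (h1 : ∀ j < L, ‖vec (F (j, j))‖ ≤ M) (h2 : ‖vec (∑ p ∈ Off L, F p)‖ ≤ L * M') :
    ‖vec (Av L F)‖ ≤ M + M' := by
  rw [Av, sum_split L F le_rfl, filter_Off, map_smul, norm_smul, map_add]
  refine norm_inv_mul_le L (by positivity) ((norm_add_le _ _).trans ?_)
  have : ‖vec (∑ j ∈ Finset.range L, F (j, j))‖ ≤ L * M := by
    rw [map_sum]
    refine (norm_sum_le _ _).trans ?_
    refine (Finset.sum_le_card_nsmul _ _ M fun j hj => h1 j (Finset.mem_range.1 hj)).trans ?_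
    simp
  linarith

variable {u v}

theorem VV_v_pow (huv : u ≠ v) (k : ℕ) : V (gA (FreeGroup.of v ^ k)) = 0 := by
  induction k with
  | zero => simp
  | succ k ih => rw [pow_succ, map_mul, VV_mul, ih, VV_of_ne u v L huv.symm]; simp

theorem VV_ww (huv : u ≠ v) (j : ℕ) : V (gA (ww u v j)) = Hs u v L j * gA (ww u v j) := by
  induction j with
  | zero => simp [ww, Hs]
  | succ j ih =>
    have h0 := VV_v_pow L huv (2 ^ j)
    have h1 : V (gA (FreeGroup.of v ^ (2 ^ j))⁻¹) = 0 := by rw [VV_gA_inv, h0]; simp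
    have h2 : Hs u v L (j + 1) = Hs u v L j + Ad (qq u v j) (kk u v L) := by
      simp [Hs, Finset.sum_range_succ]
    rw [h2, ww_succ, add_mul, Ad]
    simp only [map_mul, mul_assoc, gA_inv_mul]
    simp only [qq, map_mul, VV_mul, ih, h0, h1, VV_u, mul_assoc, mul_zero, add_zero, zero_mul,
      zero_add]

theorem VV_qq (huv : u ≠ v) (j : ℕ) : V (gA (qq u v j)) = Hs u v L j * gA (qq u v j) := by
  rw [qq, map_mul, VV_mul, VV_ww L huv, VV_v_pow L huv]
  simp [mul_assoc]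

theorem deg_gg (huv : u ≠ v) (p : ℕ × ℕ) : deg v (gg u v p) = 2 ^ p.1 - 2 ^ p.2 := by
  simp [gg, deg_v_qq huv, sub_eq_add_neg]

variable {L}

theorem ne_of_mem_Off {p : ℕ × ℕ} (hp : p ∈ Off L) : p.1 ≠ p.2 := (Finset.mem_offDiag.1 hp).2.2

theorem eq_of_deg_gg (huv : u ≠ v) {p p' : ℕ × ℕ} (hp : p ∈ Off L)
    (h : deg v (gg u v p) = deg v (gg u v p')) : p = p' := by
  rw [deg_gg huv, deg_gg huv] at h
  have := two_pow_sidon (ne_of_mem_Off hp) h
  exact Prod.ext this.1 this.2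

theorem deg_gg_ne_zero (huv : u ≠ v) {p : ℕ × ℕ} (hp : p ∈ Off L) : deg v (gg u v p) ≠ 0 := by
  rw [deg_gg huv]; exact two_pow_sub_ne_zero (ne_of_mem_Off hp)

theorem injOn_gg (huv : u ≠ v) {S : Finset (ℕ × ℕ)} (hS : S ⊆ Off L) : Set.InjOn (gg u v) S :=
  fun _ hp _ _ h => eq_of_deg_gg huv (hS hp) (by rw [h])

theorem norm_piL_Ho (huv : u ≠ v) (j : ℕ) : ‖piL (Ho u v L j)‖ ≤ 4 := by
  rw [Ho, map_smul, norm_smul]
  refine norm_inv_mul_le L (by norm_num) ?_
  have hS : (Off L).filter (·.1 < j) ⊆ Off L := Finset.filter_subset _ _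
  have h1 := norm_piL_sum_Ad_bb u v L _ (gg u v) (injOn_gg huv hS)
  have h2 := sqrt_card_le L hS
  linarith

theorem norm_piL_Hs (huv : u ≠ v) {j : ℕ} (hj : j ≤ L) : ‖piL (Hs u v L j)‖ ≤ 8 := by
  rw [Hs_eq u v L hj, map_sub, map_neg, map_smul]
  refine (norm_sub_le _ _).trans ?_
  rw [norm_neg, norm_smul, norm_mul, mul_comm ‖(j : ℂ)‖, mul_assoc]
  have h1 : ‖(L : ℂ)⁻¹‖ * (‖(j : ℂ)‖ * ‖piL b‖) ≤ 4 := by
    refine norm_inv_mul_le L (by norm_num) ?_
    rw [Complex.norm_natCast]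
    exact mul_le_mul (by exact_mod_cast hj) (norm_piL_bb u v L) (norm_nonneg _) (by positivity)
  linarith [norm_piL_Ho (L := L) huv j]

theorem avoid_Ad_bb (huv : u ≠ v) {D : ℤ} {g : FreeGroup ι} (hg : deg v g ≠ D) :
    Avoid v D (Ad g b) := by
  rw [Ad_bb]
  exact (avoid_TT (by simpa [deg_v_ww huv] using hg) _).sub (avoid_TT hg _)

theorem avoid_Ho (huv : u ≠ v) {D : ℤ} {j : ℕ}
    (h : ∀ p ∈ Off L, p.1 < j → deg v (gg u v p) ≠ D) : Avoid v D (Ho u v L j) :=
  (Avoid.sum _ _ fun p hp =>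
    avoid_Ad_bb huv (h p (Finset.mem_filter.1 hp).1 (Finset.mem_filter.1 hp).2)).smul _

theorem avoid_zero_Ho (huv : u ≠ v) (j : ℕ) : Avoid v 0 (Ho u v L j) :=
  avoid_Ho huv fun _ hp _ => deg_gg_ne_zero huv hp

theorem avoid_Ad_Ho (huv : u ≠ v) (g : FreeGroup ι) (j : ℕ) :
    Avoid v (deg v g) (Ad g (Ho u v L j)) := by
  simpa using (avoid_zero_Ho (L := L) huv j).Ad g

theorem avoid_Hs (huv : u ≠ v) {p : ℕ × ℕ} (hp : p ∈ Off L) :
    Avoid v (deg v (gg u v p)) (Hs u v L p.1) := by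
  have hj : p.1 ≤ L := (Finset.mem_range.1 (Finset.mem_offDiag.1 hp).1).le
  rw [Hs_eq u v L hj]
  refine Avoid.sub (Avoid.neg (Avoid.smul ?_ _)) (avoid_Ho huv fun p' hp' hlt h => ?_)
  · simpa using avoid_Ad_bb (L := L) huv (g := 1) (by simpa using (deg_gg_ne_zero huv hp).symm)
  · rw [eq_of_deg_gg huv hp' h] at hlt
    exact lt_irrefl _ hlt

theorem norm_sum_Ad_bb_mul (huv : u ≠ v) (Y : ℕ × ℕ → A)
    (hY : ∀ p ∈ Off L, Avoid v (deg v (gg u v p)) (Y p)) {M : ℝ} (hM0 : 0 ≤ M)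
    (hM : ∀ p ∈ Off L, ‖vec (Y p)‖ ≤ M) :
    ‖vec (∑ p ∈ Off L, Ad (gg u v p) b * Y p)‖ ≤ L * (2 * M) := by
  simp only [Ad_bb, sub_mul, Finset.sum_sub_distrib, map_sub]
  refine (norm_sub_le _ _).trans ?_
  have hg := injOn_gg huv (subset_refl (Off L))
  have h1 := norm_vec_sum_TT_mul (Off L) (fun p => gg u v p * w) (fun p => (gg u v p)⁻¹)
    (fun a ha c hc h => hg ha hc (by simpa using h)) Y
    (fun p hp x => hY p hp _ _ (by simp)) M hM0 hM
  have h2 := norm_vec_sum_TT_mul (Off L) (gg u v) (fun p => w⁻¹ * (gg u v p)⁻¹) hg Y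
    (fun p hp x => hY p hp _ _ (by simp [deg_v_ww huv])) M hM0 hM
  have h3 := mul_le_mul_of_nonneg_right (sqrt_card_le L (subset_refl (Off L))) hM0
  linarith

theorem ww_ne_one (huv : u ≠ v) (hL : 1 ≤ L) : w ≠ 1 := by
  intro h
  have := deg_u_ww huv L
  rw [h, deg_one] at this
  omega

theorem Hs_L (hL : 1 ≤ L) : Hs u v L L = -b - Ho u v L L := by
  have hL0 : (L : ℂ) ≠ 0 := by exact_mod_cast (by omega : L ≠ 0)
  rw [Hs_eq u v L le_rfl, mul_inv_cancel₀ hL0, one_smul]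

variable (u v L) in
/-- Half of `-V b`. -/
def XX : A := gA w * aA * gA w * aA + aA * gA w⁻¹ * Ho u v L L + gA w * gA w

theorem bb_aux {R : Type*} [Ring R] (x y a z : R) (h1 : x * y = 1) (h2 : y * x = 1) :
    (-(x * a - a * y) - z) * x * a + x * -(x + y) -
      (-(x + y) * y + a * -(y * (-(x * a - a * y) - z))) =
    -(x * a * x * a + a * y * z + x * x - (a * (y * (a * y)) + -z * (x * a) + y * y)) := by
  have h3 : ∀ t, y * (x * t) = t := fun t => by rw [← mul_assoc, h2, one_mul]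
  simp only [mul_add, add_mul, mul_sub, sub_mul, mul_neg, neg_mul, mul_assoc, h1, h2, h3, one_mul]
  abel

theorem VV_bb (huv : u ≠ v) (hL : 1 ≤ L) : V b = -(XX u v L - star (XX u v L)) := by
  have h1 := VV_ww L huv L
  have h2 := VV_gA_inv' u v L h1
  rw [Hs_L hL] at h1 h2
  rw [bb, map_sub, VV_mul, VV_mul, h1, h2]
  simp only [XX, bb, pp, VV_aA, star_add, star_mul, star_gA, star_aA, star_Ho, inv_inv]
  exact bb_aux _ _ _ _ (gA_mul_inv' _) (gA_inv_mul' _)

variable (u v L) in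
/-- The summands of half of `V m₀`. -/
def FF (p : ℕ × ℕ) : A :=
  Ad (gg u v p) b * Hs u v L p.1 + Ad (gg u v p) (XX u v L + b * Ho u v L p.2)

theorem VV_Hs (huv : u ≠ v) (hL : 1 ≤ L) :
    V (Hs u v L L) = Av L (FF u v L) - star (Av L (FF u v L)) := by
  have hk : V (kk u v L) = (-(L : ℂ)⁻¹) • ∑ m ∈ Finset.range L,
      Ad (qq u v m)⁻¹ (V b - (Hs u v L m * b - b * Hs u v L m)) := by
    rw [kk, map_smul, map_sum]
    simp only [VV_Ad_inv u v L (VV_qq L huv _)]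
  have hR : Av L (FF u v L) - star (Av L (FF u v L)) = ∑ j ∈ Finset.range L, (L : ℂ)⁻¹ •
      ∑ m ∈ Finset.range L, (FF u v L (j, m) - star (FF u v L (j, m))) := by
    simp [Av, Finset.smul_sum, smul_sub]
  rw [hR, Hs, map_sum]
  refine Finset.sum_congr rfl fun j _ => ?_
  rw [VV_Ad u v L (VV_qq L huv j), hk, Ad_qq_kk, Ad_smul, Ad_sum, mul_smul_comm, smul_mul_assoc,
    ← smul_sub, ← smul_add, neg_smul, ← smul_neg, Finset.mul_sum, Finset.sum_mul,
    ← Finset.sum_sub_distrib, ← Finset.sum_add_distrib, ← Finset.sum_neg_distrib]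
  congr 1
  refine Finset.sum_congr rfl fun m hm => ?_
  have hm' : Hs u v L m * b - b * Hs u v L m = b * Ho u v L m - Ho u v L m * b := by
    rw [Hs_eq u v L (Finset.mem_range.1 hm).le]
    simp only [sub_mul, mul_sub, neg_mul, mul_neg, smul_mul_assoc, mul_smul_comm]
    abel
  rw [Ad_Ad, hm', VV_bb huv hL]
  simp only [FF, gg, star_add, star_mul, star_Ad, star_Hs, star_Ho, star_bb, Ad_add, Ad_sub, Ad_neg,
    neg_mul, mul_neg, neg_neg]
  abel

theorem norm_vec_Ho (huv : u ≠ v) (j : ℕ) : ‖vec (Ho u v L j)‖ ≤ 4 :=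
  (norm_vec_le _).trans (norm_piL_Ho huv j)

theorem norm_vec_Hs (huv : u ≠ v) {j : ℕ} (hj : j ≤ L) : ‖vec (Hs u v L j)‖ ≤ 8 :=
  (norm_vec_le _).trans (norm_piL_Hs huv hj)

theorem norm_vec_aA : ‖vec (aA : A)‖ = 1 := by simp

theorem norm_vec_XX (huv : u ≠ v) : ‖vec (XX u v L)‖ ≤ 11 := by
  have h1 : ‖vec (gA w * aA * gA w * aA)‖ ≤ 2 := by
    have := norm_vec_mul_le (TT w w) aA
    rw [norm_vec_aA, mul_one] at this
    exact this.trans (norm_piL_TT_le _ _)
  have h2 : ‖vec (aA * gA w⁻¹ * Ho u v L L)‖ ≤ 2 * 4 := by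
    have h := norm_vec_mul_le (TT 1 w⁻¹) (Ho u v L L)
    rw [TT, map_one, one_mul] at h
    refine h.trans (mul_le_mul ?_ (norm_vec_Ho huv L) (norm_nonneg _) (by norm_num))
    simpa [TT] using norm_piL_TT_le 1 w⁻¹
  have h3 : ‖vec (gA w * gA w)‖ = 1 := by simp
  rw [XX, map_add, map_add]
  refine norm_add₃_le.trans ?_
  linarith

theorem norm_vec_FF_diag (huv : u ≠ v) {j : ℕ} (hj : j < L) : ‖vec (FF u v L (j, j))‖ ≤ 59 := by
  simp only [FF, gg_diag, Ad_one, map_add]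
  have h1 : ‖vec (b * Hs u v L j)‖ ≤ 4 * 8 := (norm_vec_mul_le _ _).trans
    (mul_le_mul (norm_piL_bb u v L) (norm_vec_Hs huv hj.le) (norm_nonneg _) (by norm_num))
  have h2 : ‖vec (b * Ho u v L j)‖ ≤ 4 * 4 := (norm_vec_mul_le _ _).trans
    (mul_le_mul (norm_piL_bb u v L) (norm_vec_Ho huv j) (norm_nonneg _) (by norm_num))
  have h3 := norm_vec_XX (L := L) huv
  linarith [norm_add_le (vec (b * Hs u v L j)) (vec (XX u v L) + vec (b * Ho u v L j)),
    norm_add_le (vec (XX u v L)) (vec (b * Ho u v L j))]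

theorem norm_vec_FF_off (huv : u ≠ v) (hL : 1 ≤ L) :
    ‖vec (∑ p ∈ Off L, FF u v L p)‖ ≤ L * 30 := by
  have hg := injOn_gg huv (subset_refl (Off L))
  have hc := sqrt_card_le L (subset_refl (Off L))
  have h1 := norm_sum_Ad_bb_mul huv (fun p => Hs u v L p.1) (fun p hp => avoid_Hs huv hp)
    (M := 8) (by norm_num)
    (fun p hp => norm_vec_Hs huv (Finset.mem_range.1 (Finset.mem_offDiag.1 hp).1).le)
  have h2 := norm_vec_sum_TT_mul (Off L) (fun p => gg u v p * w) (fun _ => w)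
    (fun a ha c hc h => hg ha hc (by simpa using h)) (fun p => TT 1 (gg u v p)⁻¹)
    (fun p _ x => by
      rw [vec_TT]
      refine dl_apply_ne fun h => ww_ne_one huv hL ?_
      simp only [Wd.cons.injEq] at h
      exact inv_eq_one.1 h.1) 1 zero_le_one (fun p _ => by simp [vec_TT])
  have h3 := norm_vec_sum_TT_mul (Off L) (gg u v) (fun p => w⁻¹ * (gg u v p)⁻¹) hg
    (fun p => Ad (gg u v p) (Ho u v L L))
    (fun p _ x => avoid_Ad_Ho huv _ _ _ _ (by simp [deg_v_ww huv])) 4 (by norm_num)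
    (fun p _ => by simpa using norm_vec_Ho huv L)
  have h4 := norm_vec_sum_gA (Off L) (fun p => gg u v p * (w * w) * (gg u v p)⁻¹)
    (fun a ha c _ h => eq_of_deg_gg huv ha (deg_eq_of_conj_sq huv hL h))
  have h5 := norm_sum_Ad_bb_mul (L := L) huv (fun p => Ad (gg u v p) (Ho u v L p.2))
    (fun p _ => avoid_Ad_Ho huv _ _) (M := 4) (by norm_num)
    (fun p _ => by simpa using norm_vec_Ho huv p.2)
  have hF : ∀ p, FF u v L p = Ad (gg u v p) b * Hs u v L p.1 +
      TT (gg u v p * w) w * TT 1 (gg u v p)⁻¹ +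
      TT (gg u v p) (w⁻¹ * (gg u v p)⁻¹) * Ad (gg u v p) (Ho u v L L) +
      gA (gg u v p * (w * w) * (gg u v p)⁻¹) +
      Ad (gg u v p) b * Ad (gg u v p) (Ho u v L p.2) := by
    intro p
    rw [FF, Ad_add, Ad_mul _ b, XX, Ad_add, Ad_add]
    simp only [Ad, TT, map_mul, map_one, mul_assoc, gA_inv_mul, one_mul, add_assoc]
  simp only [hF, Finset.sum_add_distrib, map_add]
  refine (norm_add_le _ _).trans ?_
  refine (add_le_add_left ((norm_add_le _ _).trans (add_le_add_left ((norm_add_le _ _).trans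
    (add_le_add_left (norm_add_le _ _) _)) _)) _).trans ?_
  linarith

theorem norm_vec_VV_Hs (huv : u ≠ v) (hL : 1 ≤ L) : ‖vec (V (Hs u v L L))‖ ≤ 178 := by
  have h := norm_vec_Av_le L (FF u v L) (by norm_num) (by norm_num)
    (fun j hj => norm_vec_FF_diag huv hj) (norm_vec_FF_off huv hL)
  rw [VV_Hs huv hL, map_sub]
  refine (norm_sub_le _ _).trans ?_
  rw [norm_vec_star]
  linarith

theorem VV_VV_aA (huv : u ≠ v) :
    V (V aA) = -(Hs u v L L * gA w - gA w⁻¹ * Hs u v L L) := by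
  rw [VV_aA, map_neg, pp, map_add, VV_gA_inv' u v L (VV_ww L huv L), VV_ww L huv L, sub_eq_add_neg]

end Est

open Est

variable {ι : Type} {u v : ι} {L : ℕ}

theorem norm_vec_VV_aA : ‖vec (VV u v L aA)‖ ≤ 2 := by
  rw [VV_aA, map_neg, norm_neg, pp, map_add]
  refine (norm_add_le _ _).trans ?_
  simp only [vec_gA, norm_dl]
  norm_num

theorem norm_vec_VV_three (huv : u ≠ v) (hL : 1 ≤ L) :
    ‖vec (VV u v L (VV u v L (VV u v L aA)))‖ ≤ 500 := by
  have h1 := norm_vec_VV_Hs huv hL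
  have h2 : ‖vec (Hs u v L L * Hs u v L L)‖ ≤ 8 * 8 := (norm_vec_mul_le _ _).trans
    (mul_le_mul (norm_piL_Hs huv le_rfl) (norm_vec_Hs huv le_rfl) (norm_nonneg _) (by norm_num))
  have h3 : VV u v L (VV u v L (VV u v L aA)) =
      -(VV u v L (Hs u v L L) * gA (ww u v L) + Hs u v L L * Hs u v L L * gA (ww u v L) +
        gA (ww u v L)⁻¹ * (Hs u v L L * Hs u v L L) - gA (ww u v L)⁻¹ * VV u v L (Hs u v L L)) := by
    rw [VV_VV_aA huv, map_neg, map_sub, VV_mul, VV_mul, VV_gA_inv' u v L (VV_ww L huv L),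
      VV_ww L huv L]
    noncomm_ring
  rw [h3, map_neg, norm_neg, map_sub, map_add, map_add]
  refine (norm_sub_le _ _).trans ((add_le_add_left norm_add₃_le _).trans ?_)
  simp only [norm_vec_gA_mul, norm_vec_mul_gA]
  linarith

variable (u v L) in
/-- The remainder of the second derivative. -/
def RR : Alg (FreeGroup ι) := VV u v L (VV u v L aA) + (2 : ℂ) • aA

theorem RR_eq (huv : u ≠ v) (hL : 1 ≤ L) : RR u v L =
    TT (ww u v L) (ww u v L) + TT (ww u v L)⁻¹ (ww u v L)⁻¹ +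
      (Ho u v L L * gA (ww u v L) - gA (ww u v L)⁻¹ * Ho u v L L) := by
  rw [RR, VV_VV_aA huv, Hs_L hL, two_smul]
  simp only [bb, TT, mul_sub, sub_mul, mul_neg, neg_mul, mul_assoc, gA_inv_mul, gA_inv_mul',
    mul_one]
  abel

theorem norm_vec_RR (huv : u ≠ v) (hL : 1 ≤ L) : ‖vec (RR u v L)‖ ≤ 10 := by
  rw [RR_eq huv hL, map_add, map_add, map_sub]
  refine norm_add₃_le.trans ((add_le_add_right (norm_sub_le _ _) _).trans ?_)
  simp only [norm_vec_gA_mul, norm_vec_mul_gA, vec_TT, norm_dl]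
  linarith [norm_vec_Ho (L := L) huv L]

theorem norm_vec_VV_RR (huv : u ≠ v) (hL : 1 ≤ L) : ‖vec (VV u v L (RR u v L))‖ ≤ 504 := by
  rw [RR, map_add, map_smul, map_add, map_smul]
  refine (norm_add_le _ _).trans ?_
  rw [norm_smul]
  have h1 := norm_vec_VV_three huv hL
  have h2 := norm_vec_VV_aA (u := u) (v := v) (L := L)
  simp only [Complex.norm_ofNat]
  linarith

theorem sup_Ho (huv : u ≠ v) : Sup (Ho u v L L) (‖(L : ℂ)⁻¹‖ * (1 + 1)) := by
  refine Sup.smul ?_ _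
  have hg := injOn_gg huv (Finset.filter_subset (·.1 < L) (Off L))
  simp only [Ad_bb, Finset.sum_sub_distrib]
  exact (sup_sum_TT _ _ _ (fun a ha c hc h => hg ha hc (by simpa using h))).sub
    (sup_sum_TT _ _ _ hg)

theorem tendsto_RR_apply (huv : u ≠ v) (x : Wd (FreeGroup ι)) :
    Tendsto (fun L => vec (RR u v L) x) atTop (𝓝 0) := by
  have h0 : Tendsto (fun L : ℕ => ‖(L : ℂ)⁻¹‖ * (1 + 1) + ‖(L : ℂ)⁻¹‖ * (1 + 1)) atTop (𝓝 0) := by
    have : Tendsto (fun L : ℕ => ‖(L : ℂ)⁻¹‖ * (1 + 1)) atTop (𝓝 0) := by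
      simpa using (tendsto_inv_atTop_nhds_zero_nat (𝕜 := ℝ)).mul_const (1 + 1)
    simpa using this.add this
  refine squeeze_zero_norm' ?_ h0
  filter_upwards [eventually_ge_atTop 1, eventually_gt_atTop (deg u x.head).natAbs] with L hL hx
  have h1 : vec (TT (ww u v L) (ww u v L)) x = 0 := by
    rw [vec_TT]
    refine dl_apply_ne ?_
    rintro rfl
    simp [Wd.head, deg_u_ww huv] at hx
  have h2 : vec (TT (ww u v L)⁻¹ (ww u v L)⁻¹) x = 0 := by
    rw [vec_TT]
    refine dl_apply_ne ?_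
    rintro rfl
    simp [Wd.head, deg_u_ww huv] at hx
  rw [RR_eq huv hL, map_add, map_add, lp.coeFn_add, lp.coeFn_add, Pi.add_apply, Pi.add_apply, h1,
    h2, zero_add, zero_add]
  exact (((sup_Ho huv).mul_gA _).sub ((sup_Ho huv).gA_mul _)) x

theorem tendsto_inner_RR (huv : u ≠ v) (ξ : Fock (FreeGroup ι)) :
    Tendsto (fun L => ⟪ξ, vec (RR u v L)⟫_ℂ) atTop (𝓝 0) := by
  let K : Submodule ℂ (Fock (FreeGroup ι)) :=
    { carrier := {ξ | Tendsto (fun L => ⟪ξ, vec (RR u v L)⟫_ℂ) atTop (𝓝 0)}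
      add_mem' := fun {x y} hx hy => by
        simpa [inner_add_left] using Tendsto.add hx hy
      zero_mem' := by simp
      smul_mem' := fun c x hx => by
        simpa [inner_smul_left] using Tendsto.mul_const (starRingEnd ℂ c) hx }
  have hK : IsClosed (K : Set (Fock (FreeGroup ι))) := by
    refine isClosed_of_closure_subset fun x hx => ?_
    change Tendsto _ _ _
    rw [Metric.tendsto_nhds]
    intro ε hε
    obtain ⟨y, hy, hxy⟩ := Metric.mem_closure_iff.1 hx (ε / 20) (by positivity)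
    have hy' := Metric.tendsto_nhds.1 hy (ε / 2) (by positivity)
    filter_upwards [hy', eventually_ge_atTop 1] with L h1 hL
    rw [dist_zero_right] at h1 ⊢
    rw [dist_eq_norm] at hxy
    have h2 : ‖⟪x - y, vec (RR u v L)⟫_ℂ‖ ≤ ε / 20 * 10 := (norm_inner_le_norm _ _).trans
      (mul_le_mul hxy.le (norm_vec_RR huv hL) (norm_nonneg _) (by positivity))
    have h3 : ⟪x, vec (RR u v L)⟫_ℂ = ⟪x - y, vec (RR u v L)⟫_ℂ + ⟪y, vec (RR u v L)⟫_ℂ := by
      simp
    rw [h3]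
    linarith [norm_add_le ⟪x - y, vec (RR u v L)⟫_ℂ ⟪y, vec (RR u v L)⟫_ℂ]
  have := eq_top_of_dl_mem K hK fun x => by
    change Tendsto _ _ _
    simpa [inner_dl_left] using tendsto_RR_apply huv x
  have hξ : ξ ∈ K := this ▸ Submodule.mem_top
  exact hξ

theorem tendsto_norm_kk (huv : u ≠ v) :
    Tendsto (fun L => ‖vec (kk u v L)‖) atTop (𝓝 0) := by
  have h0 : Tendsto (fun L : ℕ => 4 * (√(L : ℝ))⁻¹) atTop (𝓝 0) := by
    have := (tendsto_inv_atTop_zero.comp
      (Real.tendsto_sqrt_atTop.comp tendsto_natCast_atTop_atTop)).const_mul 4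
    simpa using this
  refine squeeze_zero' (Eventually.of_forall fun _ => norm_nonneg _) ?_ h0
  filter_upwards [eventually_ge_atTop 1] with L hL
  have hL0 : (0 : ℝ) < L := by exact_mod_cast hL
  have h1 := norm_piL_sum_Ad_bb u v L (Finset.range L) (fun j => (qq u v j)⁻¹)
    (fun a _ c _ h => qq_injective huv (inv_injective h))
  rw [Finset.card_range] at h1
  rw [kk, map_smul, norm_smul, norm_neg]
  refine norm_inv_mul_le L (by positivity) ((norm_vec_le _).trans (h1.trans_eq ?_))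
  have h2 : √(L : ℝ) ≠ 0 := by positivity
  field_simp
  rw [Real.sq_sqrt hL0.le]

theorem tendsto_norm_VV_gA (huv : u ≠ v) (g : FreeGroup ι) :
    Tendsto (fun L => ‖vec (VV u v L (gA g))‖) atTop (𝓝 0) := by
  have hof : ∀ i, Tendsto (fun L => ‖vec (VV u v L (gA (FreeGroup.of i)))‖) atTop (𝓝 0) := by
    intro i
    by_cases hi : i = u
    · subst hi
      simpa [VV_u] using tendsto_norm_kk huv
    · simp [VV_of_ne u v _ hi]
  induction g using FreeGroup.induction_on with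
  | C1 => simp
  | of i => exact hof i
  | inv_of i _ => simpa [VV_gA_inv] using hof i
  | mul g h hg hh =>
    have := hg.add hh
    rw [add_zero] at this
    refine squeeze_zero (fun _ => norm_nonneg _) (fun L => ?_) this
    rw [map_mul, VV_mul, map_add]
    refine (norm_add_le _ _).trans ?_
    simp

theorem tendsto_norm_VV_grp (huv : u ≠ v) {y : Alg (FreeGroup ι)} (hy : y ∈ grpAlg (FreeGroup ι)) :
    Tendsto (fun L => ‖vec (VV u v L y)‖) atTop (𝓝 0) := by
  refine Submodule.span_induction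
    (p := fun y _ => Tendsto (fun L => ‖vec (VV u v L y)‖) atTop (𝓝 0)) ?_ ?_ ?_ ?_ hy
  · rintro _ ⟨g, rfl⟩
    exact tendsto_norm_VV_gA huv g
  · simp
  · intro x y _ _ hx hy
    have := hx.add hy
    rw [add_zero] at this
    refine squeeze_zero (fun _ => norm_nonneg _) (fun L => ?_) this
    rw [map_add, map_add]
    exact norm_add_le _ _
  · intro c x _ hx
    simpa [norm_smul] using hx.const_mul ‖c‖

end Crest.Agent.R134

end
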