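import Crest.Agent.R134.Defs

/-! Exponentiating a trace-preserving derivation. -/

set_option autoImplicit false

open scoped InnerProductSpace Nat

noncomputable section

namespace Crest.Agent.R134

namespace Flow

/-- The coefficients of the exponential series. -/
def cf (s : ℝ) (k : ℕ) : ℂ := (s : ℂ) ^ k / (k ! : ℂ)

lemma cf_zero (s : ℝ) : cf s 0 = 1 := by simp [cf]

lemma cf_zero_succ (k : ℕ) : cf 0 (k + 1) = 0 := by simp [cf]

lemma conj_cf (s : ℝ) (k : ℕ) : (starRingEnd ℂ) (cf s k) = cf s k := by simp [cf]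

lemma cf_neg (s : ℝ) (k : ℕ) : cf (-s) k = (-1) ^ k * cf s k := by
  simp only [cf, Complex.ofReal_neg]
  rw [neg_pow]; ring

lemma cf_mul (s : ℝ) {i j n : ℕ} (h : i + j = n) :
    cf s i * cf s j = cf s n * (n.choose i : ℂ) := by
  subst h
  have h1 : ((i + j)! : ℂ) = ((i + j).choose i : ℂ) * i ! * j ! := by
    rw [add_comm i j, ← Nat.add_choose_mul_factorial_mul_factorial j i]
    push_cast; ring
  have hi : (i ! : ℂ) ≠ 0 := by exact_mod_cast i.factorial_ne_zero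
  have hj : (j ! : ℂ) ≠ 0 := by exact_mod_cast j.factorial_ne_zero
  have hc : ((i + j).choose i : ℂ) ≠ 0 := by
    exact_mod_cast (Nat.choose_pos (Nat.le_add_right i j)).ne'
  simp only [cf]
  rw [h1]
  field_simp
  ring

lemma hasDerivAt_cf (s : ℝ) (k : ℕ) : HasDerivAt (fun t => cf t (k + 1)) (cf s k) s := by
  have h : HasDerivAt (fun z : ℂ => z ^ (k + 1) / ((k + 1)! : ℂ)) (cf s k) (s : ℂ) := by
    have := (hasDerivAt_pow (k + 1) (s : ℂ)).div_const ((k + 1)! : ℂ)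
    refine this.congr_deriv ?_
    have hk : (k ! : ℂ) ≠ 0 := by exact_mod_cast k.factorial_ne_zero
    have hk1 : ((k : ℂ) + 1) ≠ 0 := by exact_mod_cast k.succ_ne_zero
    rw [cf, Nat.factorial_succ, Nat.add_sub_cancel]
    push_cast
    field_simp
  exact h.comp_ofReal

lemma norm_cf_smul_le {B : Type*} [NormedAddCommGroup B] [NormedSpace ℂ B] {R C s : ℝ}
    (hR : 0 < R) (hs : |s| ≤ 1 / (2 * R)) {k : ℕ} {b : B} (hb : ‖b‖ ≤ C * R ^ k * k !) :
    ‖cf s k • b‖ ≤ C * (1 / 2) ^ k := by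
  have hk : (0 : ℝ) < k ! := by exact_mod_cast k.factorial_pos
  have hC : 0 ≤ C := by
    have h0 := (norm_nonneg b).trans hb
    by_contra hC
    push Not at hC
    have : C * R ^ k * k ! < 0 := mul_neg_of_neg_of_pos (mul_neg_of_neg_of_pos hC (by positivity)) hk
    linarith
  have h1 : ‖cf s k‖ = |s| ^ k / k ! := by simp [cf]
  have h2 : |s| * R ≤ 1 / 2 := by
    calc |s| * R ≤ 1 / (2 * R) * R := by gcongr
      _ = 1 / 2 := by field_simp
  rw [norm_smul, h1]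
  calc |s| ^ k / k ! * ‖b‖ ≤ |s| ^ k / k ! * (C * R ^ k * k !) := by gcongr
    _ = C * (|s| * R) ^ k := by rw [mul_pow]; field_simp
    _ ≤ C * (1 / 2) ^ k := by gcongr

section General

variable {A : Type*} [AddCommGroup A] [Module ℂ A] (V : A →ₗ[ℂ] A)

lemma leibniz (m : A → A → A) (hm : ∀ x y, V (m x y) = m (V x) y + m x (V y)) (x y : A) (n : ℕ) :
    (V ^ n) (m x y) =
      ∑ p ∈ Finset.HasAntidiagonal.antidiagonal n, n.choose p.1 • m ((V ^ p.1) x) ((V ^ p.2) y) := by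
  induction n with
  | zero => simp
  | succ n ih =>
    rw [pow_succ', Module.End.mul_apply, ih, map_sum,
      Finset.sum_antidiagonal_choose_succ_nsmul (fun i j => m ((V ^ i) x) ((V ^ j) y)),
      ← Finset.sum_add_distrib]
    refine Finset.sum_congr rfl fun p hp => ?_
    rw [map_nsmul, hm, nsmul_add, add_comm, pow_succ', pow_succ', Module.End.mul_apply,
      Module.End.mul_apply,
      Nat.choose_symm_of_eq_add (Finset.HasAntidiagonal.mem_antidiagonal.mp hp).symm]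

variable {B : Type*} [NormedAddCommGroup B] [NormedSpace ℂ B]

/-- Analytic bounds for the iterates of `V` seen through `ψ`. -/
def Bd (ψ : A →ₗ[ℂ] B) (R : ℝ) : Prop := ∀ y, ∃ C : ℝ, ∀ k : ℕ, ‖ψ ((V ^ k) y)‖ ≤ C * R ^ k * k !

/-- The exponential series. -/
def E (ψ : A →ₗ[ℂ] B) (s : ℝ) (y : A) : B := ∑' k, cf s k • ψ ((V ^ k) y)

variable {V}

lemma Bd.summable_norm {ψ : A →ₗ[ℂ] B} {R s : ℝ} (hb : Bd V ψ R) (hR : 0 < R)
    (hs : |s| ≤ 1 / (2 * R)) (y : A) : Summable fun k => ‖cf s k • ψ ((V ^ k) y)‖ := by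
  obtain ⟨C, hC⟩ := hb y
  exact Summable.of_nonneg_of_le (fun _ => norm_nonneg _) (fun k => norm_cf_smul_le hR hs (hC k))
    (summable_geometric_two.mul_left C)

lemma Bd.comp {B' : Type*} [NormedAddCommGroup B'] [NormedSpace ℂ B'] {ψ : A →ₗ[ℂ] B} {R : ℝ}
    (hb : Bd V ψ R) (L : B →L[ℂ] B') : Bd V (L.toLinearMap ∘ₗ ψ) R := by
  intro y
  obtain ⟨C, hC⟩ := hb y
  refine ⟨‖L‖ * C, fun k => (L.le_opNorm _).trans ?_⟩
  calc ‖L‖ * ‖ψ ((V ^ k) y)‖ ≤ ‖L‖ * (C * R ^ k * k !) := by gcongr; exact hC k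
    _ = _ := by ring

lemma E_at_zero (ψ : A →ₗ[ℂ] B) (y : A) : E V ψ 0 y = ψ y := by
  rw [E, tsum_eq_single 0]
  · simp [cf_zero]
  · intro k hk
    obtain ⟨k, rfl⟩ := Nat.exists_eq_succ_of_ne_zero hk
    rw [cf_zero_succ, zero_smul]

lemma E_of_comp_zero (ψ : A →ₗ[ℂ] B) (s : ℝ) (y : A) (h : ∀ k, ψ ((V ^ (k + 1)) y) = 0) :
    E V ψ s y = ψ y := by
  rw [E, tsum_eq_single 0]
  · simp [cf_zero]
  · intro k hk
    obtain ⟨k, rfl⟩ := Nat.exists_eq_succ_of_ne_zero hk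
    rw [h, smul_zero]

variable [CompleteSpace B]

lemma Bd.summable {ψ : A →ₗ[ℂ] B} {R s : ℝ} (hb : Bd V ψ R) (hR : 0 < R)
    (hs : |s| ≤ 1 / (2 * R)) (y : A) : Summable fun k => cf s k • ψ ((V ^ k) y) :=
  (hb.summable_norm hR hs y).of_norm

lemma Bd.map_E {B' : Type*} [NormedAddCommGroup B'] [NormedSpace ℂ B'] {ψ : A →ₗ[ℂ] B} {R s : ℝ}
    (hb : Bd V ψ R) (hR : 0 < R) (hs : |s| ≤ 1 / (2 * R)) (L : B →L[ℂ] B') (y : A) :
    L (E V ψ s y) = E V (L.toLinearMap ∘ₗ ψ) s y := by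
  rw [E, L.map_tsum (hb.summable hR hs y)]
  simp [E]

/-- The exponential series as a linear map. -/
def Bd.Elin {ψ : A →ₗ[ℂ] B} {R s : ℝ} (hb : Bd V ψ R) (hR : 0 < R)
    (hs : |s| ≤ 1 / (2 * R)) : A →ₗ[ℂ] B where
  toFun := E V ψ s
  map_add' x y := by
    simp only [E, map_add, smul_add]
    exact (hb.summable hR hs x).tsum_add (hb.summable hR hs y)
  map_smul' c x := by
    simp only [E, map_smul, RingHom.id_apply]
    rw [← (hb.summable hR hs x).tsum_const_smul c]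
    exact tsum_congr fun k => smul_comm _ _ _

lemma Bd.hasDerivAt {ψ : A →ₗ[ℂ] B} {R s : ℝ} (hb : Bd V ψ R) (hR : 0 < R)
    (hs : |s| < 1 / (2 * R)) (y : A) : HasDerivAt (fun t => E V ψ t y) (E V ψ s (V y)) s := by
  obtain ⟨C, hC⟩ := hb (V y)
  have hr : 0 < 1 / (2 * R) := by positivity
  have h1 : HasDerivAt (fun t => ∑' k, cf t (k + 1) • ψ ((V ^ k) (V y))) (E V ψ s (V y)) s := by
    refine hasDerivAt_tsum_of_isPreconnected (u := fun k => C * (1 / 2) ^ k)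
      (t := Set.Ioo (-(1 / (2 * R))) (1 / (2 * R))) (y₀ := 0)
      (g := fun k t => cf t (k + 1) • ψ ((V ^ k) (V y)))
      (g' := fun k t => cf t k • ψ ((V ^ k) (V y)))
      (summable_geometric_two.mul_left C) isOpen_Ioo isPreconnected_Ioo
      (fun k t _ => (hasDerivAt_cf t k).smul_const _)
      (fun k t ht => norm_cf_smul_le hR (abs_lt.mpr ht).le (hC k)) ⟨by linarith, hr⟩ ?_
      (abs_lt.mp hs)
    simp only [cf_zero_succ, zero_smul]
    exact summable_zero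
  refine (h1.const_add (ψ y)).congr_of_eventuallyEq ?_
  filter_upwards [Ioo_mem_nhds (abs_lt.mp hs).1 (abs_lt.mp hs).2] with t ht
  rw [E, (hb.summable hR (abs_lt.mpr ht).le y).tsum_eq_zero_add]
  simp only [cf_zero, pow_zero, one_smul, Module.End.one_apply, pow_succ, Module.End.mul_apply]

end General

lemma Bd.E_mul {A : Type*} [AddCommGroup A] [Module ℂ A] {V : A →ₗ[ℂ] A}
    {B : Type*} [NormedRing B] [NormedAlgebra ℂ B] [CompleteSpace B] {ψ : A →ₗ[ℂ] B} {R s : ℝ}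
    (hb : Bd V ψ R) (hR : 0 < R) (hs : |s| ≤ 1 / (2 * R)) (m : A → A → A)
    (hm : ∀ x y, V (m x y) = m (V x) y + m x (V y)) (hψ : ∀ x y, ψ (m x y) = ψ x * ψ y) (x y : A) :
    E V ψ s (m x y) = E V ψ s x * E V ψ s y := by
  rw [E, E, E, tsum_mul_tsum_eq_tsum_sum_antidiagonal_of_summable_norm (hb.summable_norm hR hs x)
    (hb.summable_norm hR hs y)]
  refine tsum_congr fun n => ?_
  rw [leibniz V m hm, map_sum, Finset.smul_sum]
  refine Finset.sum_congr rfl fun p hp => ?_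
  rw [map_nsmul, hψ, smul_mul_smul_comm, cf_mul s (Finset.HasAntidiagonal.mem_antidiagonal.mp hp),
    ← Nat.cast_smul_eq_nsmul ℂ, smul_smul]

lemma conj_mem_centralizer {A B : Type*} [Monoid B] (π a : A → B) (T T' : B) (h1 : T * T' = 1)
    (h2 : T' * T = 1) (h : ∀ x, T' * π x = a x * T')
    (hc : ∀ z ∈ (Set.range π).centralizer, ∀ x, Commute z (a x)) (z : B)
    (hz : z ∈ (Set.range π).centralizer) : T * z * T' ∈ (Set.range π).centralizer := by
  rintro _ ⟨x, rfl⟩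
  have h3 : π x * T = T * a x := by
    calc π x * T = T * (T' * π x) * T := by rw [← mul_assoc, h1, one_mul]
      _ = T * a x * (T' * T) := by rw [h]; simp only [mul_assoc]
      _ = T * a x := by rw [h2, mul_one]
  calc π x * (T * z * T') = T * (a x * z) * T' := by
        rw [← mul_assoc, ← mul_assoc, h3]; simp only [mul_assoc]
    _ = T * z * (a x * T') := by rw [← (hc z hz x).eq]; simp only [mul_assoc]
    _ = T * z * T' * π x := by rw [← h]; simp only [mul_assoc]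

/-- Taylor estimates for powers of an isometry. -/
lemma pow_estimates {A H : Type*} [NormedAddCommGroup H] [NormedSpace ℂ H] (v : A → H) (V : A → A)
    (T : H →L[ℂ] H) (hT : ∀ ξ, ‖T ξ‖ = ‖ξ‖) (h : ℝ) (hh : 0 ≤ h)
    (h1 : ∀ y, ‖T (v y) - v y‖ ≤ h * ‖v (V y)‖)
    (h2 : ∀ y, ‖T (v y) - v y - (h : ℂ) • v (V y)‖ ≤ h ^ 2 * ‖v (V (V y))‖)
    (h3 : ∀ y, ‖T (v y) - v y - (h : ℂ) • v (V y) - ((h : ℂ) ^ 2 / 2) • v (V (V y))‖ ≤
      h ^ 3 * ‖v (V (V (V y)))‖) (n : ℕ) :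
    (∀ y, ‖(T ^ n) (v y) - v y‖ ≤ (n * h) * ‖v (V y)‖) ∧
    (∀ y, ‖(T ^ n) (v y) - v y - ((n * h : ℝ) : ℂ) • v (V y)‖ ≤ (n * h) ^ 2 * ‖v (V (V y))‖) ∧
    (∀ y, ‖(T ^ n) (v y) - v y - ((n * h : ℝ) : ℂ) • v (V y)
      - (((n * h : ℝ) : ℂ) ^ 2 / 2) • v (V (V y))‖ ≤ (n * h) ^ 3 * ‖v (V (V (V y)))‖) := by
  have hTn : ∀ (n : ℕ) ξ, ‖(T ^ n) ξ‖ = ‖ξ‖ := by
    intro n
    induction n with
    | zero => simp
    | succ n ih => intro ξ; rw [pow_succ, mul_apply_eq_comp, ih, hT]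
  have hn : ∀ ξ : H, ‖(h : ℂ) • ξ‖ = h * ‖ξ‖ := fun ξ => by
    rw [norm_smul, Complex.norm_real, Real.norm_eq_abs, abs_of_nonneg hh]
  have hn2 : ∀ ξ : H, ‖((h : ℂ) ^ 2 / 2) • ξ‖ = h ^ 2 / 2 * ‖ξ‖ := fun ξ => by
    rw [norm_smul]; simp
  induction n with
  | zero => simp
  | succ n ih =>
    obtain ⟨i1, i2, i3⟩ := ih
    have hn0 : (0 : ℝ) ≤ n := n.cast_nonneg
    refine ⟨fun y => ?_, fun y => ?_, fun y => ?_⟩
    · have e : (T ^ (n + 1)) (v y) - v y = (T ^ n) (T (v y) - v y) + ((T ^ n) (v y) - v y) := by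
        rw [pow_succ, mul_apply_eq_comp, map_sub]; abel
      rw [e]
      refine (norm_add_le _ _).trans ?_
      rw [hTn]
      have := h1 y
      have := i1 y
      rw [Nat.cast_succ]
      nlinarith
    · have e : (T ^ (n + 1)) (v y) - v y - ((((n + 1 : ℕ) : ℝ) * h : ℝ) : ℂ) • v (V y) =
          (T ^ n) (T (v y) - v y - (h : ℂ) • v (V y)) +
          ((T ^ n) (v y) - v y - ((n * h : ℝ) : ℂ) • v (V y)) +
          (h : ℂ) • ((T ^ n) (v (V y)) - v (V y)) := by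
        rw [pow_succ, mul_apply_eq_comp, map_sub, map_sub, map_smul]
        simp only [Complex.ofReal_mul, Complex.ofReal_natCast, Nat.cast_succ, Complex.ofReal_add,
          Complex.ofReal_one]
        module
      rw [e]
      refine (norm_add₃_le).trans ?_
      rw [hTn, hn]
      have a1 := h2 y
      have a2 := i2 y
      have a3 := mul_le_mul_of_nonneg_left (i1 (V y)) hh
      have a4 : 0 ≤ n * h ^ 2 * ‖v (V (V y))‖ := by positivity
      rw [Nat.cast_succ]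
      nlinarith
    · have e : (T ^ (n + 1)) (v y) - v y - ((((n + 1 : ℕ) : ℝ) * h : ℝ) : ℂ) • v (V y)
          - (((((n + 1 : ℕ) : ℝ) * h : ℝ) : ℂ) ^ 2 / 2) • v (V (V y)) =
          (T ^ n) (T (v y) - v y - (h : ℂ) • v (V y) - ((h : ℂ) ^ 2 / 2) • v (V (V y))) +
          ((T ^ n) (v y) - v y - ((n * h : ℝ) : ℂ) • v (V y)
            - (((n * h : ℝ) : ℂ) ^ 2 / 2) • v (V (V y))) +
          (h : ℂ) • ((T ^ n) (v (V y)) - v (V y) - ((n * h : ℝ) : ℂ) • v (V (V y))) +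
          ((h : ℂ) ^ 2 / 2) • ((T ^ n) (v (V (V y))) - v (V (V y))) := by
        rw [pow_succ, mul_apply_eq_comp, map_sub, map_sub, map_sub, map_smul, map_smul]
        simp only [Complex.ofReal_mul, Complex.ofReal_natCast, Nat.cast_succ, Complex.ofReal_add,
          Complex.ofReal_one]
        module
      rw [e]
      refine (norm_add₄_le).trans ?_
      rw [hTn, hn, hn2]
      have a1 := h3 y
      have a2 := i3 y
      have a3 := mul_le_mul_of_nonneg_left (i2 (V y)) hh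
      have a4 := mul_le_mul_of_nonneg_left (i1 (V (V y))) (by positivity : 0 ≤ h ^ 2 / 2)
      have a5 : 0 ≤ n * h ^ 3 * ‖v (V (V (V y)))‖ := by positivity
      have a6 : 0 ≤ n ^ 2 * h ^ 3 * ‖v (V (V (V y)))‖ := by positivity
      rw [Nat.cast_succ]
      nlinarith

/-- One-step Taylor estimates. -/
lemma step_estimates {A H : Type*} [NormedAddCommGroup H] [NormedSpace ℂ H] (v : A → H) (V : A → A)
    (F : ℝ → A → H) (h : ℝ) (hh : 0 ≤ h) (hF0 : ∀ y, F 0 y = v y)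
    (hFn : ∀ s ∈ Set.Icc 0 h, ∀ y, ‖F s y‖ = ‖v y‖)
    (hFd : ∀ s ∈ Set.Icc 0 h, ∀ y, HasDerivAt (fun t => F t y) (F s (V y)) s) :
    (∀ y, ‖F h y - v y‖ ≤ h * ‖v (V y)‖) ∧
    (∀ y, ‖F h y - v y - (h : ℂ) • v (V y)‖ ≤ h ^ 2 * ‖v (V (V y))‖) ∧
    (∀ y, ‖F h y - v y - (h : ℂ) • v (V y) - ((h : ℂ) ^ 2 / 2) • v (V (V y))‖ ≤
      h ^ 3 * ‖v (V (V (V y)))‖) := by
  have b1 : ∀ y, ∀ s ∈ Set.Icc 0 h, ‖F s y - v y‖ ≤ h * ‖v (V y)‖ := by
    intro y s hs
    have := norm_image_sub_le_of_norm_deriv_le_segment' (f := fun t => F t y)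
      (f' := fun t => F t (V y)) (C := ‖v (V y)‖) (a := 0) (b := h)
      (fun t ht => (hFd t ht y).hasDerivWithinAt)
      (fun t ht => (hFn t (Set.Ico_subset_Icc_self ht) _).le) s hs
    rw [hF0, sub_zero] at this
    refine this.trans ?_
    rw [mul_comm]; gcongr; exact hs.2
  have d1 : ∀ s : ℝ, HasDerivAt (fun t : ℝ => (t : ℂ)) 1 s := fun s =>
    (hasDerivAt_id (s : ℂ)).comp_ofReal
  have d2 : ∀ s : ℝ, HasDerivAt (fun t : ℝ => (t : ℂ) ^ 2 / 2) (s : ℂ) s := fun s => by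
    have := ((hasDerivAt_pow 2 (s : ℂ)).div_const 2).comp_ofReal
    convert this using 1
    simp
  have b2 : ∀ y, ∀ s ∈ Set.Icc 0 h,
      ‖F s y - v y - (s : ℂ) • v (V y)‖ ≤ h ^ 2 * ‖v (V (V y))‖ := by
    intro y s hs
    have := norm_image_sub_le_of_norm_deriv_le_segment'
      (f := fun t => F t y - v y - (t : ℂ) • v (V y))
      (f' := fun t => F t (V y) - v (V y)) (C := h * ‖v (V (V y))‖) (a := 0) (b := h)
      (fun t ht => by
        have := ((hFd t ht y).sub_const (v y)).sub ((d1 t).smul_const (v (V y)))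
        rw [one_smul] at this
        exact this.hasDerivWithinAt)
      (fun t ht => b1 _ t (Set.Ico_subset_Icc_self ht)) s hs
    simp only [hF0, sub_self, Complex.ofReal_zero, zero_smul, sub_zero] at this
    refine this.trans ?_
    calc h * ‖v (V (V y))‖ * s ≤ h * ‖v (V (V y))‖ * h := by gcongr; exact hs.2
      _ = _ := by ring
  have b3 : ∀ y, ∀ s ∈ Set.Icc 0 h,
      ‖F s y - v y - (s : ℂ) • v (V y) - ((s : ℂ) ^ 2 / 2) • v (V (V y))‖ ≤
        h ^ 3 * ‖v (V (V (V y)))‖ := by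
    intro y s hs
    have := norm_image_sub_le_of_norm_deriv_le_segment'
      (f := fun t => F t y - v y - (t : ℂ) • v (V y) - ((t : ℂ) ^ 2 / 2) • v (V (V y)))
      (f' := fun t => F t (V y) - v (V y) - (t : ℂ) • v (V (V y)))
      (C := h ^ 2 * ‖v (V (V (V y)))‖) (a := 0) (b := h)
      (fun t ht => by
        have := (((hFd t ht y).sub_const (v y)).sub ((d1 t).smul_const (v (V y)))).sub
          ((d2 t).smul_const (v (V (V y))))
        rw [one_smul] at this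
        exact this.hasDerivWithinAt)
      (fun t ht => b2 _ t (Set.Ico_subset_Icc_self ht)) s hs
    simp only [hF0, sub_self, Complex.ofReal_zero, zero_smul, sub_zero, ne_eq, OfNat.ofNat_ne_zero,
      not_false_eq_true, zero_pow, zero_div] at this
    refine this.trans ?_
    calc h ^ 2 * ‖v (V (V (V y)))‖ * s ≤ h ^ 2 * ‖v (V (V (V y)))‖ * h := by gcongr; exact hs.2
      _ = _ := by ring
  exact ⟨fun y => b1 y h ⟨hh, le_rfl⟩, fun y => b2 y h ⟨hh, le_rfl⟩, fun y => b3 y h ⟨hh, le_rfl⟩⟩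

end Flow

open Crest.Agent.R134.Flow

theorem exists_flow {A : Type*} [Ring A] [Algebra ℂ A] [StarRing A] [StarModule ℂ A]
    {H : Type*} [NormedAddCommGroup H] [InnerProductSpace ℂ H] [CompleteSpace H]
    (Ω : H) (πL : A →ₐ[ℂ] (H →L[ℂ] H)) (πR : A →ₗ[ℂ] (H →L[ℂ] H))
    (hLstar : ∀ x, πL (star x) = star (πL x))
    (hRmul : ∀ x y, πR (x * y) = πR y * πR x)
    (hLR : ∀ x, πR x Ω = πL x Ω)
    (hdense : DenseRange (fun x => πL x Ω))
    (V : A →ₗ[ℂ] A) (hV : ∀ x y, V (x * y) = V x * y + x * V y)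
    (hVstar : ∀ x, V (star x) = star (V x))
    (htr : ∀ x, ⟪Ω, πL (V x) Ω⟫_ℂ = 0)
    (R : ℝ) (hR : 0 < R)
    (hbd : ∀ y, ∃ C : ℝ, ∀ k : ℕ, ‖πL ((V ^ k) y)‖ ≤ C * R ^ k * k ! ∧ ‖πR ((V ^ k) y)‖ ≤ C * R ^ k * k !)
    (θ : ℝ) (hθ : 0 ≤ θ) :
    ∃ W : unitary (H →L[ℂ] H), W ∈ normGrp Ω (Set.range πL) (Set.range πR) ∧
      (∀ y, ‖(W : H →L[ℂ] H) (πL y Ω) - πL y Ω‖ ≤ θ * ‖πL (V y) Ω‖) ∧
      (∀ y, ‖(W : H →L[ℂ] H) (πL y Ω) - πL y Ω - (θ : ℂ) • πL (V y) Ω
          - ((θ : ℂ) ^ 2 / 2) • πL (V (V y)) Ω‖ ≤ θ ^ 3 * ‖πL (V (V (V y))) Ω‖) := by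
  have hbL : Bd V πL.toLinearMap R := fun y => (hbd y).imp fun C hC k => (hC k).1
  have hbR : Bd V πR R := fun y => (hbd y).imp fun C hC k => (hC k).2
  let ev : (H →L[ℂ] H) →L[ℂ] H := ContinuousLinearMap.apply ℂ H Ω
  let v : A →ₗ[ℂ] H := ev.toLinearMap ∘ₗ πL.toLinearMap
  have hv : ∀ y, v y = πL y Ω := fun _ => rfl
  have hvR : ev.toLinearMap ∘ₗ πR = v := LinearMap.ext hLR
  have hbv : Bd V v R := hbL.comp ev
  have hdv : DenseRange v := hdense
  have hEL : ∀ s, |s| ≤ 1 / (2 * R) → ∀ y, E V πL.toLinearMap s y Ω = E V v s y :=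
    fun s hs y => hbL.map_E hR hs ev y
  have hER : ∀ s, |s| ≤ 1 / (2 * R) → ∀ y, E V πR s y Ω = E V v s y := fun s hs y => by
    rw [← hvR]; exact hbR.map_E hR hs ev y
  have hmulL : ∀ s, |s| ≤ 1 / (2 * R) → ∀ x y, E V πL.toLinearMap s (x * y) =
      E V πL.toLinearMap s x * E V πL.toLinearMap s y := fun s hs x y =>
    hbL.E_mul hR hs (fun x y => x * y) hV (map_mul πL) x y
  have hmulR : ∀ s, |s| ≤ 1 / (2 * R) → ∀ x y, E V πR s (y * x) = E V πR s x * E V πR s y :=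
    fun s hs x y => hbR.E_mul hR hs (fun x y => y * x) (fun x y => by rw [hV, add_comm])
      (fun x y => hRmul y x) x y
  have hVkstar : ∀ (k : ℕ) x, (V ^ k) (star x) = star ((V ^ k) x) := by
    intro k
    induction k with
    | zero => intro x; rfl
    | succ k ih => intro x; rw [pow_succ, Module.End.mul_apply, Module.End.mul_apply, hVstar, ih]
  have hstar : ∀ s x, E V πL.toLinearMap s (star x) = star (E V πL.toLinearMap s x) := by
    intro s x
    rw [E, E, tsum_star]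
    refine tsum_congr fun k => ?_
    rw [star_smul, hVkstar, AlgHom.toLinearMap_apply, AlgHom.toLinearMap_apply, hLstar]
    congr 1
    exact (conj_cf s k).symm
  have hinner : ∀ x y, ⟪v x, v y⟫_ℂ = ⟪Ω, v (star x * y)⟫_ℂ := by
    intro x y
    rw [hv, hv, hv, map_mul, hLstar, mul_apply_eq_comp, ContinuousLinearMap.star_eq_adjoint,
      ContinuousLinearMap.adjoint_inner_right]
  have htrE : ∀ s, |s| ≤ 1 / (2 * R) → ∀ y, ⟪Ω, E V v s y⟫_ℂ = ⟪Ω, v y⟫_ℂ := by
    intro s hs y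
    have := hbv.map_E hR hs (innerSL ℂ Ω) y
    refine this.trans (E_of_comp_zero _ _ _ fun k => ?_)
    rw [pow_succ', Module.End.mul_apply]
    exact htr _
  have hiso : ∀ s, |s| ≤ 1 / (2 * R) → ∀ x y, ⟪E V v s x, E V v s y⟫_ℂ = ⟪v x, v y⟫_ℂ := by
    intro s hs x y
    rw [hinner, ← htrE s hs, ← hEL s hs, ← hEL s hs, ← hEL s hs, hmulL s hs, hstar,
      mul_apply_eq_comp, ContinuousLinearMap.star_eq_adjoint,
      ContinuousLinearMap.adjoint_inner_right]
  have hnorm : ∀ s, |s| ≤ 1 / (2 * R) → ∀ x, ‖E V v s x‖ = ‖v x‖ := by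
    intro s hs x
    rw [norm_eq_sqrt_re_inner (𝕜 := ℂ), hiso s hs, ← norm_eq_sqrt_re_inner]
  have hskew : ∀ x y, ⟪v (V x), v y⟫_ℂ = -⟪v x, v (V y)⟫_ℂ := by
    intro x y
    have := htr (star x * y)
    rw [← hv, hV, map_add, inner_add_right, hVstar, ← hinner, ← hinner] at this
    exact eq_neg_of_add_eq_zero_left this
  have hskewk : ∀ (k : ℕ) x y, ⟪v ((V ^ k) x), v y⟫_ℂ = (-1) ^ k * ⟪v x, v ((V ^ k) y)⟫_ℂ := by
    intro k
    induction k with
    | zero => intro x y; simp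
    | succ k ih =>
      intro x y
      rw [pow_succ V, Module.End.mul_apply, ih, hskew, ← pow_succ V, pow_succ' V,
        Module.End.mul_apply]
      ring
  have hadjE : ∀ s, |s| ≤ 1 / (2 * R) → ∀ x y, ⟪E V v s x, v y⟫_ℂ = ⟪v x, E V v (-s) y⟫_ℂ := by
    intro s hs x y
    have hs' : |-s| ≤ 1 / (2 * R) := by rwa [abs_neg]
    have e1 := (innerSL ℂ (v x)).map_tsum (hbv.summable hR hs' y)
    have e2 := (innerSL ℂ (v y)).map_tsum (hbv.summable hR hs x)
    simp only [innerSL_apply_apply] at e1 e2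
    rw [← inner_conj_symm, E, E, e1, e2, Complex.conj_tsum]
    refine tsum_congr fun k => ?_
    rw [inner_conj_symm, inner_smul_left, inner_smul_right, conj_cf, hskewk, cf_neg]
    ring
  have hT : ∀ s, |s| ≤ 1 / (2 * R) → ∃ T : H →L[ℂ] H, ∀ y, T (v y) = E V v s y := fun s hs =>
    ⟨(hbv.Elin hR hs).extendOfNorm v, fun y =>
      LinearMap.extendOfNorm_eq hdv ⟨1, fun x => by rw [one_mul]; exact (hnorm s hs x).le⟩ y⟩
  choose! T hT using hT
  have hext : ∀ S S' : H →L[ℂ] H, (∀ y, S (v y) = S' (v y)) → S = S' := by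
    intro S S' h
    exact ContinuousLinearMap.ext fun ξ =>
      hdv.induction_on ξ (isClosed_eq S.continuous S'.continuous) h
  have hadj : ∀ s, |s| ≤ 1 / (2 * R) → star (T s) = T (-s) := by
    intro s hs
    have hs' : |-s| ≤ 1 / (2 * R) := by rwa [abs_neg]
    refine hext _ _ fun y => ?_
    refine ext_inner_left ℂ fun ξ => ?_
    rw [ContinuousLinearMap.star_eq_adjoint, ContinuousLinearMap.adjoint_inner_right]
    refine hdv.induction_on ξ (isClosed_eq (by fun_prop) (by fun_prop)) fun x => ?_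
    rw [hT s hs, hT _ hs', hadjE s hs]
  have hTT : ∀ s, |s| ≤ 1 / (2 * R) → star (T s) * T s = 1 := by
    intro s hs
    refine hext _ _ fun y => ?_
    refine ext_inner_left ℂ fun ξ => ?_
    rw [mul_apply_eq_comp, ContinuousLinearMap.star_eq_adjoint,
      ContinuousLinearMap.adjoint_inner_right]
    refine hdv.induction_on ξ (isClosed_eq (by fun_prop) (by fun_prop)) fun x => ?_
    rw [hT s hs, hT s hs, hiso s hs]; rfl
  have hTL : ∀ s, |s| ≤ 1 / (2 * R) → ∀ x, T s * πL x = E V πL.toLinearMap s x * T s := by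
    intro s hs x
    refine hext _ _ fun y => ?_
    rw [mul_apply_eq_comp, mul_apply_eq_comp, hT s hs, ← hEL s hs, ← mul_apply_eq_comp (E _ _ _ _),
      ← hmulL s hs, hEL s hs, ← hT s hs, hv, hv, map_mul, mul_apply_eq_comp]
  have hTR : ∀ s, |s| ≤ 1 / (2 * R) → ∀ x, T s * πR x = E V πR s x * T s := by
    intro s hs x
    refine hext _ _ fun y => ?_
    rw [mul_apply_eq_comp, mul_apply_eq_comp, hT s hs, ← hER s hs, ← mul_apply_eq_comp (E _ _ _ _),
      ← hmulR s hs, hER s hs, ← hT s hs, hv, hv, ← hLR, ← hLR, hRmul, mul_apply_eq_comp]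
  have hcL : ∀ s, ∀ z ∈ (Set.range πL).centralizer, ∀ x, Commute z (E V πL.toLinearMap s x) :=
    fun s z hz x => Commute.tsum_right z fun k =>
      Commute.smul_right (Commute.symm (hz _ ⟨(V ^ k) x, rfl⟩)) _
  have hcR : ∀ s, ∀ z ∈ (Set.range πR).centralizer, ∀ x, Commute z (E V πR s x) :=
    fun s z hz x => Commute.tsum_right z fun k =>
      Commute.smul_right (Commute.symm (hz _ ⟨(V ^ k) x, rfl⟩)) _
  have hV1 : V 1 = 0 := by
    have := hV 1 1
    rw [mul_one, mul_one, one_mul] at this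
    exact left_eq_add.mp this
  -- the step size
  obtain ⟨N, hN⟩ := exists_nat_gt (θ * (2 * R))
  have hN0 : (0 : ℝ) < N := lt_of_le_of_lt (by positivity) hN
  set h : ℝ := θ / N with hh
  have hh0 : 0 ≤ h := by positivity
  have hhR : h < 1 / (2 * R) := by
    rw [hh, div_lt_div_iff₀ hN0 (by positivity)]; linarith
  have hs : |h| ≤ 1 / (2 * R) := by rw [abs_of_nonneg hh0]; exact hhR.le
  have hs' : |-h| ≤ 1 / (2 * R) := by rwa [abs_neg]
  have h1 : T (-h) * T h = 1 := by rw [← hadj h hs]; exact hTT h hs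
  have h2 : T h * T (-h) = 1 := by
    have := hTT _ hs'
    rwa [hadj _ hs', neg_neg] at this
  let U : unitary (H →L[ℂ] H) := ⟨T h, hTT h hs, by rw [hadj h hs]; exact h2⟩
  have hkey : ∀ z, T (-h) * (T h * z * T (-h)) * T h = z := fun z => by
    calc T (-h) * (T h * z * T (-h)) * T h = (T (-h) * T h) * z * (T (-h) * T h) := by
          simp only [mul_assoc]
      _ = z := by rw [h1, one_mul, mul_one]
  have hU : U ∈ normGrp Ω (Set.range πL) (Set.range πR) := by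
    refine ⟨?_, fun z => ?_, fun z => ?_⟩
    · have e : v 1 = Ω := by rw [hv, map_one]; rfl
      change T h Ω = Ω
      rw [← e, hT h hs, E_of_comp_zero]
      intro k
      rw [pow_succ, Module.End.mul_apply, hV1, map_zero, map_zero]
    · change _ ↔ T h * z * star (T h) ∈ _
      rw [hadj h hs]
      refine ⟨conj_mem_centralizer πL _ _ _ h2 h1 (hTL _ hs') (hcL _) z, fun hz => ?_⟩
      have := conj_mem_centralizer πL _ _ _ h1 h2 (hTL _ hs) (hcL _) _ hz
      rwa [hkey] at this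
    · change _ ↔ T h * z * star (T h) ∈ _
      rw [hadj h hs]
      refine ⟨conj_mem_centralizer πR _ _ _ h2 h1 (hTR _ hs') (hcR _) z, fun hz => ?_⟩
      have := conj_mem_centralizer πR _ _ _ h1 h2 (hTR _ hs) (hcR _) _ hz
      rwa [hkey] at this
  have habs : ∀ s ∈ Set.Icc 0 h, |s| < 1 / (2 * R) := fun s hs => by
    rw [abs_of_nonneg hs.1]; exact hs.2.trans_lt hhR
  obtain ⟨s1, s2, s3⟩ := step_estimates v V (E V v) h hh0 (E_at_zero v)
    (fun s hs => hnorm s (habs s hs).le) (fun s hs y => hbv.hasDerivAt hR (habs s hs) y)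
  simp only [← hT h hs] at s1 s2 s3
  have hTiso : ∀ ξ, ‖T h ξ‖ = ‖ξ‖ := fun ξ =>
    hdv.induction_on ξ (isClosed_eq (by fun_prop) (by fun_prop)) fun x => by
      rw [hT h hs, hnorm h hs]
  obtain ⟨p1, -, p3⟩ := pow_estimates v V (T h) hTiso h hh0 s1 s2 s3 N
  have hNh : (N : ℝ) * h = θ := by rw [hh]; field_simp
  rw [hNh] at p1 p3
  refine ⟨U ^ N, pow_mem hU N, ?_, ?_⟩
  · rw [SubmonoidClass.coe_pow]; exact p1
  · rw [SubmonoidClass.coe_pow]; exact p3

end Crest.Agent.R134
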