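import Crest.Agent.R134.Defs

/-! The commutation theorem for group von Neumann algebras and spatial isomorphisms. -/

set_option autoImplicit false

open Crest.OpAlg
open scoped InnerProductSpace

noncomputable section

namespace Crest.Agent.R134

namespace GroupVN

variable {G : Type*} [Group G]

lemma left_apply (g : G) (ξ : ltwo G) (h : G) : leftRegular g ξ h = ξ (g⁻¹ * h) := rfl

lemma right_apply (g : G) (ξ : ltwo G) (h : G) : rightRegular g ξ h = ξ (h * g) := rfl

lemma star_left (g : G) : star (leftRegular g) = leftRegular g⁻¹ := by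
  rw [ContinuousLinearMap.star_eq_adjoint, leftRegular, LinearIsometryEquiv.adjoint_eq_symm]
  ext ξ h
  change ξ ((Equiv.mulLeft g⁻¹).symm h) = ξ (g⁻¹⁻¹ * h)
  simp

lemma commute_left_right (g h : G) : Commute (leftRegular g) (rightRegular h) := by
  ext ξ k
  change ξ (g⁻¹ * k * h) = ξ (g⁻¹ * (k * h))
  rw [mul_assoc]

lemma mem_groupVNA_iff (x : ltwo G →L[ℂ] ltwo G) :
    x ∈ (groupVNA G).toStarSubalgebra ↔
      ∀ z : ltwo G →L[ℂ] ltwo G, (∀ g : G, Commute (leftRegular g) z) → Commute z x := by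
  have key : ∀ z : ltwo G →L[ℂ] ltwo G,
      z ∈ StarSubalgebra.centralizer ℂ (Set.range (leftRegular (G := G))) ↔
        ∀ g : G, Commute (leftRegular g) z := by
    intro z
    rw [StarSubalgebra.mem_centralizer_iff]
    constructor
    · intro h g; exact (h _ ⟨g, rfl⟩).1
    · rintro h _ ⟨g, rfl⟩
      exact ⟨h g, by rw [star_left]; exact h g⁻¹⟩
  change x ∈ StarSubalgebra.centralizer ℂ _ ↔ _
  rw [StarSubalgebra.mem_centralizer_iff]
  constructor
  · intro h z hz
    exact (h z ((key z).mpr hz)).1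
  · intro h z hz
    exact ⟨h z ((key z).mp hz), h _ ((key _).mp (star_mem hz))⟩

variable [DecidableEq G]

lemma left_single (g : G) :
    leftRegular g (lp.single 2 (1 : G) (1 : ℂ) : ltwo G) = lp.single 2 g (1 : ℂ) := by
  ext h
  rw [left_apply, lp.single_apply, lp.single_apply, Pi.single_apply, Pi.single_apply]
  simp only [inv_mul_eq_one, eq_comm]

lemma right_single (g : G) :
    rightRegular g⁻¹ (lp.single 2 (1 : G) (1 : ℂ) : ltwo G) = lp.single 2 g (1 : ℂ) := by
  ext h
  rw [right_apply, lp.single_apply, lp.single_apply, Pi.single_apply, Pi.single_apply]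
  simp only [mul_inv_eq_one]

omit [Group G] in
lemma hasSum_apply (x : ltwo G →L[ℂ] ltwo G) (v : ltwo G) (g : G) :
    HasSum (fun k => v k * x (lp.single 2 k (1 : ℂ)) g) (x v g) := by
  have h := (lp.hasSum_single (by norm_num) v).mapL ((lp.evalCLM ℂ (fun _ : G => ℂ) 2 g).comp x)
  have h2 : (fun k => v k * x (lp.single 2 k (1 : ℂ)) g) = fun k =>
      ((lp.evalCLM ℂ (fun _ : G => ℂ) 2 g).comp x) (lp.single 2 k (v k)) := by
    funext k
    have : (lp.single 2 k (v k) : ltwo G) = v k • lp.single 2 k (1 : ℂ) := by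
      rw [← lp.single_smul, smul_eq_mul, mul_one]
    rw [this, map_smul]
    rfl
  rw [h2]
  exact h

/-- The commutation theorem. -/
lemma commutation {x z : ltwo G →L[ℂ] ltwo G} (hx : ∀ h : G, Commute x (rightRegular h))
    (hz : ∀ g : G, Commute (leftRegular g) z) : Commute z x := by
  have hx' : ∀ k g : G, x (lp.single 2 k (1 : ℂ)) g = x (lp.single 2 (1 : G) (1 : ℂ)) (g * k⁻¹) := by
    intro k g
    rw [← right_single, ← right_apply]
    exact congrArg (fun v : ltwo G => v g) (DFunLike.congr_fun (hx k⁻¹).eq _)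
  have hz' : ∀ k g : G, z (lp.single 2 k (1 : ℂ)) g = z (lp.single 2 (1 : G) (1 : ℂ)) (k⁻¹ * g) := by
    intro k g
    rw [← left_single, ← left_apply]
    exact congrArg (fun v : ltwo G => v g) (DFunLike.congr_fun (hz k).eq _).symm
  refine lp.ext_continuousLinearMap (by norm_num) fun h => ?_
  ext g
  change z (x (lp.single 2 h (1 : ℂ))) g = x (z (lp.single 2 h (1 : ℂ))) g
  rw [← (hasSum_apply z _ g).tsum_eq, ← (hasSum_apply x _ g).tsum_eq,
    ← Equiv.tsum_eq (((Equiv.inv G).trans (Equiv.mulLeft g)).trans (Equiv.mulRight h))]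
  refine tsum_congr fun k => ?_
  rw [hx', hz', hx' k, hz' h, mul_comm]
  simp [mul_assoc]

lemma mem_groupVNA_iff_right (x : ltwo G →L[ℂ] ltwo G) :
    x ∈ (groupVNA G).toStarSubalgebra ↔ ∀ h : G, Commute x (rightRegular h) := by
  rw [mem_groupVNA_iff]
  exact ⟨fun hx h => (hx _ fun g => commute_left_right g h).symm,
    fun hx z hz => commutation hx hz⟩

end GroupVN

open GroupVN

theorem exists_iso_of_unitary {G₁ G₂ : Type} [Group G₁] [Group G₂] [DecidableEq G₁] [DecidableEq G₂]
    (U : ltwo G₁ ≃ₗᵢ[ℂ] ltwo G₂)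
    (hΩ : U (lp.single 2 (1 : G₁) (1 : ℂ)) = lp.single 2 (1 : G₂) (1 : ℂ))
    (hL : ∀ (g : G₁) (h : G₂), Commute (U.conjStarAlgEquiv (leftRegular g)) (rightRegular h))
    (hR : ∀ (g : G₁) (h : G₂), Commute (U.conjStarAlgEquiv (rightRegular g)) (leftRegular h)) :
    ∃ Φ : (groupVNA G₁).toStarSubalgebra ≃⋆ₐ[ℂ] (groupVNA G₂).toStarSubalgebra,
      ∀ x : (groupVNA G₁).toStarSubalgebra,
        groupTrace G₂ ((Φ x : (groupVNA G₂).toStarSubalgebra) : ltwo G₂ →L[ℂ] ltwo G₂) =
          groupTrace G₁ (x : ltwo G₁ →L[ℂ] ltwo G₁) := by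
  set E := U.conjStarAlgEquiv with hE
  have h1 : ∀ x ∈ (groupVNA G₁).toStarSubalgebra, E x ∈ (groupVNA G₂).toStarSubalgebra := by
    intro x hx
    rw [mem_groupVNA_iff_right]
    intro h
    rw [mem_groupVNA_iff] at hx
    have := hx (E.symm (rightRegular h)) fun g => by
      have := (hL g h).map E.symm
      rwa [StarAlgEquiv.symm_apply_apply] at this
    have := this.map E
    rw [StarAlgEquiv.apply_symm_apply] at this
    exact this.symm
  have h2 : ∀ y ∈ (groupVNA G₂).toStarSubalgebra, E.symm y ∈ (groupVNA G₁).toStarSubalgebra := by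
    intro y hy
    rw [mem_groupVNA_iff_right]
    intro g
    rw [mem_groupVNA_iff] at hy
    have := (hy (E (rightRegular g)) fun h => (hR g h).symm).map E.symm
    rw [StarAlgEquiv.symm_apply_apply] at this
    exact this.symm
  refine ⟨{ toFun := fun x => ⟨E x, h1 x x.2⟩
            invFun := fun y => ⟨E.symm y, h2 y y.2⟩
            left_inv := fun x => Subtype.ext (E.symm_apply_apply _)
            right_inv := fun y => Subtype.ext (E.apply_symm_apply _)
            map_mul' := fun x y => Subtype.ext (map_mul E _ _)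
            map_add' := fun x y => Subtype.ext (map_add E _ _)
            map_star' := fun x => Subtype.ext (map_star E _)
            map_smul' := fun c x => Subtype.ext (map_smul E c _) }, fun x => ?_⟩
  change ⟪(lp.single 2 (1 : G₂) (1 : ℂ) : ltwo G₂),
      U ((x : ltwo G₁ →L[ℂ] ltwo G₁) (U.symm (lp.single 2 (1 : G₂) (1 : ℂ))))⟫_ℂ = _
  rw [← hΩ, U.symm_apply_apply, U.inner_map_map]
  rfl

end Crest.Agent.R134
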