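import Mathlib

/-!
Row 134, auxiliary file for `Haar.lean`: functional calculus of `c + c*` for an isometry `c`,
and the Haar unitary `exp (2 pi i F(c + c*))`.
-/

set_option autoImplicit false

open scoped InnerProductSpace

noncomputable section

namespace Crest.Agent.R134.Haar

/-- The real interval `[-2, 2]` inside `ℂ`. -/
def sI : Set ℂ := {z | z.im = 0 ∧ ‖z‖ ≤ 2}

theorem isCompact_sI : IsCompact sI := by
  have : sI = {z : ℂ | z.im = 0} ∩ Metric.closedBall 0 2 := by
    ext z; simp [sI]
  rw [this]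
  exact (isCompact_closedBall 0 2).inter_left (isClosed_eq Complex.continuous_im continuous_const)

instance : CompactSpace sI := isCompact_iff_compactSpace.1 isCompact_sI

/-- The coordinate function. -/
def idI : C(sI, ℂ) := .restrict sI (.id ℂ)

@[simp] theorem idI_apply (z : sI) : idI z = z := rfl

theorem star_idI : star idI = idI := by
  ext z
  simp only [ContinuousMap.star_apply, idI_apply]
  exact Complex.conj_eq_iff_im.2 z.2.1

theorem ind {p : C(sI, ℂ) → Prop} (const : ∀ r, p (.const sI r)) (id : p idI)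
    (add : ∀ f g, p f → p g → p (f + g)) (mul : ∀ f g, p f → p g → p (f * g))
    (closed : IsClosed {f | p f}) (f : C(sI, ℂ)) : p f :=
  ContinuousMap.induction_on_of_compact const id (by
    have := star_idI
    unfold idI at this
    rw [this]; exact id) add mul (fun _ h => h.mem_of_closed closed) f

variable {H : Type*} [NormedAddCommGroup H] [InnerProductSpace ℂ H] [CompleteSpace H]

theorem spec_sub {x : H →L[ℂ] H} (hx : IsSelfAdjoint x) (hn : ‖x‖ ≤ 2) : spectrum ℂ x ⊆ sI := by
  intro z hz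
  refine ⟨hx.im_eq_zero_of_mem_spectrum hz, ?_⟩
  have h1 := spectrum.norm_le_norm_mul_of_mem hz
  have h2 : ‖(1 : H →L[ℂ] H)‖ ≤ 1 := ContinuousLinearMap.norm_id_le
  have h3 := norm_nonneg x
  have h4 := norm_nonneg (1 : H →L[ℂ] H)
  nlinarith

/-- The functional calculus on `[-2, 2]`. -/
def Psi {x : H →L[ℂ] H} (hx : IsSelfAdjoint x) (hn : ‖x‖ ≤ 2) :
    C(sI, ℂ) →⋆ₐ[ℂ] (H →L[ℂ] H) :=
  cfcHomSuperset hx.isStarNormal (spec_sub hx hn)

variable {x y : H →L[ℂ] H}

theorem Psi_id (hx : IsSelfAdjoint x) (hn : ‖x‖ ≤ 2) : Psi hx hn idI = x :=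
  cfcHomSuperset_id _ _

theorem continuous_Psi (hx : IsSelfAdjoint x) (hn : ‖x‖ ≤ 2) : Continuous (Psi hx hn) :=
  cfcHomSuperset_continuous _ _

theorem Psi_const (hx : IsSelfAdjoint x) (hn : ‖x‖ ≤ 2) (r : ℂ) :
    Psi hx hn (.const sI r) = r • (1 : H →L[ℂ] H) := by
  have : (ContinuousMap.const sI r) = algebraMap ℂ C(sI, ℂ) r := by ext; simp
  rw [this, AlgHomClass.commutes, Algebra.algebraMap_eq_smul_one]

theorem commute_Psi (hx : IsSelfAdjoint x) (hn : ‖x‖ ≤ 2) {z : H →L[ℂ] H} (h : Commute x z)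
    (f : C(sI, ℂ)) : Commute (Psi hx hn f) z := by
  induction f using ind with
  | const r => rw [Psi_const]; exact (Commute.one_left z).smul_left r
  | id => rwa [Psi_id]
  | add f g hf hg => rw [map_add]; exact hf.add_left hg
  | mul f g hf hg => rw [map_mul]; exact hf.mul_left hg
  | closed =>
    have := continuous_Psi hx hn
    exact isClosed_eq (by fun_prop) (by fun_prop)

theorem commute_Psi_Psi (hx : IsSelfAdjoint x) (hn : ‖x‖ ≤ 2) (hy : IsSelfAdjoint y)
    (hn' : ‖y‖ ≤ 2) (h : Commute x y) (f g : C(sI, ℂ)) : Commute (Psi hx hn f) (Psi hy hn' g) :=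
  commute_Psi hx hn (commute_Psi hy hn' h.symm g).symm f

theorem Psi_vac (hx : IsSelfAdjoint x) (hn : ‖x‖ ≤ 2) (hy : IsSelfAdjoint y)
    (hn' : ‖y‖ ≤ 2) (h : Commute x y) {Ω : H} (hΩ : x Ω = y Ω) (f : C(sI, ℂ)) :
    Psi hx hn f Ω = Psi hy hn' f Ω := by
  induction f using ind with
  | const r => rw [Psi_const, Psi_const]
  | id => rwa [Psi_id, Psi_id]
  | add f g hf hg => simp [hf, hg]
  | mul f g hf hg =>
    rw [map_mul, mul_comm f g, map_mul, mul_apply_eq_comp,
      mul_apply_eq_comp, hg, ← hf, ← mul_apply_eq_comp,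
      (commute_Psi_Psi hx hn hy hn' h f g).eq, mul_apply_eq_comp]
  | closed =>
    have := continuous_Psi hx hn
    have := continuous_Psi hy hn'
    exact isClosed_eq (by fun_prop) (by fun_prop)

/-! ### moments -/

/-- The parametrisation `t ↦ 2 cos t`. -/
def gam (t : ℝ) : sI := ⟨((2 * Real.cos t : ℝ) : ℂ), Complex.ofReal_im _, by
  rw [Complex.norm_real, Real.norm_eq_abs, abs_mul, abs_two]
  have := Real.abs_cos_le_one t
  linarith⟩

@[fun_prop] theorem continuous_gam : Continuous gam :=
  Continuous.subtype_mk (by fun_prop) _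

/-- The matrix elements of the functional calculus. -/
def mom (j : ℕ) (f : C(sI, ℂ)) : ℂ :=
  ∫ t in (0 : ℝ)..Real.pi, f (gam t) * ((2 / Real.pi * (Real.sin (j * t) * Real.sin t) : ℝ) : ℂ)

theorem continuous_mom (j : ℕ) : Continuous (mom j) :=
  intervalIntegral.continuous_parametric_intervalIntegral_of_continuous' (by
    unfold Function.uncurry
    fun_prop) _ _

theorem mom_zero (f : C(sI, ℂ)) : mom 0 f = 0 := by simp [mom]

theorem mom_add (j : ℕ) (f g : C(sI, ℂ)) : mom j (f + g) = mom j f + mom j g := by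
  unfold mom
  rw [← intervalIntegral.integral_add (Continuous.intervalIntegrable (by fun_prop) _ _)
    (Continuous.intervalIntegrable (by fun_prop) _ _)]
  congr 1; funext t; simp only [ContinuousMap.add_apply]; ring

theorem mom_const_mul (j : ℕ) (r : ℂ) (f : C(sI, ℂ)) :
    mom j (.const sI r * f) = r * mom j f := by
  unfold mom
  rw [← intervalIntegral.integral_const_mul]
  congr 1; funext t; simp only [ContinuousMap.mul_apply, ContinuousMap.const_apply]; ring

theorem mom_id_mul (j : ℕ) (f : C(sI, ℂ)) :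
    mom (j + 1) (idI * f) = mom (j + 2) f + mom j f := by
  unfold mom
  rw [← intervalIntegral.integral_add (Continuous.intervalIntegrable (by fun_prop) _ _)
    (Continuous.intervalIntegrable (by fun_prop) _ _)]
  congr 1; funext t
  have h : Real.sin (((j + 2 : ℕ) : ℝ) * t) + Real.sin (j * t) =
      2 * Real.cos t * Real.sin (((j + 1 : ℕ) : ℝ) * t) := by
    rw [show ((j + 2 : ℕ) : ℝ) * t = ((j + 1 : ℕ) : ℝ) * t + t by push_cast; ring,
      show (j : ℝ) * t = ((j + 1 : ℕ) : ℝ) * t - t by push_cast; ring, Real.sin_add, Real.sin_sub]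
    ring
  have h' : (2 / Real.pi * (Real.sin (((j + 2 : ℕ) : ℝ) * t) * Real.sin t) : ℝ) +
      2 / Real.pi * (Real.sin (j * t) * Real.sin t) =
      2 * Real.cos t * (2 / Real.pi * (Real.sin (((j + 1 : ℕ) : ℝ) * t) * Real.sin t)) := by
    linear_combination (2 / Real.pi * Real.sin t) * h
  rw [← mul_add, ← Complex.ofReal_add, h', Complex.ofReal_mul (2 * Real.cos t)]
  simp only [ContinuousMap.mul_apply, idI_apply, gam]
  ring

theorem mom_one_one : mom 1 1 = 1 := by
  unfold mom
  simp only [ContinuousMap.one_apply, one_mul, Nat.cast_one]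
  rw [intervalIntegral.integral_ofReal, intervalIntegral.integral_const_mul]
  simp only [← sq]
  rw [integral_sin_sq]
  have := Real.pi_pos
  simp

theorem mom_succ_succ_one (j : ℕ) : mom (j + 2) 1 = 0 := by
  unfold mom
  simp only [ContinuousMap.one_apply, one_mul]
  rw [intervalIntegral.integral_ofReal, intervalIntegral.integral_const_mul]
  have h : ∀ t ∈ Set.uIcc (0 : ℝ) Real.pi, HasDerivAt
      (fun t => Real.sin ((j + 1) * t) / (2 * (j + 1)) - Real.sin ((j + 3) * t) / (2 * (j + 3)))
      (Real.sin (((j + 2 : ℕ) : ℝ) * t) * Real.sin t) t := by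
    intro t _
    have h1 : HasDerivAt (fun t => Real.sin ((j + 1) * t)) (Real.cos ((j + 1) * t) * (j + 1)) t := by
      simpa using ((hasDerivAt_id t).const_mul ((j : ℝ) + 1)).sin
    have h2 : HasDerivAt (fun t => Real.sin ((j + 3) * t)) (Real.cos ((j + 3) * t) * (j + 3)) t := by
      simpa using ((hasDerivAt_id t).const_mul ((j : ℝ) + 3)).sin
    refine ((h1.div_const (2 * (j + 1))).sub (h2.div_const (2 * (j + 3)))).congr_deriv ?_
    rw [show ((j : ℝ) + 1) * t = ((j + 2 : ℕ) : ℝ) * t - t by push_cast; ring,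
      show ((j : ℝ) + 3) * t = ((j + 2 : ℕ) : ℝ) * t + t by push_cast; ring, Real.cos_add,
      Real.cos_sub]
    field_simp
    ring
  rw [intervalIntegral.integral_eq_sub_of_hasDerivAt h
    (Continuous.intervalIntegrable (by fun_prop) _ _)]
  have h3 : Real.sin (((j : ℝ) + 1) * Real.pi) = 0 := by
    exact_mod_cast Real.sin_nat_mul_pi (j + 1)
  have h4 : Real.sin (((j : ℝ) + 3) * Real.pi) = 0 := by
    exact_mod_cast Real.sin_nat_mul_pi (j + 3)
  simp [h3, h4]

/-- The shifted orbit of a vector. -/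
def ev (c : H →L[ℂ] H) (η : H) : ℕ → H
  | 0 => 0
  | j + 1 => (c ^ j) η

theorem ev_rec {c : H →L[ℂ] H} (hc : star c * c = 1) {η : H} (hη : star c η = 0) (j : ℕ) :
    (c + star c) (ev c η (j + 1)) = ev c η (j + 2) + ev c η j := by
  cases j with
  | zero => simp [ev, hη]
  | succ j =>
    simp only [ev]
    rw [← mul_apply_eq_comp, add_mul, ← pow_succ', pow_succ' c j, ← mul_assoc, hc, one_mul,
      add_apply]

theorem inner_Psi_aux {c : H →L[ℂ] H} (hc : star c * c = 1) (hx : IsSelfAdjoint (c + star c))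
    (hn : ‖c + star c‖ ≤ 2) {η ξ : H} (hη : star c η = 0) (f : C(sI, ℂ)) :
    ∀ g : C(sI, ℂ), (∀ j, ⟪ev c η j, Psi hx hn g ξ⟫_ℂ = mom j g * ⟪η, ξ⟫_ℂ) →
      ∀ j, ⟪ev c η j, Psi hx hn (f * g) ξ⟫_ℂ = mom j (f * g) * ⟪η, ξ⟫_ℂ := by
  induction f using ind with
  | const r =>
    intro g hg j
    rw [map_mul, Psi_const, mom_const_mul, mul_assoc, ← hg j]
    simp
  | id =>
    intro g hg j
    cases j with
    | zero => simp [ev, mom_zero]
    | succ j =>
      rw [map_mul, Psi_id, mul_apply_eq_comp, ← hx.isSymmetric.apply_clm,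
        ev_rec hc hη, inner_add_left, hg, hg, mom_id_mul, add_mul]
  | add f f' hf hf' =>
    intro g hg j
    rw [add_mul, map_add, add_apply, inner_add_right, hf g hg, hf' g hg,
      mom_add, add_mul]
  | mul f f' hf hf' =>
    intro g hg
    rw [mul_assoc]
    exact hf _ (hf' g hg)
  | closed =>
    have := continuous_Psi hx hn
    simp only [Set.ofPred_forall]
    refine isClosed_iInter fun g => isClosed_iInter fun _ => isClosed_iInter fun j => ?_
    have := continuous_mom j
    exact isClosed_eq (by fun_prop) (by fun_prop)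

theorem inner_Psi {c : H →L[ℂ] H} (hc : star c * c = 1) (hx : IsSelfAdjoint (c + star c))
    (hn : ‖c + star c‖ ≤ 2) {η ξ : H} (hη : star c η = 0) (hξ : star c ξ = 0) (f : C(sI, ℂ)) :
    ⟪η, Psi hx hn f ξ⟫_ℂ = mom 1 f * ⟪η, ξ⟫_ℂ := by
  have h := inner_Psi_aux hc hx hn (ξ := ξ) hη f 1 (fun j => by
    rw [map_one, one_apply_eq_self]
    match j with
    | 0 => simp [ev, mom_zero]
    | 1 => simp [ev, mom_one_one]
    | j + 2 =>
      rw [mom_succ_succ_one, zero_mul, ev, pow_succ', mul_apply_eq_comp,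
        ← ContinuousLinearMap.adjoint_inner_right, ← ContinuousLinearMap.star_eq_adjoint, hξ,
        inner_zero_right]) 1
  simpa [ev] using h

/-! ### the Haar unitary -/

/-- The distribution function of the semicircle law in the angle variable. -/
def Phi (t : ℝ) : ℝ := (t - Real.sin t * Real.cos t) / Real.pi

@[fun_prop] theorem continuous_Phi : Continuous Phi := by unfold Phi; fun_prop

theorem hasDerivAt_Phi (t : ℝ) :
    HasDerivAt Phi (2 / Real.pi * (Real.sin t * Real.sin t)) t := by
  have h := ((hasDerivAt_id t).sub ((Real.hasDerivAt_sin t).mul (Real.hasDerivAt_cos t))).div_const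
    Real.pi
  refine h.congr_deriv ?_
  have := Real.sin_sq_add_cos_sq t
  have := Real.pi_pos
  field_simp
  nlinarith

theorem Phi_zero : Phi 0 = 0 := by simp [Phi]

theorem Phi_pi : Phi Real.pi = 1 := by simp [Phi]

theorem strictMonoOn_Phi : StrictMonoOn Phi (Set.Icc 0 Real.pi) := by
  refine strictMonoOn_of_deriv_pos (convex_Icc _ _) continuous_Phi.continuousOn fun t ht => ?_
  rw [interior_Icc] at ht
  rw [(hasDerivAt_Phi t).deriv]
  have := Real.sin_pos_of_pos_of_lt_pi ht.1 ht.2
  have := Real.pi_pos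
  positivity

/-- The characters. -/
def phi (k : ℤ) : C(sI, ℂ) :=
  ⟨fun z => Complex.exp (2 * Real.pi * Complex.I * k * (Phi (Real.arccos ((z : ℂ).re / 2)) : ℝ)),
    by fun_prop⟩

theorem phi_apply (k : ℤ) (z : sI) : phi k z =
    Complex.exp (2 * Real.pi * Complex.I * k * (Phi (Real.arccos ((z : ℂ).re / 2)) : ℝ)) := rfl

theorem phi_zero : phi 0 = 1 := by ext z; simp [phi_apply]

theorem phi_add (j k : ℤ) : phi (j + k) = phi j * phi k := by
  ext z
  simp only [phi_apply, ContinuousMap.mul_apply, ← Complex.exp_add]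
  congr 1; push_cast; ring

theorem star_phi (k : ℤ) : star (phi k) = phi (-k) := by
  ext z
  simp only [phi_apply, ContinuousMap.star_apply, RCLike.star_def, ← Complex.exp_conj]
  congr 1; simp [map_ofNat]

theorem mom_phi {k : ℤ} (hk : k ≠ 0) : mom 1 (phi k) = 0 := by
  unfold mom
  have hk' : (k : ℂ) ≠ 0 := Int.cast_ne_zero.2 hk
  have hpi : (Real.pi : ℂ) ≠ 0 := Complex.ofReal_ne_zero.2 Real.pi_pos.ne'
  have h1 : ∀ t ∈ Set.uIcc (0 : ℝ) Real.pi, phi k (gam t) *
      ((2 / Real.pi * (Real.sin (((1 : ℕ) : ℝ) * t) * Real.sin t) : ℝ) : ℂ) =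
      Complex.exp (2 * Real.pi * Complex.I * k * (Phi t : ℝ)) *
        ((2 / Real.pi * (Real.sin t * Real.sin t) : ℝ) : ℂ) := by
    intro t ht
    rw [Set.uIcc_of_le Real.pi_pos.le] at ht
    have : (gam t : ℂ).re / 2 = Real.cos t := by
      simp only [gam, Complex.ofReal_re]; ring
    rw [phi_apply, this, Real.arccos_cos ht.1 ht.2]
    simp
  rw [intervalIntegral.integral_congr h1]
  have h : ∀ t ∈ Set.uIcc (0 : ℝ) Real.pi, HasDerivAt
      (fun t => Complex.exp (2 * Real.pi * Complex.I * k * (Phi t : ℝ)) /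
        (2 * Real.pi * Complex.I * k))
      (Complex.exp (2 * Real.pi * Complex.I * k * (Phi t : ℝ)) *
        ((2 / Real.pi * (Real.sin t * Real.sin t) : ℝ) : ℂ)) t := by
    intro t _
    have h2 := (((hasDerivAt_Phi t).ofReal_comp.const_mul
      (2 * Real.pi * Complex.I * k)).cexp).div_const (2 * Real.pi * Complex.I * k)
    refine h2.congr_deriv ?_
    field_simp
  rw [intervalIntegral.integral_eq_sub_of_hasDerivAt h
    (Continuous.intervalIntegrable (by fun_prop) _ _), Phi_zero, Phi_pi]
  have h3 : Complex.exp (2 * Real.pi * Complex.I * k * ((1 : ℝ) : ℂ)) = 1 := by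
    rw [← Complex.exp_int_mul_two_pi_mul_I k]; congr 1; push_cast; ring
  rw [h3]; simp

theorem phi_one_inj {z w : sI} (h : phi 1 z = phi 1 w) : z = w ∨ phi 1 z = 1 := by
  have hmem : ∀ u : ℝ, Real.arccos u ∈ Set.Icc 0 Real.pi :=
    fun u => ⟨Real.arccos_nonneg u, Real.arccos_le_pi u⟩
  have hb : ∀ u : ℝ, 0 ≤ Phi (Real.arccos u) ∧ Phi (Real.arccos u) ≤ 1 := fun u => by
    constructor
    · rw [← Phi_zero]
      exact strictMonoOn_Phi.monotoneOn ⟨le_rfl, Real.pi_pos.le⟩ (hmem u) (hmem u).1
    · rw [← Phi_pi]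
      exact strictMonoOn_Phi.monotoneOn (hmem u) ⟨Real.pi_pos.le, le_rfl⟩ (hmem u).2
  have hre : ∀ z : sI, -1 ≤ (z : ℂ).re / 2 ∧ (z : ℂ).re / 2 ≤ 1 := fun z => by
    have := abs_le.1 ((Complex.abs_re_le_norm (z : ℂ)).trans z.2.2)
    constructor <;> linarith [this.1, this.2]
  have hpi : (Real.pi : ℂ) ≠ 0 := Complex.ofReal_ne_zero.2 Real.pi_pos.ne'
  rw [phi_apply, phi_apply, Complex.exp_eq_exp_iff_exists_int] at h
  obtain ⟨n, hn⟩ := h
  set a := Phi (Real.arccos ((z : ℂ).re / 2)) with ha
  set b := Phi (Real.arccos ((w : ℂ).re / 2)) with hb'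
  have hab : a = b + n := by
    have h1 : (a : ℂ) = b + n := by
      have h2 : (2 * Real.pi * Complex.I : ℂ) ≠ 0 := by simp [hpi]
      apply mul_left_cancel₀ h2
      push_cast at hn
      linear_combination hn
    exact_mod_cast h1
  by_cases h0 : n = 0
  · left
    have h1 : a = b := by simpa [h0] using hab
    have h2 := strictMonoOn_Phi.injOn (hmem _) (hmem _) h1
    have h3 := Real.arccos_injOn (hre z) (hre w) h2
    apply Subtype.ext
    apply Complex.ext
    · linarith
    · rw [z.2.1, w.2.1]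
  · right
    have ha0 := hb ((z : ℂ).re / 2)
    have hb0 := hb ((w : ℂ).re / 2)
    rw [← ha] at ha0
    rw [← hb'] at hb0
    rw [phi_apply, ← ha]
    rcases lt_or_gt_of_ne h0 with h1 | h1
    · have h2 : (n : ℝ) ≤ -1 := by exact_mod_cast (show n ≤ -1 by omega)
      have : a = 0 := by linarith
      simp [this]
    · have h2 : (1 : ℝ) ≤ n := by exact_mod_cast (show 1 ≤ n by omega)
      have : a = 1 := by linarith
      rw [this, ← Complex.exp_two_pi_mul_I]; congr 1; push_cast; ring

/-- A closed subspace invariant under the Haar unitary and its inverse is invariant under every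
continuous function that factors through it. -/
theorem invariant_of_factors (hx : IsSelfAdjoint x) (hn : ‖x‖ ≤ 2) (K : Submodule ℂ H)
    (hK : IsClosed (K : Set H)) (h1 : ∀ v ∈ K, Psi hx hn (phi 1) v ∈ K)
    (h2 : ∀ v ∈ K, Psi hx hn (phi (-1)) v ∈ K) (f : C(sI, ℂ))
    (hf : Function.FactorsThrough f (phi 1)) : ∀ v ∈ K, Psi hx hn f v ∈ K := by
  let q : C(sI, Set.range (phi 1)) := ⟨Set.rangeFactorization (phi 1), by fun_prop⟩
  have hq : Topology.IsQuotientMap q :=
    q.continuous.isClosedMap.isQuotientMap q.continuous Set.rangeFactorization_surjective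
  have : CompactSpace (Set.range (phi 1)) :=
    isCompact_iff_compactSpace.1 (isCompact_range (phi 1).continuous)
  have key : ∀ g : C(Set.range (phi 1), ℂ), ∀ v ∈ K, Psi hx hn (g.comp q) v ∈ K := by
    intro g
    induction g using ContinuousMap.induction_on_of_compact with
    | const r =>
      intro v hv
      rw [ContinuousMap.const_comp, Psi_const]
      simpa using K.smul_mem r hv
    | id => exact h1
    | star_id =>
      rw [← star_phi] at h2
      exact h2
    | add g g' hg hg' =>
      intro v hv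
      rw [ContinuousMap.add_comp, map_add]
      exact K.add_mem (hg v hv) (hg' v hv)
    | mul g g' hg hg' =>
      intro v hv
      rw [ContinuousMap.mul_comp, map_mul]
      exact hg _ (hg' v hv)
    | frequently g hg =>
      have hc : IsClosed {g : C(Set.range (phi 1), ℂ) | ∀ v ∈ K, Psi hx hn (g.comp q) v ∈ K} := by
        have := continuous_Psi hx hn
        simp only [Set.ofPred_forall]
        refine isClosed_iInter fun v => isClosed_iInter fun _ => ?_
        exact hK.preimage (f := fun g : C(Set.range (phi 1), ℂ) => Psi hx hn (g.comp q) v)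
          (by fun_prop)
      exact hg.mem_of_closed hc
  have hf' : Function.FactorsThrough f q := fun a b h => hf (congrArg Subtype.val h)
  rw [← hq.lift_comp f hf']
  exact key _

/-- The vector `x Ω` lies in every closed subspace containing `Ω` and invariant under the Haar
unitary and its inverse. -/
theorem apply_mem {c : H →L[ℂ] H} (hc : star c * c = 1) (hx : IsSelfAdjoint (c + star c))
    (hn : ‖c + star c‖ ≤ 2) {Ω : H} (hΩ : star c Ω = 0) (hΩ1 : ‖Ω‖ = 1) (K : Submodule ℂ H)
    (hK : IsClosed (K : Set H)) (h1 : ∀ v ∈ K, Psi hx hn (phi 1) v ∈ K)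
    (h2 : ∀ v ∈ K, Psi hx hn (phi (-1)) v ∈ K) (hΩK : Ω ∈ K) : (c + star c) Ω ∈ K := by
  have hon : Orthonormal ℂ (fun k : ℕ => Psi hx hn (phi k) Ω) := by
    classical
    rw [orthonormal_iff_ite]
    intro j k
    rw [← ContinuousLinearMap.adjoint_inner_right, ← ContinuousLinearMap.star_eq_adjoint,
      ← map_star, ← mul_apply_eq_comp, ← map_mul, star_phi, ← phi_add]
    split_ifs with h
    · subst h
      simp [phi_zero, inner_self_eq_norm_sq_to_K, hΩ1]
    · rw [inner_Psi hc hx hn hΩ hΩ, mom_phi (by omega), zero_mul]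
  have hstep : ∀ k : ℕ, Psi hx hn (idI * (phi k - phi (k + 1 : ℕ))) Ω ∈ K := by
    intro k
    refine invariant_of_factors hx hn K hK h1 h2 _ (fun z w h => ?_) Ω hΩK
    have hp : ∀ (k : ℕ) (u : sI), phi k u = phi 1 u ^ k := fun k u => by
      rw [phi_apply, phi_apply, ← Complex.exp_nat_mul]; congr 1; push_cast; ring
    rcases phi_one_inj h with h' | h'
    · rw [h']
    · simp only [ContinuousMap.mul_apply, ContinuousMap.sub_apply, hp, ← h, h']
      simp
  have : CompleteSpace K := hK.completeSpace_coe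
  rw [← K.orthogonal_orthogonal, Submodule.mem_orthogonal]
  intro v hv
  have hconst : ∀ k : ℕ, ⟪Psi hx hn (phi k) Ω, (c + star c) v⟫_ℂ = ⟪(c + star c) Ω, v⟫_ℂ := by
    intro k
    induction k with
    | zero => simp only [Nat.cast_zero, phi_zero, map_one, one_apply_eq_self,
        hx.isSymmetric.apply_clm]
    | succ k ih =>
      have h3 := (Submodule.mem_orthogonal K v).1 hv _ (hstep k)
      rw [map_mul, map_sub, Psi_id, mul_apply_eq_comp, hx.isSymmetric.apply_clm,
        sub_apply, inner_sub_left, sub_eq_zero] at h3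
      rw [← h3, ih]
  have hs := (hon.inner_products_summable ((c + star c) v)).tendsto_atTop_zero
  simp only [hconst] at hs
  have h0 := tendsto_nhds_unique hs tendsto_const_nhds
  have h4 : ⟪(c + star c) Ω, v⟫_ℂ = 0 := by simpa using h0.symm
  exact inner_eq_zero_symm.1 h4

end Crest.Agent.R134.Haar

end
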