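import Crest.Agent.R134.Basic
import Crest.Agent.R134.HaarAuxCalc

/-!
Row 134: `ℓ²` of the free group with one more generator is the Fock space, the extra generator
acting by a Haar unitary that is a function of the semicircular element.
-/

set_option autoImplicit false

open Crest.OpAlg
open scoped InnerProductSpace

noncomputable section

namespace Crest.Agent.R134

namespace Haar

/-! ### An abstract recognition lemma for the regular representation -/

theorem recognise {Γ H : Type*} [Group Γ] [NormedAddCommGroup H] [InnerProductSpace ℂ H]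
    [CompleteSpace H] (Ω : H) (hΩ : ‖Ω‖ = 1) (L R : Γ →* unitary (H →L[ℂ] H))
    (hfree : ∀ w, w ≠ 1 → ⟪Ω, (L w : H →L[ℂ] H) Ω⟫_ℂ = 0)
    (hdense : ⊤ ≤ (Submodule.span ℂ (Set.range fun w => (L w : H →L[ℂ] H) Ω)).topologicalClosure)
    (hR : ∀ g w, (R g : H →L[ℂ] H) ((L w : H →L[ℂ] H) Ω) = (L (w * g⁻¹) : H →L[ℂ] H) Ω) :
    ∃ U : ltwo Γ ≃ₗᵢ[ℂ] H, U (dl 1) = Ω ∧ (∀ g, U.conjStarAlgEquiv (leftRegular g) = L g) ∧
      ∀ g, U.conjStarAlgEquiv (rightRegular g) = R g := by
  classical
  have hon : Orthonormal ℂ (fun w => (L w : H →L[ℂ] H) Ω) := by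
    rw [orthonormal_iff_ite]
    intro v w
    rw [← ContinuousLinearMap.adjoint_inner_right, ← ContinuousLinearMap.star_eq_adjoint,
      ← mul_apply_eq_comp, ← Unitary.coe_star, ← Submonoid.coe_mul, Unitary.star_eq_inv,
      ← map_inv, ← map_mul]
    split_ifs with h
    · subst h
      simp [inner_self_eq_norm_sq_to_K, hΩ]
    · exact hfree _ (fun h' => h (inv_mul_eq_one.1 h'))
  let b := HilbertBasis.mk hon hdense
  have hU : ∀ w, b.repr.symm (dl w) = (L w : H →L[ℂ] H) Ω := fun w => by
    rw [dl_eq_single, b.repr_symm_single, HilbertBasis.coe_mk]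
  have key : ∀ (x : ltwo Γ →L[ℂ] ltwo Γ) (y : H →L[ℂ] H),
      (∀ w, b.repr.symm (x (dl w)) = y (b.repr.symm (dl w))) →
        b.repr.symm.conjStarAlgEquiv x = y := by
    intro x y h
    have h1 : (b.repr.symm : ltwo Γ →L[ℂ] H).comp x = y.comp (b.repr.symm : ltwo Γ →L[ℂ] H) :=
      ext_dl h
    ext v
    have := congrArg (fun T => T (b.repr v)) h1
    simpa using this
  refine ⟨b.repr.symm, by simp [hU], fun g => key _ _ fun w => ?_, fun g => key _ _ fun w => ?_⟩
  · rw [leftRegular_dl, hU, hU, map_mul, Submonoid.coe_mul, mul_apply_eq_comp]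
  · rw [rightRegular_dl, hU, hU, hR]

/-! ### The two Haar unitaries -/

variable {G : Type} [Group G]

theorem saL : IsSelfAdjoint (creL + star creL : BF G) := IsSelfAdjoint.add_star_self _
theorem saR : IsSelfAdjoint (creR + star creR : BF G) := IsSelfAdjoint.add_star_self _
theorem nL : ‖(creL + star creL : BF G)‖ ≤ 2 := by simpa using norm_piL_aA_le (G := G)
theorem nR : ‖(creR + star creR : BF G)‖ ≤ 2 := by simpa using norm_piR_aA_le (G := G)

theorem isoL : star (creL : BF G) * creL = 1 := by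
  ext ξ : 1; simp

theorem aL_eq : (creL + star creL : BF G) = piL aA := by simp
theorem aR_eq : (creR + star creR : BF G) = piR aA := by simp

/-- Powers of the left Haar unitary. -/
def TL (G : Type) [Group G] (k : ℤ) : BF G := Psi saL nL (phi k)

/-- Powers of the right Haar unitary. -/
def TR (G : Type) [Group G] (k : ℤ) : BF G := Psi saR nR (phi k)

theorem TL_add (j k : ℤ) : TL G (j + k) = TL G j * TL G k := by simp [TL, phi_add]
theorem TR_add (j k : ℤ) : TR G (j + k) = TR G j * TR G k := by simp [TR, phi_add]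
theorem TL_zero : TL G 0 = 1 := by simp [TL, phi_zero]
theorem TR_zero : TR G 0 = 1 := by simp [TR, phi_zero]
theorem star_TL (k : ℤ) : star (TL G k) = TL G (-k) := by rw [TL, ← map_star, star_phi, TL]
theorem star_TR (k : ℤ) : star (TR G k) = TR G (-k) := by rw [TR, ← map_star, star_phi, TR]

theorem TL_Om (k : ℤ) : TL G k Om = TR G k Om :=
  Psi_vac saL nL saR nR (by rw [aL_eq, aR_eq]; exact commute_piL_piR _ _)
    (by rw [aL_eq, aR_eq, piR_Om, vec_apply]) _

theorem inner_TL {k : ℤ} (hk : k ≠ 0) {η ξ : Fock G} (hη : annL η = 0) (hξ : annL ξ = 0) :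
    ⟪η, TL G k ξ⟫_ℂ = 0 := by
  rw [TL, inner_Psi isoL saL nL (by simpa using hη) (by simpa using hξ), mom_phi hk, zero_mul]

/-- Left translation as a unitary. -/
def uL (g : G) : unitary (BF G) := ⟨opL g, by simp [Unitary.mem_iff, ← opL_mul]⟩

/-- Right translation as a unitary. -/
def uR (g : G) : unitary (BF G) := ⟨opR g, by simp [Unitary.mem_iff, ← opR_mul]⟩

/-- The left Haar unitary. -/
def tL (G : Type) [Group G] : unitary (BF G) :=
  ⟨TL G 1, by simp [Unitary.mem_iff, star_TL, ← TL_add, TL_zero]⟩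

/-- The inverse of the right Haar unitary. -/
def tR (G : Type) [Group G] : unitary (BF G) :=
  ⟨TR G (-1), by simp [Unitary.mem_iff, star_TR, ← TR_add, TR_zero]⟩

variable {ι : Type}

/-- The left action of the bigger free group. -/
def PiL (ι : Type) : FreeGroup (Option ι) →* unitary (BF (FreeGroup ι)) :=
  FreeGroup.lift fun o => o.elim (tL _) fun i => uL (FreeGroup.of i)

/-- The right action of the bigger free group. -/
def PiR (ι : Type) : FreeGroup (Option ι) →* unitary (BF (FreeGroup ι)) :=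
  FreeGroup.lift fun o => o.elim (tR _) fun i => uR (FreeGroup.of i)⁻¹

theorem coe_inv' {B : Type*} [Monoid B] [StarMul B] (u : unitary B) :
    ((u⁻¹ : unitary B) : B) = star (u : B) := rfl

theorem PiL_none : (PiL ι (FreeGroup.of none) : BF (FreeGroup ι)) = TL _ 1 := by simp [PiL, tL]
theorem PiL_some (i : ι) : (PiL ι (FreeGroup.of (some i)) : BF (FreeGroup ι)) = opL (FreeGroup.of i) := by
  simp [PiL, uL]
theorem PiR_none : (PiR ι (FreeGroup.of none) : BF (FreeGroup ι)) = TR _ (-1) := by simp [PiR, tR]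
theorem PiR_some (i : ι) : (PiR ι (FreeGroup.of (some i)) : BF (FreeGroup ι)) = opR (FreeGroup.of i)⁻¹ := by
  simp [PiR, uR]

theorem PiL_inv (w : FreeGroup (Option ι)) : (PiL ι w⁻¹ : BF (FreeGroup ι)) = star (PiL ι w : BF (FreeGroup ι)) := by
  rw [map_inv, coe_inv']

theorem commute_hom {Γ B : Type*} [Monoid B] [StarMul B] (P : FreeGroup Γ →* unitary B) {z : B}
    (h : ∀ i, Commute (P (FreeGroup.of i) : B) z) (w : FreeGroup Γ) : Commute (P w : B) z := by
  induction w using FreeGroup.induction_on with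
  | C1 => simp
  | of i => exact h i
  | inv_of i hi =>
    rw [map_inv]
    exact (Commute.units_inv_left (u := Unitary.toUnits (P (FreeGroup.of i))) hi)
  | mul x y hx hy =>
    rw [map_mul, Submonoid.coe_mul]
    exact hx.mul_left hy

theorem commute_PiL {z : BF (FreeGroup ι)}
    (hz : z ∈ (Set.range (piL : Alg (FreeGroup ι) → BF (FreeGroup ι))).centralizer)
    (w : FreeGroup (Option ι)) : Commute (PiL ι w : BF (FreeGroup ι)) z := by
  refine commute_hom _ (fun o => ?_) w
  cases o with
  | none =>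
    rw [PiL_none]
    exact commute_Psi _ _ (by rw [aL_eq]; exact hz _ ⟨_, rfl⟩) _
  | some i =>
    rw [PiL_some, ← piL_gA]
    exact hz _ ⟨_, rfl⟩

theorem commute_PiR {z : BF (FreeGroup ι)}
    (hz : z ∈ (Set.range (piR : Alg (FreeGroup ι) → BF (FreeGroup ι))).centralizer)
    (w : FreeGroup (Option ι)) : Commute (PiR ι w : BF (FreeGroup ι)) z := by
  refine commute_hom _ (fun o => ?_) w
  cases o with
  | none =>
    rw [PiR_none]
    exact commute_Psi _ _ (by rw [aR_eq]; exact hz _ ⟨_, rfl⟩) _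
  | some i =>
    rw [PiR_some, ← piR_gA]
    exact hz _ ⟨_, rfl⟩

theorem commute_PiR_piL (w : FreeGroup (Option ι)) (y : Alg (FreeGroup ι)) :
    Commute (PiR ι w : BF (FreeGroup ι)) (piL y) :=
  commute_PiR (by rintro _ ⟨x, rfl⟩; exact (commute_piL_piR y x).symm) w

theorem commute_PiL_PiR (v w : FreeGroup (Option ι)) :
    Commute (PiL ι v : BF (FreeGroup ι)) (PiR ι w : BF (FreeGroup ι)) :=
  commute_PiL (by rintro _ ⟨x, rfl⟩; exact (commute_PiR_piL w x).symm) v

theorem PiR_Om (g : FreeGroup (Option ι)) : (PiR ι g : BF (FreeGroup ι)) Om = (PiL ι g⁻¹ : BF (FreeGroup ι)) Om := by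
  induction g using FreeGroup.induction_on with
  | C1 => simp
  | of o =>
    rw [PiL_inv]
    cases o with
    | none => rw [PiR_none, PiL_none, star_TL, TL_Om]
    | some i => rw [PiR_some, PiL_some, star_opL]; simp [Om, Wd.lmul, Wd.rmul]
  | inv_of o ho =>
    rw [inv_inv]
    have h1 : (PiL ι (FreeGroup.of o) : BF (FreeGroup ι)) ((PiR ι (FreeGroup.of o) : BF (FreeGroup ι)) Om) = Om := by
      rw [ho, ← mul_apply_eq_comp, ← Submonoid.coe_mul, ← map_mul]; simp
    conv_lhs => rw [← h1]
    rw [← mul_apply_eq_comp, ← (commute_PiL_PiR _ _).eq, mul_apply_eq_comp, ← mul_apply_eq_comp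
      (PiR ι _ : BF (FreeGroup ι)), ← Submonoid.coe_mul, ← map_mul]
    simp
  | mul x y hx hy =>
    rw [map_mul, Submonoid.coe_mul, mul_apply_eq_comp, hy, ← mul_apply_eq_comp,
      ← (commute_PiL_PiR _ _).eq, mul_apply_eq_comp, hx, mul_inv_rev, map_mul, Submonoid.coe_mul,
      mul_apply_eq_comp]

theorem PiR_PiL_Om (g w : FreeGroup (Option ι)) :
    (PiR ι g : BF (FreeGroup ι)) ((PiL ι w : BF (FreeGroup ι)) Om) = (PiL ι (w * g⁻¹) : BF (FreeGroup ι)) Om := by
  rw [← mul_apply_eq_comp, ← (commute_PiL_PiR _ _).eq, mul_apply_eq_comp, PiR_Om, map_mul,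
    Submonoid.coe_mul, mul_apply_eq_comp]

/-! ### Freeness -/

/-- The sign of a letter. -/
def sg (b : Bool) : ℤ := if b then 1 else -1

theorem PiL_mk_none (b : Bool) : (PiL ι (FreeGroup.mk [(none, b)]) : BF (FreeGroup ι)) = TL _ (sg b) := by
  cases b with
  | true => exact PiL_none
  | false =>
    have : (FreeGroup.mk [(none, false)] : FreeGroup (Option ι)) = (FreeGroup.of none)⁻¹ := rfl
    rw [this, PiL_inv, PiL_none, star_TL]; rfl

theorem PiL_mk_some (i : ι) (b : Bool) :
    (PiL ι (FreeGroup.mk [(some i, b)]) : BF (FreeGroup ι)) = opL (FreeGroup.mk [(i, b)]) := by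
  cases b with
  | true => exact PiL_some i
  | false =>
    have : (FreeGroup.mk [(some i, false)] : FreeGroup (Option ι)) =
      (FreeGroup.of (some i))⁻¹ := rfl
    rw [this, PiL_inv, PiL_some, star_opL]; rfl

open Classical in
/-- The ping-pong sets. -/
def PP : Option ι × Bool → Set (Fock (FreeGroup ι))
  | (none, b) => {v | ∃ (k : ℕ) (ξ : Fock (FreeGroup ι)), annL ξ = 0 ∧
      v = TL _ (sg b * (k + 1)) ξ}
  | (some i, b) => {v | ∀ u : Wd (FreeGroup ι), u.head ∉ FreeGroup.startsWith (i, b) → v u = 0}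

theorem sg_mul_ne (b : Bool) (k : ℕ) : sg b * ((k : ℤ) + 1) ≠ 0 := by
  cases b <;> simp [sg] <;> omega

theorem PP_none_apply {b : Bool} {v : Fock (FreeGroup ι)} (hv : v ∈ PP (none, b))
    {u : Wd (FreeGroup ι)} (hu : annL (dl u) = 0) : v u = 0 := by
  obtain ⟨k, ξ, hξ, rfl⟩ := hv
  rw [← inner_dl_left]
  exact inner_TL (sg_mul_ne b k) hu hξ

theorem annL_dl_of_head {u : Wd G} (hu : u.head ≠ 1) : annL (dl u) = 0 := by
  cases u with
  | one g => simp
  | cons g w => exact annL_dl_cons hu w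

open Classical in
theorem PP_some_annL {i : ι} {b : Bool} {v : Fock (FreeGroup ι)} (hv : v ∈ PP (some i, b)) :
    annL v = 0 := by
  ext u
  rw [annL_apply]
  exact hv _ (fun h => FreeGroup.startsWith.ne_one _ h rfl)

open Classical in
theorem PP_inner {x : Option ι × Bool} {v : Fock (FreeGroup ι)} (hv : v ∈ PP x) :
    ⟪(Om : Fock (FreeGroup ι)), v⟫_ℂ = 0 := by
  rw [inner_Om_left]
  obtain ⟨o, b⟩ := x
  cases o with
  | none => exact PP_none_apply hv (by simp)
  | some i => exact hv _ (fun h => FreeGroup.startsWith.ne_one _ h rfl)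

open Classical in
theorem PP_some_step (i : ι) (b : Bool) {v : Fock (FreeGroup ι)}
    (hv : ∀ u : Wd (FreeGroup ι), u.head ∈ FreeGroup.startsWith (i, !b) → v u = 0) :
    opL (FreeGroup.mk [(i, b)]) v ∈ PP (some i, b) := by
  intro u hu
  rw [opL_apply]
  refine hv _ ?_
  by_contra h
  have := FreeGroup.startsWith_mk_mul (w := (i, b)) _ h
  rw [Wd.head_lmul, mul_inv_cancel_left] at this
  exact hu this

theorem PP_none_step (b : Bool) {v : Fock (FreeGroup ι)} (hv : annL v = 0) :
    TL _ (sg b) v ∈ PP (none, b) := ⟨0, v, hv, by simp⟩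

open Classical in
theorem PP_Om (x : Option ι × Bool) : (PiL ι (FreeGroup.mk [x]) : BF (FreeGroup ι)) Om ∈ PP x := by
  obtain ⟨o, b⟩ := x
  cases o with
  | none => rw [PiL_mk_none]; exact PP_none_step b annL_Om
  | some i =>
    rw [PiL_mk_some]
    refine PP_some_step i b (fun u hu => dl_apply_ne ?_)
    rintro rfl
    exact FreeGroup.startsWith.ne_one _ hu rfl

open Classical in
theorem PP_step {x y : Option ι × Bool} (hxy : x.1 = y.1 → x.2 = y.2) {v : Fock (FreeGroup ι)}
    (hv : v ∈ PP y) : (PiL ι (FreeGroup.mk [x]) : BF (FreeGroup ι)) v ∈ PP x := by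
  obtain ⟨o, b⟩ := x
  obtain ⟨o', b'⟩ := y
  cases o with
  | none =>
    rw [PiL_mk_none]
    cases o' with
    | none =>
      obtain rfl : b = b' := hxy rfl
      obtain ⟨k, ξ, hξ, rfl⟩ := hv
      refine ⟨k + 1, ξ, hξ, ?_⟩
      rw [← mul_apply_eq_comp, ← TL_add]
      congr 2; push_cast; ring
    | some i => exact PP_none_step b (PP_some_annL hv)
  | some i =>
    rw [PiL_mk_some]
    refine PP_some_step i b (fun u hu => ?_)
    cases o' with
    | none => exact PP_none_apply hv (annL_dl_of_head (FreeGroup.startsWith.ne_one _ hu))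
    | some i' =>
      refine hv _ (fun hu' => ?_)
      have h1 : (i, !b) = (i', b') := by
        by_contra h
        exact Set.disjoint_left.1 (FreeGroup.startsWith.disjoint_iff_ne.2 h) hu hu'
      obtain ⟨rfl, rfl⟩ := Prod.mk.inj h1
      simpa using hxy rfl

theorem PP_reduced : ∀ (L : List (Option ι × Bool)) (x : Option ι × Bool),
    FreeGroup.IsReduced (x :: L) → (PiL ι (FreeGroup.mk (x :: L)) : BF (FreeGroup ι)) Om ∈ PP x
  | [], x, _ => PP_Om x
  | y :: L, x, h => by
    rw [FreeGroup.isReduced_cons_cons] at h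
    have h1 : FreeGroup.mk (x :: y :: L) = FreeGroup.mk [x] * FreeGroup.mk (y :: L) := rfl
    rw [h1, map_mul, Submonoid.coe_mul, mul_apply_eq_comp]
    exact PP_step h.1 (PP_reduced L y h.2)

theorem free (w : FreeGroup (Option ι)) (hw : w ≠ 1) :
    ⟪(Om : Fock (FreeGroup ι)), (PiL ι w : BF (FreeGroup ι)) Om⟫_ℂ = 0 := by
  classical
  have h1 : FreeGroup.IsReduced w.toWord := FreeGroup.isReduced_toWord
  have h2 : FreeGroup.mk w.toWord = w := FreeGroup.mk_toWord
  cases hL : w.toWord with
  | nil => exact absurd (FreeGroup.toWord_eq_nil_iff.1 hL) hw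
  | cons x L =>
    rw [hL] at h1 h2
    rw [← h2]
    exact PP_inner (PP_reduced L x h1)

/-! ### Density -/

theorem opL_eq (g : FreeGroup ι) : (PiL ι (FreeGroup.map some g) : BF (FreeGroup ι)) = opL g := by
  induction g using FreeGroup.induction_on with
  | C1 => simp
  | of i => rw [FreeGroup.map.of, PiL_some]
  | inv_of i hi => rw [map_inv, PiL_inv, hi, star_opL]
  | mul x y hx hy => rw [map_mul, map_mul, Submonoid.coe_mul, hx, hy, opL_mul]

theorem closure_invariant {H : Type*} [NormedAddCommGroup H] [InnerProductSpace ℂ H] {s : Set H}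
    (T : H →L[ℂ] H) (h : ∀ v ∈ s, T v ∈ (Submodule.span ℂ s).topologicalClosure) :
    ∀ v ∈ (Submodule.span ℂ s).topologicalClosure,
      T v ∈ (Submodule.span ℂ s).topologicalClosure := by
  have h1 : Submodule.span ℂ s ≤
      ((Submodule.span ℂ s).topologicalClosure).comap (T : H →ₗ[ℂ] H) := Submodule.span_le.2 h
  exact Submodule.topologicalClosure_minimal _ h1
    ((Submodule.isClosed_topologicalClosure _).preimage T.continuous)

theorem dense : ⊤ ≤ (Submodule.span ℂ
    (Set.range fun w => (PiL ι w : BF (FreeGroup ι)) Om)).topologicalClosure := by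
  set K := (Submodule.span ℂ
    (Set.range fun w => (PiL ι w : BF (FreeGroup ι)) Om)).topologicalClosure with hK
  have hcl : IsClosed (K : Set (Fock (FreeGroup ι))) := Submodule.isClosed_topologicalClosure _
  have hmem : ∀ w, (PiL ι w : BF (FreeGroup ι)) Om ∈ K := fun w =>
    Submodule.le_topologicalClosure _ (Submodule.subset_span ⟨w, rfl⟩)
  have hL : ∀ g, ∀ v ∈ K, (PiL ι g : BF (FreeGroup ι)) v ∈ K := fun g =>
    closure_invariant _ (by
      rintro _ ⟨w, rfl⟩
      rw [← mul_apply_eq_comp, ← Submonoid.coe_mul, ← map_mul]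
      exact hmem _)
  have hR : ∀ g, ∀ v ∈ K, (PiR ι g : BF (FreeGroup ι)) v ∈ K := fun g =>
    closure_invariant _ (by
      rintro _ ⟨w, rfl⟩
      rw [PiR_PiL_Om]
      exact hmem _)
  have hOm : Om ∈ K := by simpa using hmem 1
  have haOm : piL aA Om ∈ K := by
    rw [← aL_eq]
    refine apply_mem isoL saL nL (by simp) norm_Om K hcl ?_ ?_ hOm
    · have := hL (FreeGroup.of none)
      rwa [PiL_none] at this
    · have := hL (FreeGroup.of none)⁻¹
      rwa [PiL_inv, PiL_none, star_TL] at this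
  have ha : ∀ v ∈ K, piL aA v ∈ K :=
    closure_invariant _ (by
      rintro _ ⟨w, rfl⟩
      have h1 := PiR_Om (ι := ι) w⁻¹
      rw [inv_inv] at h1
      simp only
      rw [← h1, ← mul_apply_eq_comp, ← (commute_PiR_piL _ _).eq, mul_apply_eq_comp]
      exact hR _ _ haOm)
  have hall : ∀ y : Alg (FreeGroup ι), ∀ v ∈ K, piL y v ∈ K := by
    intro y
    induction y using Alg.induction with
    | hg g => rw [piL_gA, ← opL_eq]; exact hL _
    | ha => exact ha
    | hadd x y hx hy => intro v hv; rw [map_add]; exact K.add_mem (hx v hv) (hy v hv)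
    | hsmul c x hx => intro v hv; rw [map_smul]; exact K.smul_mem c (hx v hv)
    | hmul x y hx hy => intro v hv; rw [map_mul]; exact hx _ (hy v hv)
  refine (eq_top_of_dl_mem K hcl fun u => ?_).ge
  obtain ⟨y, hy⟩ := dl_mem_range_vec u
  rw [← hy]
  exact hall y _ hOm

end Haar

open Haar in
theorem exists_haar_unitary {ι κ : Type} (e : κ ≃ Option ι) :
    ∃ U : ltwo (FreeGroup κ) ≃ₗᵢ[ℂ] Fock (FreeGroup ι), U (dl 1) = Om ∧
      (∀ (g : FreeGroup κ) (z : BF (FreeGroup ι)), z ∈ (Set.range (piL : Alg (FreeGroup ι) → BF (FreeGroup ι))).centralizer →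
        Commute (U.conjStarAlgEquiv (leftRegular g)) z) ∧
      (∀ (g : FreeGroup κ) (z : BF (FreeGroup ι)), z ∈ (Set.range (piR : Alg (FreeGroup ι) → BF (FreeGroup ι))).centralizer →
        Commute (U.conjStarAlgEquiv (rightRegular g)) z) := by
  let E : FreeGroup κ ≃* FreeGroup (Option ι) := FreeGroup.freeGroupCongr e
  obtain ⟨U, h1, h2, h3⟩ := recognise (Om : Fock (FreeGroup ι)) norm_Om
    ((PiL ι).comp E.toMonoidHom) ((PiR ι).comp E.toMonoidHom)
    (fun w hw => free _ (fun h => hw (E.map_eq_one_iff.1 h)))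
    (by
      have : (Set.range fun w => (((PiL ι).comp E.toMonoidHom) w : BF (FreeGroup ι)) Om) =
          Set.range fun w => (PiL ι w : BF (FreeGroup ι)) Om :=
        E.surjective.range_comp (fun w => (PiL ι w : BF (FreeGroup ι)) Om)
      rw [this]
      exact dense)
    (fun g w => by
      simp only [MonoidHom.comp_apply, map_mul E.toMonoidHom, map_inv E.toMonoidHom]
      exact PiR_PiL_Om _ _)
  refine ⟨U, h1, fun g z hz => ?_, fun g z hz => ?_⟩
  · rw [h2]; exact commute_PiL hz _
  · rw [h3]; exact commute_PiR hz _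

end Crest.Agent.R134

end
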