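import Mathlib

/-!
One-sided approximate intertwining for Hilbert spaces.
-/

set_option autoImplicit false
open Filter Topology

namespace Crest.Agent.R134

namespace Intertwine

variable {K H : Type*} [NormedAddCommGroup K] [InnerProductSpace ℂ K]
  [NormedAddCommGroup H] [InnerProductSpace ℂ H] [CompleteSpace H]

lemma norm_apply (u : unitary (H →L[ℂ] H)) (x : H) : ‖(u : H →L[ℂ] H) x‖ = ‖x‖ :=
  Unitary.norm_map u x

lemma mul_apply' (u v : unitary (H →L[ℂ] H)) (x : H) :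
    ((u * v : unitary (H →L[ℂ] H)) : H →L[ℂ] H) x = (u : H →L[ℂ] H) ((v : H →L[ℂ] H) x) := rfl

lemma step (ι : K →L[ℂ] H) (𝒰 : Subgroup (unitary (H →L[ℂ] H)))
    (W : ℕ → unitary (H →L[ℂ] H)) (hW : ∀ k, W k ∈ 𝒰)
    (h1 : ∀ η : K, Tendsto (fun k => (W k : H →L[ℂ] H) (ι η)) atTop (𝓝 (ι η)))
    (h2 : ∀ ξ : H, Tendsto (fun k => Metric.infDist ((W k : H →L[ℂ] H) ξ) (Set.range ι)) atTop (𝓝 0))
    (xi : ℕ → H) (eta : ℕ → K) (j : ℕ) (s : 𝒰 × Finset K) :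
    ∃ s' : 𝒰 × Finset K, s.2 ⊆ s'.2 ∧ eta j ∈ s'.2 ∧
      (∀ η ∈ s.2, ‖((s'.1 : unitary (H →L[ℂ] H)) : H →L[ℂ] H) (ι η) -
        ((s.1 : unitary (H →L[ℂ] H)) : H →L[ℂ] H) (ι η)‖ ≤ (1 / 2) ^ j) ∧
      ∀ i ≤ j, ∃ ζ ∈ s'.2, ‖((s'.1 : unitary (H →L[ℂ] H)) : H →L[ℂ] H) (ι ζ) - xi i‖ ≤ (1 / 2) ^ j := by
  classical
  obtain ⟨⟨G, hG⟩, F⟩ := s
  have hε : (0 : ℝ) < (1 / 2) ^ j := by positivity
  have e1 : ∀ᶠ k in atTop, ∀ η ∈ F, ‖(W k : H →L[ℂ] H) (ι η) - ι η‖ < (1 / 2) ^ j := by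
    rw [eventually_all_finset]
    intro η _
    have := (tendsto_iff_norm_sub_tendsto_zero.1 (h1 η)).eventually (gt_mem_nhds hε)
    exact this
  have e2 : ∀ᶠ k in atTop, ∀ i ∈ Finset.range (j + 1), Metric.infDist
      ((W k : H →L[ℂ] H) (((G⁻¹ : unitary (H →L[ℂ] H)) : H →L[ℂ] H) (xi i))) (Set.range ι) <
        (1 / 2) ^ j := by
    rw [eventually_all_finset]
    intro i _
    exact (h2 _).eventually (gt_mem_nhds hε)
  obtain ⟨k, hk1, hk2⟩ := (e1.and e2).exists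
  have e3 : ∀ i, ∃ ζ : K, i ≤ j → ‖(W k : H →L[ℂ] H)
      (((G⁻¹ : unitary (H →L[ℂ] H)) : H →L[ℂ] H) (xi i)) - ι ζ‖ < (1 / 2) ^ j := by
    intro i
    by_cases hi : i ≤ j
    · obtain ⟨y, ⟨ζ, rfl⟩, hy⟩ := (Metric.infDist_lt_iff (Set.range_nonempty ι)).1
        (hk2 i (Finset.mem_range.2 (by omega)))
      exact ⟨ζ, fun _ => by rwa [dist_eq_norm] at hy⟩
    · exact ⟨0, fun h => absurd h hi⟩
  choose ζ hζ using e3
  refine ⟨(⟨G * (W k)⁻¹, 𝒰.mul_mem hG (𝒰.inv_mem (hW k))⟩,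
    insert (eta j) (F ∪ (Finset.range (j + 1)).image ζ)), ?_, Finset.mem_insert_self _ _, ?_, ?_⟩
  · intro x hx
    exact Finset.mem_insert_of_mem (Finset.mem_union_left _ hx)
  · intro η hη
    have e : ((G * (W k)⁻¹ : unitary (H →L[ℂ] H)) : H →L[ℂ] H) (ι η) - (G : H →L[ℂ] H) (ι η) =
        -((G * (W k)⁻¹ : unitary (H →L[ℂ] H)) : H →L[ℂ] H) ((W k : H →L[ℂ] H) (ι η) - ι η) := by
      rw [map_sub, ← mul_apply', inv_mul_cancel_right, neg_sub]
    change ‖((G * (W k)⁻¹ : unitary (H →L[ℂ] H)) : H →L[ℂ] H) (ι η) - (G : H →L[ℂ] H) (ι η)‖ ≤ _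
    rw [e, norm_neg, norm_apply]
    exact (hk1 η hη).le
  · intro i hi
    refine ⟨ζ i, Finset.mem_insert_of_mem (Finset.mem_union_right _
      (Finset.mem_image_of_mem _ (Finset.mem_range.2 (by omega)))), ?_⟩
    have e : ((G * (W k)⁻¹ : unitary (H →L[ℂ] H)) : H →L[ℂ] H) (ι (ζ i)) - xi i =
        -((G * (W k)⁻¹ : unitary (H →L[ℂ] H)) : H →L[ℂ] H) ((W k : H →L[ℂ] H)
          (((G⁻¹ : unitary (H →L[ℂ] H)) : H →L[ℂ] H) (xi i)) - ι (ζ i)) := by
      rw [map_sub, ← mul_apply', inv_mul_cancel_right, ← mul_apply', mul_inv_cancel, neg_sub]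
      rfl
    change ‖((G * (W k)⁻¹ : unitary (H →L[ℂ] H)) : H →L[ℂ] H) (ι (ζ i)) - xi i‖ ≤ _
    rw [e, norm_neg, norm_apply]
    exact (hζ i hi).le

end Intertwine

open Intertwine in
theorem exists_intertwiner {K H : Type*} [NormedAddCommGroup K] [InnerProductSpace ℂ K] [CompleteSpace K]
    [NormedAddCommGroup H] [InnerProductSpace ℂ H] [CompleteSpace H] [TopologicalSpace.SeparableSpace H]
    (ι : K →L[ℂ] H) (hι : ∀ η, ‖ι η‖ = ‖η‖) (𝒰 : Subgroup (unitary (H →L[ℂ] H)))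
    (W : ℕ → unitary (H →L[ℂ] H)) (hW : ∀ k, W k ∈ 𝒰)
    (h1 : ∀ η : K, Tendsto (fun k => (W k : H →L[ℂ] H) (ι η)) atTop (𝓝 (ι η)))
    (h2 : ∀ ξ : H, Tendsto (fun k => Metric.infDist ((W k : H →L[ℂ] H) ξ) (Set.range ι)) atTop (𝓝 0)) :
    ∃ (U : K ≃ₗᵢ[ℂ] H) (G : ℕ → unitary (H →L[ℂ] H)), (∀ j, G j ∈ 𝒰) ∧
      ∀ η : K, Tendsto (fun j => (G j : H →L[ℂ] H) (ι η)) atTop (𝓝 (U η)) := by
  have hiso : Isometry ι := AddMonoidHomClass.isometry_of_norm ι hι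
  have : SecondCountableTopology H := UniformSpace.secondCountable_of_separable H
  have : SecondCountableTopology K := hiso.isEmbedding.secondCountableTopology
  obtain ⟨xi, hxi⟩ := TopologicalSpace.exists_dense_seq H
  obtain ⟨eta, heta⟩ := TopologicalSpace.exists_dense_seq K
  choose f hf1 hf2 hf3 hf4 using step ι 𝒰 W hW h1 h2 xi eta
  let s : ℕ → 𝒰 × Finset K := fun n => Nat.rec (1, ∅) (fun j t => f j t) n
  have hs : ∀ j, s (j + 1) = f j (s j) := fun _ => rfl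
  let G : ℕ → unitary (H →L[ℂ] H) := fun j => (s j).1
  have hmono : Monotone fun j => (s j).2 := monotone_nat_of_le_succ fun j => by
    rw [hs]; exact hf1 j (s j)
  have hstep : ∀ j, ∀ η ∈ (s j).2, ∀ n,
      dist ((G (n + j) : H →L[ℂ] H) (ι η)) ((G (n + 1 + j) : H →L[ℂ] H) (ι η)) ≤
        (1 / 2) ^ j * (1 / 2) ^ n := by
    intro j η hη n
    have := hf3 (n + j) (s (n + j)) η (hmono (Nat.le_add_left j n) hη)
    rw [← hs] at this
    rw [dist_comm, dist_eq_norm, show n + 1 + j = n + j + 1 by ring, ← pow_add, add_comm j n]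
    exact this
  have hcau0 : ∀ j, ∀ η ∈ (s j).2, CauchySeq fun n => (G n : H →L[ℂ] H) (ι η) := by
    intro j η hη
    rw [← cauchySeq_shift j]
    exact cauchySeq_of_le_geometric (1 / 2) _ (by norm_num) (hstep j η hη)
  have hdist : ∀ n (η η' : K), dist ((G n : H →L[ℂ] H) (ι η)) ((G n : H →L[ℂ] H) (ι η')) =
      dist η η' := fun n η η' => by
    rw [dist_eq_norm, ← map_sub, ← map_sub, norm_apply, hι, dist_eq_norm]
  have hcau : ∀ η, CauchySeq fun n => (G n : H →L[ℂ] H) (ι η) := by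
    intro η
    rw [Metric.cauchySeq_iff]
    intro ε hε
    obtain ⟨i, hi⟩ := heta.exists_dist_lt η (show 0 < ε / 3 by positivity)
    obtain ⟨N, hN⟩ := Metric.cauchySeq_iff.1 (hcau0 (i + 1) (eta i) (hf2 i (s i))) (ε / 3)
      (by positivity)
    refine ⟨N, fun m hm n hn => ?_⟩
    have a1 := dist_triangle4 ((G m : H →L[ℂ] H) (ι η)) ((G m : H →L[ℂ] H) (ι (eta i)))
      ((G n : H →L[ℂ] H) (ι (eta i))) ((G n : H →L[ℂ] H) (ι η))
    rw [hdist, hdist, dist_comm (eta i) η] at a1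
    have a2 := hN m hm n hn
    linarith
  choose U0 hU0 using fun η => cauchySeq_tendsto_of_complete (hcau η)
  let U1 : K →ₗᵢ[ℂ] H :=
    { toFun := U0
      map_add' := fun x y => tendsto_nhds_unique (hU0 (x + y)) (by
        simpa only [map_add] using (hU0 x).add (hU0 y))
      map_smul' := fun c x => tendsto_nhds_unique (hU0 (c • x)) (by
        simpa only [map_smul, RingHom.id_apply] using (hU0 x).const_smul c)
      norm_map' := fun x => tendsto_nhds_unique (hU0 x).norm (by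
        simp only [norm_apply, hι]; exact tendsto_const_nhds) }
  have hsurj : Function.Surjective U1 := by
    have hcl : IsClosed (Set.range U1) := U1.isometry.isClosedEmbedding.isClosed_range
    have hsub : Set.range xi ⊆ Set.range U1 := by
      rintro _ ⟨i, rfl⟩
      rw [← hcl.closure_eq, Metric.mem_closure_iff]
      intro ε hε
      obtain ⟨j0, hj0⟩ := exists_pow_lt_of_lt_one (show 0 < ε / 3 by positivity)
        (show (1 / 2 : ℝ) < 1 by norm_num)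
      obtain ⟨ζ, hζ1, hζ2⟩ := hf4 (i + j0) (s (i + j0)) i (Nat.le_add_right _ _)
      rw [← hs] at hζ1 hζ2
      refine ⟨U1 ζ, ⟨ζ, rfl⟩, ?_⟩
      have a1 := dist_le_of_le_geometric_of_tendsto₀ (1 / 2) _ (by norm_num)
        (hstep (i + j0 + 1) ζ hζ1) ((tendsto_add_atTop_iff_nat (i + j0 + 1)).2 (hU0 ζ))
      have a2 : ((1 : ℝ) / 2) ^ (i + j0) ≤ (1 / 2) ^ j0 :=
        pow_le_pow_of_le_one (by norm_num) (by norm_num) (Nat.le_add_left _ _)
      have a3 := dist_triangle (xi i) ((G (i + j0 + 1) : H →L[ℂ] H) (ι ζ)) (U0 ζ)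
      rw [zero_add, pow_succ] at a1
      rw [dist_comm (xi i) ((G (i + j0 + 1) : H →L[ℂ] H) (ι ζ)), dist_eq_norm (_ : H) (xi i)] at a3
      change dist (xi i) (U0 ζ) < ε
      change ‖(G (i + j0 + 1) : H →L[ℂ] H) (ι ζ) - xi i‖ ≤ _ at hζ2
      norm_num at a1 hj0 a2 hζ2
      linarith
    rw [← Set.range_eq_univ, ← hcl.closure_eq]
    exact (Dense.mono hsub hxi).closure_eq
  exact ⟨LinearIsometryEquiv.ofSurjective U1 hsurj, G, fun j => (s j).1.2, hU0⟩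

end Crest.Agent.R134
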