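import Crest.Agent.R134.Basic

/-!
From the behaviour of the unitaries on generators to strong convergence.
-/

set_option autoImplicit false

open Crest.OpAlg Filter Topology
open scoped InnerProductSpace

noncomputable section

namespace Crest.Agent.R134

namespace Resolvent

section Abstract

variable {E F : Type*} [NormedAddCommGroup E] [NormedSpace ℂ E] [NormedAddCommGroup F]
  [NormedSpace ℂ F]

theorem tendsto_apply_zero (A : ℕ → E →L[ℂ] F) (C : ℝ) (hA : ∀ k, ‖A k‖ ≤ C) (v : ℕ → E)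
    (hv : Tendsto v atTop (𝓝 0)) : Tendsto (fun k => A k (v k)) atTop (𝓝 0) := by
  rw [tendsto_zero_iff_norm_tendsto_zero] at hv ⊢
  have h1 : Tendsto (fun k => C * ‖v k‖) atTop (𝓝 0) := by simpa using hv.const_mul C
  refine squeeze_zero (fun _ => norm_nonneg _) (fun k => ?_) h1
  exact ((A k).le_opNorm _).trans (mul_le_mul_of_nonneg_right (hA k) (norm_nonneg _))

/-- The vectors on which a sequence of operators tends to zero. -/
def nullSp (A : ℕ → E →L[ℂ] F) : Submodule ℂ E where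
  carrier := {ξ | Tendsto (fun k => A k ξ) atTop (𝓝 0)}
  add_mem' := by
    intro a b ha hb
    simpa using Tendsto.add ha hb
  zero_mem' := by simp
  smul_mem' := by
    intro c a ha
    simpa using Tendsto.const_smul ha c

theorem isClosed_nullSp (A : ℕ → E →L[ℂ] F) (C : ℝ) (hA : ∀ k, ‖A k‖ ≤ C) :
    IsClosed (nullSp A : Set E) := by
  refine isClosed_of_closure_subset fun ξ hξ => ?_
  change Tendsto (fun k => A k ξ) atTop (𝓝 0)
  have hC : 0 ≤ C := (norm_nonneg _).trans (hA 0)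
  rw [NormedAddGroup.tendsto_nhds_zero]
  intro ε hε
  obtain ⟨η, hη, hd⟩ := Metric.mem_closure_iff.1 hξ (ε / (2 * (C + 1))) (by positivity)
  have h1 : Tendsto (fun k => A k η) atTop (𝓝 0) := hη
  rw [NormedAddGroup.tendsto_nhds_zero] at h1
  filter_upwards [h1 (ε / 2) (by positivity)] with k hk
  have h2 : A k ξ = A k η + A k (ξ - η) := by simp
  have h3 : ‖A k (ξ - η)‖ ≤ C * ‖ξ - η‖ :=
    ((A k).le_opNorm _).trans (mul_le_mul_of_nonneg_right (hA k) (norm_nonneg _))
  rw [dist_eq_norm, lt_div_iff₀ (by positivity)] at hd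
  have h4 := norm_add_le (A k η) (A k (ξ - η))
  have h5 := norm_nonneg (ξ - η)
  rw [h2]
  nlinarith

end Abstract

section Hilbert

variable {H : Type*} [NormedAddCommGroup H] [InnerProductSpace ℂ H] [CompleteSpace H]

/-- Resolvents of self-adjoint operators at `± i`. -/
theorem exists_resolvent (T : H →L[ℂ] H) (hT : IsSelfAdjoint T) (c : ℂ) (hc : |c.im| = 1) :
    ∃ r : H →L[ℂ] H, r * (T - c • 1) = 1 ∧ (T - c • 1) * r = 1 ∧ ‖r‖ ≤ 1 := by
  have hspec : c ∉ spectrum ℂ T := fun h => by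
    rw [hT.im_eq_zero_of_mem_spectrum h] at hc
    simp at hc
  have hu : IsUnit (T - c • 1) := by
    have h1 : IsUnit (algebraMap ℂ (H →L[ℂ] H) c - T) := spectrum.notMem_iff.1 hspec
    rw [Algebra.algebraMap_eq_smul_one] at h1
    simpa using h1.neg
  obtain ⟨u, hu⟩ := hu
  have hlow : ∀ ξ, ‖ξ‖ ≤ ‖(T - c • 1) ξ‖ := by
    intro ξ
    have hs : (T : H →ₗ[ℂ] H).IsSymmetric := hT.isSymmetric
    have h1 : (⟪T ξ, ξ⟫_ℂ).im = 0 := hs.im_inner_apply_self ξ
    have h2 : (⟪(T - c • 1) ξ, ξ⟫_ℂ).im = c.im * ‖ξ‖ ^ 2 := by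
      simp only [sub_apply, smul_apply, one_apply_eq_self, inner_sub_left,
        inner_smul_left, Complex.sub_im, h1, inner_self_eq_norm_sq_to_K]
      have : ((‖ξ‖ : ℂ) ^ 2) = ((‖ξ‖ ^ 2 : ℝ) : ℂ) := by push_cast; rfl
      simp only [Complex.coe_algebraMap, this, Complex.mul_im, Complex.ofReal_im,
        Complex.ofReal_re, Complex.conj_im]
      ring
    have h3 : |(⟪(T - c • 1) ξ, ξ⟫_ℂ).im| ≤ ‖(T - c • 1) ξ‖ * ‖ξ‖ :=
      (Complex.abs_im_le_norm _).trans (norm_inner_le_norm _ _)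
    rw [h2, abs_mul, hc, one_mul, abs_of_nonneg (by positivity)] at h3
    rcases (norm_nonneg ξ).eq_or_lt with h0 | h0
    · rw [← h0]; exact norm_nonneg _
    · nlinarith
  refine ⟨(u⁻¹ : (H →L[ℂ] H)ˣ), by rw [← hu]; exact u.inv_mul, by rw [← hu]; exact u.mul_inv, ?_⟩
  refine ContinuousLinearMap.opNorm_le_bound _ zero_le_one fun ξ => ?_
  have h1 := hlow ((u⁻¹ : (H →L[ℂ] H)ˣ).val ξ)
  rw [← mul_apply_eq_comp, ← hu, u.mul_inv] at h1
  simpa using h1

omit [CompleteSpace H] in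
theorem commute_inv {y y' m : H →L[ℂ] H} (h1 : y' * y = 1) (h2 : y * y' = 1)
    (h : Commute y m) : Commute y' m := by
  change y' * m = m * y'
  calc y' * m = y' * m * (y * y') := by rw [h2, mul_one]
    _ = y' * (m * y) * y' := by simp only [mul_assoc]
    _ = y' * (y * m) * y' := by rw [h.eq]
    _ = (y' * y) * m * y' := by simp only [mul_assoc]
    _ = m * y' := by rw [h1, one_mul]

/-- A closed subspace invariant under `r` and `r*` is invariant under the inverse of `r`. -/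
theorem inv_mem_of_invariant (K : Submodule ℂ H) (hK : IsClosed (K : Set H)) {r b : H →L[ℂ] H}
    (h1 : b * r = 1) (h2 : r * b = 1) (hr : ∀ ξ ∈ K, r ξ ∈ K) (hr' : ∀ ξ ∈ K, star r ξ ∈ K) :
    ∀ ξ ∈ K, b ξ ∈ K := by
  intro ξ hξ
  have : CompleteSpace K := hK.completeSpace_coe
  obtain ⟨u, hu, v, hv, huv⟩ := K.exists_add_mem_mem_orthogonal (b ξ)
  have h3 : r v ∈ Kᗮ := by
    rw [Submodule.mem_orthogonal]
    intro w hw
    rw [← ContinuousLinearMap.adjoint_inner_left, ← ContinuousLinearMap.star_eq_adjoint]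
    exact (Submodule.mem_orthogonal K v).1 hv _ (hr' w hw)
  have h4 : r v = ξ - r u := by
    have : r (b ξ) = ξ := by rw [← mul_apply_eq_comp, h2]; rfl
    rw [huv, map_add] at this
    rw [← this]; abel
  have h5 : r v ∈ K := by rw [h4]; exact K.sub_mem hξ (hr u hu)
  have h6 : r v = 0 := inner_self_eq_zero.1 ((Submodule.mem_orthogonal K _).1 h3 _ h5)
  have h7 : v = 0 := by
    have : b (r v) = v := by rw [← mul_apply_eq_comp, h1]; rfl
    rw [← this, h6, map_zero]
  rw [huv, h7, add_zero]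
  exact hu

variable (W : ℕ → unitary (H →L[ℂ] H)) (Ω : H) (R : Set (H →L[ℂ] H))

/-- `W x Ω` is asymptotically `y Ω`, with `y` in the commutant. -/
def Rel (x : H →L[ℂ] H) (y : ℕ → H →L[ℂ] H) : Prop :=
  x ∈ R.centralizer ∧ (∀ k, ∀ m ∈ R.centralizer, Commute (y k) m) ∧
    Tendsto (fun k => (W k : H →L[ℂ] H) (x Ω) - y k Ω) atTop (𝓝 0)

variable {W Ω R}

theorem norm_conj_le (U : unitary (H →L[ℂ] H)) (x : H →L[ℂ] H) :
    ‖(U : H →L[ℂ] H) * x * star (U : H →L[ℂ] H)‖ ≤ ‖x‖ := by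
  refine ContinuousLinearMap.opNorm_le_bound _ (norm_nonneg _) fun ξ => ?_
  rw [mul_apply_eq_comp, mul_apply_eq_comp, ContinuousLinearMap.norm_map_of_mem_unitary U.2]
  refine (x.le_opNorm _).trans_eq ?_
  rw [ContinuousLinearMap.norm_map_of_mem_unitary (Unitary.star_mem U.2)]

theorem star_apply_fix (U : unitary (H →L[ℂ] H)) (h : (U : H →L[ℂ] H) Ω = Ω) :
    star (U : H →L[ℂ] H) Ω = Ω := by
  conv_lhs => rw [← h]
  have h0 : star (U : H →L[ℂ] H) * (U : H →L[ℂ] H) = 1 := U.2.1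
  rw [← mul_apply_eq_comp, h0]
  rfl

theorem star_apply_apply (U : unitary (H →L[ℂ] H)) (ξ : H) :
    star (U : H →L[ℂ] H) ((U : H →L[ℂ] H) ξ) = ξ := by
  have h0 : star (U : H →L[ℂ] H) * (U : H →L[ℂ] H) = 1 := U.2.1
  rw [← mul_apply_eq_comp, h0]
  rfl

theorem Rel.one (hΩ : ∀ k, (W k : H →L[ℂ] H) Ω = Ω) : Rel W Ω R 1 (fun _ => 1) :=
  ⟨Set.one_mem_centralizer, fun _ _ _ => Commute.one_left _, by simp [hΩ]⟩

theorem Rel.mul (hΩ : ∀ k, (W k : H →L[ℂ] H) Ω = Ω)
    (hW : ∀ k, ∀ z ∈ R.centralizer,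
      (W k : H →L[ℂ] H) * z * star (W k : H →L[ℂ] H) ∈ R.centralizer)
    {x x' : H →L[ℂ] H} {y y' : ℕ → H →L[ℂ] H} (h : Rel W Ω R x y) (h' : Rel W Ω R x' y')
    {C : ℝ} (hC : ∀ k, ‖y' k‖ ≤ C) : Rel W Ω R (x * x') (fun k => y' k * y k) := by
  refine ⟨Set.mul_mem_centralizer h.1 h'.1,
    fun k m hm => (h'.2.1 k m hm).mul_left (h.2.1 k m hm), ?_⟩
  have h1 := tendsto_apply_zero _ _ (fun k => norm_conj_le (W k) x) _ h'.2.2
  have h2 := tendsto_apply_zero _ _ hC _ h.2.2
  have h3 := h1.add h2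
  rw [add_zero] at h3
  refine h3.congr fun k => ?_
  have h4 := congrArg (fun T : H →L[ℂ] H => T Ω) (h'.2.1 k _ (hW k x h.1)).eq
  simp only [mul_apply_eq_comp, star_apply_fix (W k) (hΩ k)] at h4
  simp only [mul_apply_eq_comp, map_sub, star_apply_apply, h4]
  abel

theorem Rel.inv (hΩ : ∀ k, (W k : H →L[ℂ] H) Ω = Ω)
    (hW : ∀ k, ∀ z ∈ R.centralizer,
      (W k : H →L[ℂ] H) * z * star (W k : H →L[ℂ] H) ∈ R.centralizer)
    {x x' : H →L[ℂ] H} {y y' : ℕ → H →L[ℂ] H} (h : Rel W Ω R x y)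
    (hx1 : x' * x = 1) (hx2 : x * x' = 1) (hy1 : ∀ k, y' k * y k = 1) (hy2 : ∀ k, y k * y' k = 1)
    {C : ℝ} (hC : ∀ k, ‖y' k‖ ≤ C) : Rel W Ω R x' y' := by
  have hx' : x' ∈ R.centralizer := fun m hm =>
    (commute_inv hx1 hx2 (show Commute x m from (h.1 m hm).symm)).eq.symm
  have hy' : ∀ k, ∀ m ∈ R.centralizer, Commute (y' k) m := fun k m hm =>
    commute_inv (hy1 k) (hy2 k) (h.2.1 k m hm)
  refine ⟨hx', hy', ?_⟩
  have h1 := tendsto_apply_zero _ _ (fun k => norm_conj_le (W k) x') _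
    (tendsto_apply_zero _ _ hC _ h.2.2)
  have h2 := h1.neg
  rw [neg_zero] at h2
  refine h2.congr fun k => ?_
  have h4 := congrArg (fun T : H →L[ℂ] H => T ((W k : H →L[ℂ] H) (x Ω)))
    (hy' k _ (hW k x' hx')).eq
  have h5 : x' (x Ω) = Ω := by rw [← mul_apply_eq_comp, hx1]; rfl
  have h6 : y' k (y k Ω) = Ω := by rw [← mul_apply_eq_comp, hy1]; rfl
  simp only [mul_apply_eq_comp, star_apply_apply, h5, hΩ] at h4
  simp only [mul_apply_eq_comp, map_sub, ← h4, h6, star_apply_fix (W k) (hΩ k)]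
  abel

theorem Rel.sub_smul (hΩ : ∀ k, (W k : H →L[ℂ] H) Ω = Ω)
    {x : H →L[ℂ] H} {y : ℕ → H →L[ℂ] H} (h : Rel W Ω R x y) (c : ℂ) :
    Rel W Ω R (x - c • 1) (fun k => y k - c • 1) := by
  refine ⟨fun m hm => ?_, fun k m hm => ?_, ?_⟩
  · have : Commute m (x - c • 1) :=
      (show Commute m x from h.1 m hm).sub_right ((Commute.one_right m).smul_right c)
    exact this.eq
  · exact (h.2.1 k m hm).sub_left ((Commute.one_left m).smul_left c)
  · refine h.2.2.congr fun k => ?_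
    simp [hΩ]

end Hilbert

section Fock

variable {G : Type} [Group G]

/-- The projection onto the words of length one. -/
def proj : BF G := emb ∘L pull Wd.one Wd.one_injective

omit [Group G] in
theorem proj_dl_one (g : G) : proj (dl (Wd.one g)) = dl (Wd.one g) := by
  simp [proj, pull_dl]

omit [Group G] in
theorem proj_dl_cons (g : G) (w : Wd G) : proj (dl (Wd.cons g w)) = 0 := by
  have : pull Wd.one Wd.one_injective (dl (Wd.cons g w)) = 0 :=
    pull_dl_of_notMem _ _ (by rintro ⟨h, hh⟩; simp at hh)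
  simp [proj, this]

omit [Group G] in
theorem norm_one_sub_proj_apply_le (ξ : Fock G) : ‖(1 - proj) ξ‖ ≤ 2 * ‖ξ‖ := by
  have h1 : ‖proj ξ‖ ≤ ‖ξ‖ := by
    simp only [proj, ContinuousLinearMap.comp_apply, norm_emb_apply]
    exact norm_pull_apply_le _ _ _
  have h2 := norm_sub_le ξ (proj ξ)
  simp only [sub_apply, one_apply_eq_self]
  linarith

theorem commute_opR_proj (g : G) : Commute (opR g) proj :=
  ext_dl fun w => by
    cases w with
    | one h => simp [proj_dl_one, Wd.rmul]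
    | cons h w => simp [proj_dl_cons, Wd.rmul]

theorem commute_piR_proj {n : Alg G} (hn : n ∈ grpAlg G) : Commute (piR n) proj := by
  induction hn using Submodule.span_induction with
  | mem x hx =>
    obtain ⟨g, rfl⟩ := hx
    simpa using commute_opR_proj g
  | zero => simp
  | add x y _ _ hx hy => simpa using hx.add_left hy
  | smul c x _ hx => simpa using hx.smul_left c

theorem piL_mem (y : Alg G) : piL y ∈ (Set.range (piR : Alg G → BF G)).centralizer := by
  rintro _ ⟨z, rfl⟩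
  exact (commute_piL_piR y z).eq.symm

theorem commute_piR (y : Alg G) :
    ∀ m ∈ (Set.range (piR : Alg G → BF G)).centralizer, Commute (piR y) m :=
  fun _ hm => hm _ ⟨y, rfl⟩

end Fock

end Resolvent

open Resolvent in
theorem tendsto_of_generators {ι : Type} (W : ℕ → unitary (BF (FreeGroup ι)))
    (hW : ∀ k, W k ∈ fockGrp (FreeGroup ι))
    (hx : ∀ i : ι, Tendsto (fun k => (W k : BF (FreeGroup ι)) (vec (gA (FreeGroup.of i)))) atTop
      (𝓝 (vec (gA (FreeGroup.of i)))))
    (n : ℕ → Alg (FreeGroup ι)) (hn : ∀ k, n k ∈ grpAlg (FreeGroup ι))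
    (hns : ∀ k, star (n k) = n k)
    (ha : Tendsto (fun k => (W k : BF (FreeGroup ι)) (vec aA) - vec (n k)) atTop (𝓝 0)) :
    (∀ η : ltwo (FreeGroup ι), Tendsto (fun k => (W k : BF (FreeGroup ι)) (emb η)) atTop
      (𝓝 (emb η))) ∧
    (∀ ξ : Fock (FreeGroup ι), Tendsto (fun k => Metric.infDist ((W k : BF (FreeGroup ι)) ξ)
      (Set.range (emb : ltwo (FreeGroup ι) → Fock (FreeGroup ι)))) atTop (𝓝 0)) := by
  set R : Set (BF (FreeGroup ι)) := Set.range (piR : Alg (FreeGroup ι) → BF (FreeGroup ι))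
    with hR
  have hΩ : ∀ k, (W k : BF (FreeGroup ι)) Om = Om := fun k => (hW k).1
  have hM : ∀ k, ∀ z ∈ R.centralizer,
      (W k : BF (FreeGroup ι)) * z * star (W k : BF (FreeGroup ι)) ∈ R.centralizer :=
    fun k z hz => ((hW k).2.2 z).1 hz
  have hnorm : ∀ k ξ, ‖(W k : BF (FreeGroup ι)) ξ‖ = ‖ξ‖ := fun k ξ =>
    ContinuousLinearMap.norm_map_of_mem_unitary (W k).2 ξ
  -- group elements
  have hof : ∀ i : ι, Rel W Om R (opL (FreeGroup.of i)) (fun _ => opR (FreeGroup.of i)) := by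
    intro i
    refine ⟨by simpa using piL_mem (gA (FreeGroup.of i)),
      fun _ => by simpa using commute_piR (gA (FreeGroup.of i)), ?_⟩
    have := tendsto_sub_nhds_zero_iff.2 (hx i)
    simpa [Om, Wd.lmul, Wd.rmul] using this
  have hg : ∀ g : FreeGroup ι, Rel W Om R (opL g) (fun _ => opR g) := by
    intro g
    induction g using FreeGroup.induction_on with
    | C1 => simpa using Rel.one hΩ
    | of i => exact hof i
    | inv_of i hi =>
      exact hi.inv hΩ hM (by rw [← opL_mul]; simp) (by rw [← opL_mul]; simp)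
        (fun _ => by rw [← opR_mul]; simp) (fun _ => by rw [← opR_mul]; simp)
        (fun _ => norm_opR_le _)
    | mul g h hg hh =>
      have := hg.mul hΩ hM hh (fun _ => norm_opR_le _)
      simpa only [opL_mul, opR_mul] using this
  refine ⟨fun η => ?_, fun ξ => ?_⟩
  · let A : ℕ → ltwo (FreeGroup ι) →L[ℂ] Fock (FreeGroup ι) :=
      fun k => ((W k : BF (FreeGroup ι)) - 1) ∘L emb
    have hA : ∀ k, ‖A k‖ ≤ 2 := fun k =>
      ContinuousLinearMap.opNorm_le_bound _ (by norm_num) fun ξ => by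
        have h1 := norm_sub_le ((W k : BF (FreeGroup ι)) (emb ξ)) (emb ξ)
        rw [hnorm, norm_emb_apply] at h1
        simp only [A, ContinuousLinearMap.comp_apply, sub_apply, one_apply_eq_self]
        linarith
    have htop : nullSp A = ⊤ := eq_top_of_dl_mem _ (isClosed_nullSp A 2 hA) fun g => by
      change Tendsto (fun k => A k (dl g)) atTop (𝓝 0)
      have := (hg g).2.2
      simpa [A, Om, Wd.lmul, Wd.rmul] using this
    have h1 : η ∈ nullSp A := htop ▸ Submodule.mem_top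
    have h2 : Tendsto (fun k => A k η) atTop (𝓝 0) := h1
    rw [← tendsto_sub_nhds_zero_iff]
    simpa [A] using h2
  · let Good : BF (FreeGroup ι) → Prop := fun x => ∃ (y : ℕ → BF (FreeGroup ι)) (C : ℝ),
      Rel W Om R x y ∧ (∀ k, ‖y k‖ ≤ C) ∧ ∀ k, Commute (y k) proj
    have gone : Good 1 := ⟨fun _ => 1, 1, Rel.one hΩ, fun _ => ContinuousLinearMap.norm_id_le,
      fun _ => Commute.one_left _⟩
    have gmul : ∀ x x', Good x → Good x' → Good (x * x') := by
      rintro x x' ⟨y, C, h1, h2, h3⟩ ⟨y', C', h1', h2', h3'⟩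
      refine ⟨_, C' * C, h1.mul hΩ hM h1' h2', fun k => ?_, fun k => (h3' k).mul_left (h3 k)⟩
      exact (norm_mul_le _ _).trans (mul_le_mul (h2' k) (h2 k) (norm_nonneg _)
        ((norm_nonneg _).trans (h2' k)))
    have gg : ∀ g, Good (opL g) := fun g =>
      ⟨_, 1, hg g, fun _ => norm_opR_le _, fun _ => commute_opR_proj g⟩
    have hrel : Rel W Om R (piL aA) (fun k => piR (n k)) :=
      ⟨piL_mem _, fun k => commute_piR _, by simpa only [piR_Om, ← vec_apply] using ha⟩
    have gres : ∀ c : ℂ, |c.im| = 1 → ∀ r : BF (FreeGroup ι), r * (piL aA - c • 1) = 1 →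
        (piL aA - c • 1) * r = 1 → Good r := by
      intro c hc r hr1 hr2
      have hsa : ∀ k, IsSelfAdjoint (piR (n k)) := fun k => by
        rw [IsSelfAdjoint, ← piR_star, hns]
      choose y hy1 hy2 hy3 using fun k => exists_resolvent (piR (n k)) (hsa k) c hc
      refine ⟨y, 1, (hrel.sub_smul hΩ c).inv hΩ hM hr1 hr2 hy1 hy2 hy3, hy3, fun k => ?_⟩
      exact commute_inv (hy1 k) (hy2 k)
        ((commute_piR_proj (hn k)).sub_left ((Commute.one_left _).smul_left c))
    let A : ℕ → BF (FreeGroup ι) := fun k => (1 - proj) * (W k : BF (FreeGroup ι))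
    have hP : ‖(1 - proj : BF (FreeGroup ι))‖ ≤ 2 :=
      ContinuousLinearMap.opNorm_le_bound _ (by norm_num) norm_one_sub_proj_apply_le
    have hA : ∀ k, ‖A k‖ ≤ 2 := fun k =>
      ContinuousLinearMap.opNorm_le_bound _ (by norm_num) fun ξ => by
        have := norm_one_sub_proj_apply_le ((W k : BF (FreeGroup ι)) ξ)
        rwa [hnorm] at this
    have hT : ∀ x, Good x → x Om ∈ nullSp A := by
      rintro x ⟨y, C, h1, -, h3⟩
      change Tendsto (fun k => A k (x Om)) atTop (𝓝 0)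
      have h4 := tendsto_apply_zero (fun _ => (1 - proj : BF (FreeGroup ι))) 2 (fun _ => hP) _
        h1.2.2
      refine h4.congr fun k => ?_
      have h5 := congrArg (fun T : BF (FreeGroup ι) => T Om) (h3 k).eq
      have h6 : proj (Om : Fock (FreeGroup ι)) = Om := proj_dl_one 1
      simp only [mul_apply_eq_comp, h6] at h5
      simp only [A, mul_apply_eq_comp, map_sub, sub_apply, one_apply_eq_self, ← h5]
      abel
    let K : Submodule ℂ (Fock (FreeGroup ι)) :=
      ⨅ x : {x // Good x}, (nullSp A).comap (x.1 : Fock (FreeGroup ι) →ₗ[ℂ] Fock (FreeGroup ι))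
    have hK : ∀ ξ, ξ ∈ K ↔ ∀ x, Good x → x ξ ∈ nullSp A := fun ξ => by
      simp [K, Submodule.mem_iInf]
    have hKc : IsClosed (K : Set (Fock (FreeGroup ι))) := by
      simp only [K, Submodule.coe_iInf]
      exact isClosed_iInter fun x => (isClosed_nullSp A 2 hA).preimage x.1.continuous
    have hKinv : ∀ x, Good x → ∀ ξ ∈ K, x ξ ∈ K := fun x hx ξ hξ =>
      (hK _).2 fun x' hx' => (hK _).1 hξ (x' * x) (gmul _ _ hx' hx)
    have hsa : IsSelfAdjoint (piL (aA : Alg (FreeGroup ι))) := by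
      rw [IsSelfAdjoint, ← piL_star, star_aA]
    obtain ⟨r, hr1, hr2, -⟩ := exists_resolvent _ hsa Complex.I (by simp)
    have hst : star (piL (aA : Alg (FreeGroup ι)) - Complex.I • 1) =
        piL aA - (-Complex.I) • 1 := by
      rw [star_sub, hsa.star_eq, star_smul, star_one]
      simp
    have hr' : Good (star r) := gres (-Complex.I) (by simp) _
      (by rw [← hst, ← star_mul, hr2, star_one]) (by rw [← hst, ← star_mul, hr1, star_one])
    have hb := inv_mem_of_invariant K hKc hr2 hr1 (hKinv _ (gres _ (by simp) r hr1 hr2))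
      (hKinv _ hr')
    have hall : ∀ y : Alg (FreeGroup ι), ∀ ξ ∈ K, piL y ξ ∈ K := by
      intro y
      induction y using Alg.induction with
      | hg g => simpa using hKinv _ (gg g)
      | ha =>
        intro ξ hξ
        have := K.add_mem (hb ξ hξ) (K.smul_mem Complex.I hξ)
        simpa only [sub_apply, smul_apply, one_apply_eq_self, sub_add_cancel]
          using this
      | hadd x y hx hy =>
        intro ξ hξ
        simpa using K.add_mem (hx ξ hξ) (hy ξ hξ)
      | hsmul c x hx =>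
        intro ξ hξ
        simpa using K.smul_mem c (hx ξ hξ)
      | hmul x y hx hy =>
        intro ξ hξ
        simpa using hx _ (hy ξ hξ)
    have hξ : ξ ∈ K := by
      have h1 : Set.range (vec : Alg (FreeGroup ι) → Fock (FreeGroup ι)) ⊆ K := by
        rintro _ ⟨y, rfl⟩
        exact hall y _ ((hK _).2 hT)
      exact hKc.closure_subset_iff.2 h1 (denseRange_vec ξ)
    have h2 : Tendsto (fun k => A k ξ) atTop (𝓝 0) := (hK _).1 hξ 1 gone
    rw [tendsto_zero_iff_norm_tendsto_zero] at h2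
    refine squeeze_zero (fun _ => Metric.infDist_nonneg) (fun k => ?_) h2
    have h3 : proj ((W k : BF (FreeGroup ι)) ξ) ∈
        Set.range (emb : ltwo (FreeGroup ι) → Fock (FreeGroup ι)) := ⟨_, rfl⟩
    refine (Metric.infDist_le_dist_of_mem h3).trans_eq ?_
    rw [dist_eq_norm]
    rfl

end Crest.Agent.R134

end
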