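import Crest.Agent.R134.Words

/-!
The derivation `VV` preserves the vacuum state.
-/

set_option autoImplicit false

open Crest.OpAlg
open scoped InnerProductSpace TensorProduct

noncomputable section

namespace Crest.Agent.R134

namespace Trace

/-! ### Diagonal projections -/

/-- The projection onto the basis vectors in `S`. -/
def diag {X : Type*} (S : Set X) : ltwo X →L[ℂ] ltwo X :=
  (push (Subtype.val : S → X) Subtype.val_injective).comp (pull Subtype.val Subtype.val_injective)

open Classical in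
theorem diag_apply {X : Type*} (S : Set X) (ξ : ltwo X) (x : X) :
    diag S ξ x = (if x ∈ S then 1 else 0) * ξ x := by
  split_ifs with h
  · rw [one_mul]
    exact push_apply_self (Subtype.val : S → X) Subtype.val_injective _ ⟨x, h⟩
  · rw [zero_mul]
    exact push_apply_of_notMem (Subtype.val : S → X) Subtype.val_injective _
      (by rintro ⟨⟨y, hy⟩, rfl⟩; exact h hy)

open Classical in
theorem diag_dl {X : Type*} (S : Set X) (x : X) :
    diag S (dl x) = (if x ∈ S then (1 : ℂ) else 0) • dl x := by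
  ext y
  rw [diag_apply, lp.coeFn_smul, Pi.smul_apply, smul_eq_mul]
  by_cases h : y = x
  · subst h; rfl
  · rw [dl_apply_ne h, mul_zero, mul_zero]

variable {ι : Type}

open Classical in
/-- Reduced words ending with the inverse of `u`. -/
def endSet (u : ι) : Set (FreeGroup ι) := {γ | γ.toWord.getLast? = some (u, false)}

open Classical in
/-- The indicator of `endSet u`. -/
def chi (u : ι) (γ : FreeGroup ι) : ℂ := if γ ∈ endSet u then 1 else 0

open Classical in
theorem chi_of_mul (u i : ι) (γ : FreeGroup ι) :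
    chi u (FreeGroup.of i * γ) =
      chi u γ - if i = u ∧ FreeGroup.of i * γ = 1 then 1 else 0 := by
  have hw : (FreeGroup.of i * γ).toWord = FreeGroup.reduce ((i, true) :: γ.toWord) := by
    rw [FreeGroup.toWord_mul, FreeGroup.toWord_of]; rfl
  rw [FreeGroup.reduce.cons, FreeGroup.reduce_toWord] at hw
  have key : ∀ l l' : List (ι × Bool), l' = (List.casesOn l [(i, true)] fun hd tl =>
      if (i, true).1 = hd.1 ∧ (i, true).2 = !hd.2 then tl else (i, true) :: hd :: tl :
        List (ι × Bool)) →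
      (if l'.getLast? = some (u, false) then (1 : ℂ) else 0) =
        (if l.getLast? = some (u, false) then 1 else 0) - if i = u ∧ l' = [] then 1 else 0 := by
    rintro l _ rfl
    rcases l with _ | ⟨⟨j, b⟩, tl⟩
    · simp
    · by_cases hc : i = j ∧ true = !b
      · obtain ⟨rfl, hb⟩ := hc
        have hb' : b = false := by simpa using hb
        subst hb'
        rcases tl with _ | ⟨x, tl⟩
        · by_cases hi : i = u <;> simp [hi]
        · simp
      · simp only [if_neg hc]
        simp
  have := key _ _ hw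
  simp only [FreeGroup.toWord_eq_nil_iff] at this
  unfold chi endSet
  simp only [Set.mem_ofPred_eq]
  convert this

theorem chi_v_pow_mul {u v : ι} (huv : u ≠ v) (k : ℕ) (γ : FreeGroup ι) :
    chi u (FreeGroup.of v ^ k * γ) = chi u γ := by
  induction k with
  | zero => simp
  | succ k ih => rw [pow_succ', mul_assoc, chi_of_mul, ih]; simp [huv.symm]

open Classical in
theorem chi_ww_mul {u v : ι} (huv : u ≠ v) (L : ℕ) (γ : FreeGroup ι) :
    chi u (ww u v L * γ) = chi u γ -
      ∑ j ∈ Finset.range L, if (qq u v j)⁻¹ * ww u v L * γ = 1 then 1 else 0 := by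
  induction L generalizing γ with
  | zero => simp [ww]
  | succ L ih =>
    rw [Finset.sum_range_succ]
    have h1 : (qq u v L)⁻¹ * ww u v (L + 1) * γ =
        FreeGroup.of u * ((FreeGroup.of v ^ (2 ^ L))⁻¹ * γ) := by
      rw [ww_succ]; group
    have h2 := chi_v_pow_mul huv (2 ^ L) ((FreeGroup.of v ^ (2 ^ L))⁻¹ * γ)
    rw [mul_inv_cancel_left] at h2
    rw [h1]
    simp only [ww, mul_assoc] at ih ⊢
    rw [ih, chi_v_pow_mul huv, chi_of_mul, ← h2]
    simp only [true_and]
    ring

open Classical in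
theorem chi_ww_qq {u v : ι} (huv : u ≠ v) {L m : ℕ} (hm : m < L) :
    chi u (qq u v m) = chi u ((ww u v L)⁻¹ * qq u v m) - 1 := by
  have h := chi_ww_mul huv L ((ww u v L)⁻¹ * qq u v m)
  rw [mul_inv_cancel_left] at h
  rw [h, Finset.sum_eq_single m]
  · simp [mul_assoc]
  · intro j _ hj
    rw [if_neg]
    intro h'
    rw [mul_assoc, mul_inv_cancel_left, inv_mul_eq_one] at h'
    exact hj (qq_injective huv h')
  · intro h'
    exact absurd (Finset.mem_range.2 hm) h'

/-- The operator whose commutators implement the derivative in the direction `u`. -/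
def YY (u : ι) (s s' : FreeGroup ι) : BF (FreeGroup ι) :=
  diag {w : Wd (FreeGroup ι) | w.last * s⁻¹ ∈ endSet u} * opR (s' * s)

theorem YY_dl (u : ι) (s s' : FreeGroup ι) (w : Wd (FreeGroup ι)) :
    YY u s s' (dl w) = chi u (w.last * s') • dl (w.rmul (s' * s)) := by
  classical
  simp only [YY, mul_apply_eq_comp, opR_dl, diag_dl, chi, Set.mem_ofPred_eq, Wd.last_rmul]
  congr 2
  simp [mul_assoc]

open Classical in
theorem YY_comm_of (u i : ι) (s s' : FreeGroup ι) :
    opL (FreeGroup.of i) * YY u s s' - YY u s s' * opL (FreeGroup.of i) =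
      if i = u then opL s * projOm * opL s' * opL (FreeGroup.of i) else 0 := by
  refine ext_dl fun w => ?_
  simp only [sub_apply, mul_apply_eq_comp, YY_dl, opL_dl, map_smul]
  cases w with
  | one γ =>
    simp only [Wd.last, Wd.lmul, Wd.rmul, mul_assoc, chi_of_mul, sub_smul, sub_sub_cancel]
    have hiff : FreeGroup.of i * (γ * s') = 1 ↔ s' * (FreeGroup.of i * γ) = 1 := by
      rw [← mul_assoc, mul_eq_one_comm]
    by_cases hi : i = u
    · subst hi
      simp only [true_and, if_true, mul_apply_eq_comp, opL_dl, Wd.lmul, projOm_apply,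
        inner_Om_left, map_smul]
      by_cases h : FreeGroup.of i * (γ * s') = 1
      · rw [if_pos h, hiff.1 h, dl_apply_self]
        have : FreeGroup.of i * (γ * (s' * s)) = s := by
          rw [← mul_assoc γ, ← mul_assoc, h, one_mul]
        simp [this, Om, Wd.lmul]
      · rw [if_neg h, dl_apply_ne]
        · simp
        · intro h'
          exact h (hiff.2 (Wd.one_injective h').symm)
    · simp [hi]
  | cons g w =>
    simp only [Wd.last, Wd.lmul, Wd.rmul, sub_self]
    split_ifs
    · simp only [mul_apply_eq_comp, opL_dl, Wd.lmul, projOm_apply, inner_Om_left, map_smul]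
      rw [dl_apply_ne (by simp)]
      simp
    · simp

theorem YY_comm_a (u : ι) (s s' : FreeGroup ι) :
    Commute (creL + annL : BF (FreeGroup ι)) (YY u s s') := by
  refine Commute.add_left (ext_dl fun w => ?_) (ext_dl fun w => ?_)
  · simp [YY_dl, Wd.cre_rmul]
  · simp only [mul_apply_eq_comp, YY_dl, map_smul]
    cases w with
    | one γ => simp [Wd.rmul]
    | cons g w =>
      by_cases hg : g = 1
      · subst hg
        have h1 : Wd.cons (1 : FreeGroup ι) w = w.cre := rfl
        rw [h1, ← Wd.cre_rmul]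
        simp [YY_dl]
      · simp [Wd.rmul, annL_dl_cons hg]

theorem inner_YY_comm (u : ι) (s s' : FreeGroup ι) (y : Alg (FreeGroup ι)) :
    ⟪(Om : Fock (FreeGroup ι)), (piL y * YY u s s' - YY u s s' * piL y) Om⟫_ℂ =
      (chi u s' - chi u s⁻¹) * tau (y * gA (s' * s)) := by
  classical
  have h1 : ⟪(Om : Fock (FreeGroup ι)), piL y (YY u s s' Om)⟫_ℂ =
      chi u s' * tau (y * gA (s' * s)) := by
    rw [Om, YY_dl, map_smul, inner_smul_right, tau_apply, vec_mul, vec_gA]
    simp [Wd.last, Wd.rmul, Om]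
  have h2 : ⟪(Om : Fock (FreeGroup ι)), YY u s s' (piL y Om)⟫_ℂ =
      chi u s⁻¹ * tau (y * gA (s' * s)) := by
    rw [tau_apply, vec_mul', piR_gA, inner_Om_left, inner_Om_left, YY, mul_apply_eq_comp,
      diag_apply, vec_apply]
    simp [chi, Wd.last]
  simp only [sub_apply, mul_apply_eq_comp, inner_sub_right, h1, h2]
  ring

/-! ### The free difference quotient -/

local notation "A" => Alg (FreeGroup ι)

/-- The free difference quotient in the variable `a`. -/
def dA : A →ₗ[ℂ] A ⊗[ℂ] A :=
  der Algebra.TensorProduct.includeLeft Algebra.TensorProduct.includeRight (fun _ => 0) 1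

theorem dA_mul (x y : A) : dA (x * y) = dA x * (1 ⊗ₜ y) + (x ⊗ₜ 1) * dA y := der_mul _ _ _ _ x y

@[simp] theorem dA_aA : dA (aA : A) = 1 := der_aA _ _ _ _

@[simp] theorem dA_gA (g : FreeGroup ι) : dA (gA g) = 0 := by
  induction g using FreeGroup.induction_on with
  | C1 => simp [dA]
  | of i => exact der_of _ _ _ _ i
  | inv_of i _ => rw [dA, der_of_inv]; simp
  | mul x y hx hy => rw [map_mul, dA_mul, hx, hy]; simp

/-- Sandwiching the vacuum projection. -/
def EE : A ⊗[ℂ] A →ₗ[ℂ] BF (FreeGroup ι) :=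
  TensorProduct.lift (LinearMap.mk₂ ℂ (fun x y => piL x * projOm * piL y)
    (fun _ _ _ => by simp [add_mul]) (fun _ _ _ => by simp)
    (fun _ _ _ => by simp [mul_add]) (fun _ _ _ => by simp))

@[simp] theorem EE_tmul (x y : A) : EE (x ⊗ₜ y) = piL x * projOm * piL y := by simp [EE]

theorem EE_left (x : A) (T : A ⊗[ℂ] A) : EE ((x ⊗ₜ 1) * T) = piL x * EE T := by
  induction T with
  | zero => simp
  | tmul a b => simp [mul_assoc]
  | add a b ha hb => simp [mul_add, ha, hb]

theorem EE_right (y : A) (T : A ⊗[ℂ] A) : EE (T * (1 ⊗ₜ y)) = EE T * piL y := by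
  induction T with
  | zero => simp
  | tmul a b => simp [mul_assoc]
  | add a b ha hb => simp [add_mul, ha, hb]

theorem EE_one : EE (1 : A ⊗[ℂ] A) = projOm := by
  rw [Algebra.TensorProduct.one_def, EE_tmul]; simp

/-- The functional `τ ⊗ τ`. -/
def tt : A ⊗[ℂ] A →ₗ[ℂ] ℂ where
  toFun T := ⟪(Om : Fock (FreeGroup ι)), EE T Om⟫_ℂ
  map_add' x y := by simp
  map_smul' c x := by simp

theorem tt_apply (T : A ⊗[ℂ] A) : tt T = ⟪(Om : Fock (FreeGroup ι)), EE T Om⟫_ℂ := rfl

@[simp] theorem tt_tmul (x y : A) : tt (x ⊗ₜ y) = tau x * tau y := by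
  simp [tt_apply, projOm_apply, tau_apply, vec_apply, mul_comm]

/-- Commutator with a fixed operator. -/
def commL (T : BF (FreeGroup ι)) : A →ₗ[ℂ] BF (FreeGroup ι) where
  toFun y := T * piL y - piL y * T
  map_add' x y := by simp [mul_add, add_mul]; abel
  map_smul' c x := by simp [smul_sub]

theorem commL_apply (T : BF (FreeGroup ι)) (y : A) : commL T y = T * piL y - piL y * T := rfl

theorem commL_mul (T : BF (FreeGroup ι)) (x y : A) :
    commL T (x * y) = commL T x * piL y + piL x * commL T y := by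
  simp only [commL_apply, map_mul, sub_mul, mul_sub, mul_assoc]
  abel

theorem EE_dA (y : A) : EE (dA y) = commL annR y := by
  rw [← sub_eq_zero]
  refine der_unique piL piL (EE ∘ₗ dA - commL annR) (fun x y => ?_) (fun i => ?_) ?_ y
  · simp only [LinearMap.sub_apply, LinearMap.comp_apply, dA_mul, map_add, EE_left, EE_right,
      commL_mul, sub_mul, mul_sub]
    abel
  · simp [commL_apply, (commute_opL_annR _).eq]
  · have h1 := annR_creL_comm (G := FreeGroup ι)
    have h2 := (commute_annL_annR (G := FreeGroup ι)).eq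
    simp only [LinearMap.sub_apply, LinearMap.comp_apply, dA_aA, EE_one, commL_apply, piL_aA,
      mul_add, add_mul, h2, ← h1]
    abel

/-- The Schwinger-Dyson equation. -/
theorem tau_aA_mul (y : A) : tau (aA * y) = tt (dA y) := by
  rw [tt_apply, EE_dA, commL_apply, tau_apply, vec_mul]
  simp only [piL_aA, add_apply, sub_apply, mul_apply_eq_comp, annR_Om, map_zero, sub_zero,
    inner_Om_left, lp.coeFn_add, Pi.add_apply, creL_apply_one, zero_add, annL_apply, annR_apply]
  rfl

variable (u v : ι) (L : ℕ)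

/-- The derivation on the tensor square. -/
def VT : A ⊗[ℂ] A →ₗ[ℂ] A ⊗[ℂ] A :=
  TensorProduct.map (VV u v L) LinearMap.id + TensorProduct.map LinearMap.id (VV u v L)

theorem VT_tmul (x y : A) : VT u v L (x ⊗ₜ y) = VV u v L x ⊗ₜ y + x ⊗ₜ VV u v L y := by
  simp [VT]

theorem VT_left (x : A) (T : A ⊗[ℂ] A) :
    VT u v L ((x ⊗ₜ 1) * T) = (VV u v L x ⊗ₜ 1) * T + (x ⊗ₜ 1) * VT u v L T := by
  induction T with
  | zero => simp
  | tmul a b =>
    simp only [Algebra.TensorProduct.tmul_mul_tmul, one_mul, VT_tmul, VV_mul, mul_add,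
      TensorProduct.add_tmul]
    abel
  | add a b ha hb =>
    simp only [mul_add, map_add, ha, hb]
    abel

theorem VT_right (y : A) (T : A ⊗[ℂ] A) :
    VT u v L (T * (1 ⊗ₜ y)) = VT u v L T * (1 ⊗ₜ y) + T * (1 ⊗ₜ VV u v L y) := by
  induction T with
  | zero => simp
  | tmul a b =>
    simp only [Algebra.TensorProduct.tmul_mul_tmul, mul_one, VT_tmul, VV_mul, add_mul,
      TensorProduct.tmul_add]
    abel
  | add a b ha hb =>
    simp only [add_mul, map_add, ha, hb]
    abel

/-- The commutator of `dA` and `VV`. -/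
def Del : A →ₗ[ℂ] A ⊗[ℂ] A := dA ∘ₗ VV u v L - VT u v L ∘ₗ dA

theorem Del_mul (x y : A) :
    Del u v L (x * y) = Del u v L x * (1 ⊗ₜ y) + (x ⊗ₜ 1) * Del u v L y := by
  simp only [Del, LinearMap.sub_apply, LinearMap.comp_apply, VV_mul, dA_mul, map_add, VT_left,
    VT_right, sub_mul, mul_sub]
  abel

/-- The implementing operator. -/
def YT : BF (FreeGroup ι) :=
  ((L : ℂ)⁻¹) • ∑ j ∈ Finset.range L,
    (YY u ((qq u v j)⁻¹ * ww u v L) (qq u v j) - YY u (qq u v j)⁻¹ ((ww u v L)⁻¹ * qq u v j))

theorem dA_kk : dA (kk u v L) = (-(L : ℂ)⁻¹) • ∑ j ∈ Finset.range L,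
    (gA ((qq u v j)⁻¹ * ww u v L) ⊗ₜ gA (qq u v j) -
      gA (qq u v j)⁻¹ ⊗ₜ gA ((ww u v L)⁻¹ * qq u v j)) := by
  simp [kk, Ad, bb, dA_mul, mul_sub, sub_mul]

theorem EE_Del (y : A) : EE (Del u v L y) = commL (YT u v L) y := by
  classical
  rw [← sub_eq_zero]
  refine der_unique piL piL (EE ∘ₗ Del u v L - commL (YT u v L)) (fun x y => ?_) (fun i => ?_) ?_ y
  · simp only [LinearMap.sub_apply, LinearMap.comp_apply, Del_mul, map_add, EE_left, EE_right,
      commL_mul, sub_mul, mul_sub]
    abel
  · have hc : commL (YT u v L) (gA (FreeGroup.of i)) = (-(L : ℂ)⁻¹) • ∑ j ∈ Finset.range L,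
        ((opL (FreeGroup.of i) * YY u ((qq u v j)⁻¹ * ww u v L) (qq u v j) -
          YY u ((qq u v j)⁻¹ * ww u v L) (qq u v j) * opL (FreeGroup.of i)) -
        (opL (FreeGroup.of i) * YY u (qq u v j)⁻¹ ((ww u v L)⁻¹ * qq u v j) -
          YY u (qq u v j)⁻¹ ((ww u v L)⁻¹ * qq u v j) * opL (FreeGroup.of i))) := by
      simp only [commL_apply, YT, piL_gA, smul_mul_assoc, mul_smul_comm, Finset.sum_mul,
        Finset.mul_sum, ← smul_sub, ← Finset.sum_sub_distrib, neg_smul, ← smul_neg,
        ← Finset.sum_neg_distrib]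
      congr 1
      refine Finset.sum_congr rfl fun j _ => ?_
      simp only [sub_mul, mul_sub]
      abel
    simp only [LinearMap.sub_apply, LinearMap.comp_apply, hc, YY_comm_of]
    by_cases hi : i = u
    · subst hi
      simp only [Del, LinearMap.sub_apply, LinearMap.comp_apply, VV_u, dA_mul, dA_gA, map_zero,
        mul_zero, add_zero, sub_zero, EE_right, dA_kk, if_true, map_smul, map_sum, map_sub,
        EE_tmul, piL_gA, smul_mul_assoc, Finset.sum_mul, sub_mul, sub_self]
    · simp [Del, VV_of_ne u v L hi, hi]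
  · have hc : commL (YT u v L) aA = 0 := by
      rw [commL_apply, piL_aA, sub_eq_zero]
      refine (Commute.smul_right (Commute.sum_right _ _ _ fun j _ => ?_) _).eq.symm
      exact (YY_comm_a _ _ _).sub_right (YY_comm_a _ _ _)
    simp [hc, Del, pp, Algebra.TensorProduct.one_def, VT_tmul]

variable {u v L}

theorem tt_Del (huv : u ≠ v) (hL : 1 ≤ L) (y : A) : tt (Del u v L y) = tau (y * pp u v L) := by
  have hc : commL (YT u v L) y = (-(L : ℂ)⁻¹) • ∑ j ∈ Finset.range L,
      ((piL y * YY u ((qq u v j)⁻¹ * ww u v L) (qq u v j) -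
        YY u ((qq u v j)⁻¹ * ww u v L) (qq u v j) * piL y) -
      (piL y * YY u (qq u v j)⁻¹ ((ww u v L)⁻¹ * qq u v j) -
        YY u (qq u v j)⁻¹ ((ww u v L)⁻¹ * qq u v j) * piL y)) := by
    simp only [commL_apply, YT, smul_mul_assoc, mul_smul_comm, Finset.sum_mul,
      Finset.mul_sum, ← smul_sub, ← Finset.sum_sub_distrib, neg_smul, ← smul_neg,
      ← Finset.sum_neg_distrib]
    congr 1
    refine Finset.sum_congr rfl fun j _ => ?_
    simp only [sub_mul, mul_sub]
    abel
  rw [tt_apply, EE_Del, hc, smul_apply, inner_smul_right,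
    sum_apply, inner_sum]
  have : ∀ j ∈ Finset.range L, ⟪(Om : Fock (FreeGroup ι)),
      ((piL y * YY u ((qq u v j)⁻¹ * ww u v L) (qq u v j) -
        YY u ((qq u v j)⁻¹ * ww u v L) (qq u v j) * piL y) -
      (piL y * YY u (qq u v j)⁻¹ ((ww u v L)⁻¹ * qq u v j) -
        YY u (qq u v j)⁻¹ ((ww u v L)⁻¹ * qq u v j) * piL y)) Om⟫_ℂ = -tau (y * pp u v L) := by
    intro j hj
    rw [sub_apply, inner_sub_right, inner_YY_comm, inner_YY_comm]
    simp only [mul_inv_rev, inv_inv, mul_inv_cancel_left, mul_inv_cancel_right,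
      chi_ww_qq huv (Finset.mem_range.1 hj), pp, mul_add, map_add]
    ring
  rw [Finset.sum_congr rfl this]
  have hL0 : (L : ℂ) ≠ 0 := by exact_mod_cast (by omega : L ≠ 0)
  simp only [Finset.sum_const, Finset.card_range, nsmul_eq_mul]
  field_simp

theorem F_comm (x y : A) : tau (VV u v L (x * y)) = tau (VV u v L (y * x)) := by
  simp only [VV_mul, map_add]
  rw [tau_comm (VV u v L x) y, tau_comm x, add_comm]

theorem F_aA_mul (huv : u ≠ v) (hL : 1 ≤ L) (y : A) :
    tau (VV u v L (aA * y)) = tt (VT u v L (dA y)) := by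
  have h := tt_Del huv hL y
  simp only [Del, LinearMap.sub_apply, LinearMap.comp_apply, map_sub] at h
  rw [VV_mul, map_add, tau_aA_mul, VV_aA, neg_mul, map_neg, tau_comm, ← h]
  ring

theorem F_gA (g : FreeGroup ι) : tau (VV u v L (gA g)) = 0 := by
  have ha : ∀ s s' : FreeGroup ι, tau (gA s * (aA * gA s')) = 0 := by
    intro s s'
    rw [← mul_assoc, tau_comm, ← mul_assoc, tau_comm, tau_aA_mul, ← map_mul, dA_gA, map_zero]
  have hk : ∀ s s' : FreeGroup ι, tau (gA s * kk u v L * gA s') = 0 := by
    intro s s'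
    simp only [kk, Ad, bb, mul_smul_comm, smul_mul_assoc, map_smul, Finset.mul_sum,
      Finset.sum_mul, map_sum, mul_sub, sub_mul, map_sub, mul_assoc]
    simp only [← mul_assoc (gA _) (gA _), ← map_mul, ha]
    simp
  have hof : ∀ (i : ι) (s s' : FreeGroup ι),
      tau (gA s * VV u v L (gA (FreeGroup.of i)) * gA s') = 0 := by
    intro i s s'
    by_cases hi : i = u
    · subst hi
      rw [VV_u, ← mul_assoc, mul_assoc _ (gA _), ← map_mul, hk]
    · simp [VV_of_ne u v L hi]
  have key : ∀ s s' : FreeGroup ι, tau (gA s * VV u v L (gA g) * gA s') = 0 := by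
    induction g using FreeGroup.induction_on with
    | C1 => simp
    | of i => exact hof i
    | inv_of i _ =>
      intro s s'
      have := hof i (s * (FreeGroup.of i)⁻¹) ((FreeGroup.of i)⁻¹ * s')
      rw [VV_gA_inv]
      simp only [map_mul, mul_assoc, mul_neg, neg_mul, map_neg] at this ⊢
      rw [this, neg_zero]
    | mul x y hx hy =>
      intro s s'
      have h1 := hx s (y * s')
      have h2 := hy (s * x) s'
      simp only [map_mul, VV_mul, mul_add, add_mul, map_add, mul_assoc] at h1 h2 ⊢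
      rw [h1, h2, add_zero]
  simpa using key 1 1

/-- The value of a letter. -/
def letter : Option (FreeGroup ι) → A
  | none => aA
  | some g => gA g

/-- The value of a word. -/
def ev (l : List (Option (FreeGroup ι))) : A := (l.map letter).prod

theorem ev_append (l l' : List (Option (FreeGroup ι))) : ev (l ++ l') = ev l * ev l' := by
  simp [ev]

theorem ev_cons (x : Option (FreeGroup ι)) (l : List (Option (FreeGroup ι))) :
    ev (x :: l) = letter x * ev l := by simp [ev]

theorem mem_span_ev (y : A) : y ∈ Submodule.span ℂ (Set.range (ev (ι := ι))) := by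
  induction y using Alg.induction with
  | hg g => exact Submodule.subset_span ⟨[some g], by simp [ev, letter]⟩
  | ha => exact Submodule.subset_span ⟨[none], by simp [ev, letter]⟩
  | hadd x y hx hy => exact Submodule.add_mem _ hx hy
  | hsmul c x hx => exact Submodule.smul_mem _ c hx
  | hmul x y hx hy =>
    have := Submodule.mul_mem_mul hx hy
    rw [Submodule.span_mul_span] at this
    refine Submodule.span_mono ?_ this
    rintro _ ⟨_, ⟨l, rfl⟩, _, ⟨l', rfl⟩, rfl⟩
    exact ⟨l ++ l', ev_append l l'⟩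

theorem vanish_dA (Bf : A ⊗[ℂ] A →ₗ[ℂ] ℂ) (N : ℕ)
    (hB : ∀ l₁ l₂ : List (Option (FreeGroup ι)), l₁.length + l₂.length < N →
      Bf (ev l₁ ⊗ₜ ev l₂) = 0) (l l₀ : List (Option (FreeGroup ι)))
    (h : l₀.length + l.length ≤ N) : Bf ((ev l₀ ⊗ₜ 1) * dA (ev l)) = 0 := by
  induction l generalizing l₀ with
  | nil => simp [ev, dA]
  | cons x l ih =>
    have h1 := ih (l₀ ++ [x]) (by simp at h ⊢; omega)
    rw [ev_append] at h1
    rw [ev_cons, dA_mul, mul_add, map_add, ← mul_assoc (ev l₀ ⊗ₜ 1) (letter x ⊗ₜ 1),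
      Algebra.TensorProduct.tmul_mul_tmul, one_mul]
    have h2 : ev [x] = letter x := by simp [ev]
    rw [h2] at h1
    rw [h1, add_zero]
    cases x with
    | none =>
      simp only [letter, dA_aA, one_mul, Algebra.TensorProduct.tmul_mul_tmul, mul_one]
      exact hB _ _ (by simp at h; omega)
    | some g => simp [letter]

theorem F_ev (huv : u ≠ v) (hL : 1 ≤ L) (N : ℕ) (l : List (Option (FreeGroup ι)))
    (hl : l.length ≤ N) : tau (VV u v L (ev l)) = 0 := by
  induction N generalizing l with
  | zero =>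
    have : l = [] := List.eq_nil_of_length_eq_zero (by omega)
    simp [this, ev]
  | succ N ih =>
    by_cases hmem : none ∈ l
    · obtain ⟨l₁, l₂, rfl⟩ := List.append_of_mem hmem
      rw [ev_append, F_comm, ev_cons, mul_assoc, ← ev_append]
      change tau (VV u v L (aA * _)) = 0
      rw [F_aA_mul huv hL]
      have := vanish_dA (tt ∘ₗ VT u v L) N (fun l₁ l₂ h => by
        simp [VT_tmul, ih l₁ (by omega), ih l₂ (by omega)]) (l₂ ++ l₁) []
        (by simp at hl ⊢; omega)
      simpa [ev, ← Algebra.TensorProduct.one_def] using this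
    · have : ∃ g, ev l = gA g := by
        clear hl ih
        induction l with
        | nil => exact ⟨1, by simp [ev]⟩
        | cons x l ih =>
          obtain ⟨g, hg⟩ := ih (fun h => hmem (List.mem_cons_of_mem _ h))
          cases x with
          | none => simp at hmem
          | some g' => exact ⟨g' * g, by simp [ev_cons, hg, letter]⟩
      obtain ⟨g, hg⟩ := this
      rw [hg, F_gA]

end Trace

/-- The derivation preserves the vacuum state. -/
theorem tau_VV {ι : Type} {u v : ι} {L : ℕ} (huv : u ≠ v) (hL : 1 ≤ L) (y : Alg (FreeGroup ι)) :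
    tau (VV u v L y) = 0 := by
  refine Submodule.span_induction (p := fun y _ => tau (VV u v L y) = 0) ?_ ?_ ?_ ?_
    (Trace.mem_span_ev y)
  · rintro _ ⟨l, rfl⟩
    exact Trace.F_ev huv hL _ l le_rfl
  · simp
  · intro x y _ _ hx hy
    simp [hx, hy]
  · intro c x _ hx
    simp [hx]

end Crest.Agent.R134

end
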