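import Crest.Agent.R134.Est
import Crest.Agent.R134.Trace
import Crest.Agent.R134.Flow
import Crest.Agent.R134.Bound
import Crest.Agent.R134.Resolvent
import Crest.Agent.R134.Intertwine

/-!
Composing many short flows: unitaries that push the Fock space into `ℓ²(G)`.
-/

set_option autoImplicit false

open Crest.OpAlg Filter Topology
open scoped InnerProductSpace

noncomputable section

namespace Crest.Agent.R134

namespace Iter

theorem norm_unitary_apply {H : Type*} [NormedAddCommGroup H] [InnerProductSpace ℂ H]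
    [CompleteSpace H] (W : unitary (H →L[ℂ] H)) (ξ : H) : ‖(W : H →L[ℂ] H) ξ‖ = ‖ξ‖ :=
  ContinuousLinearMap.norm_map_of_mem_unitary W.2 ξ

theorem inner_unitary_apply {H : Type*} [NormedAddCommGroup H] [InnerProductSpace ℂ H]
    [CompleteSpace H] (W : unitary (H →L[ℂ] H)) (ξ η : H) :
    ⟪(W : H →L[ℂ] H) ξ, (W : H →L[ℂ] H) η⟫_ℂ = ⟪ξ, η⟫_ℂ :=
  ContinuousLinearMap.inner_map_map_of_mem_unitary W.2 ξ η

/-- The energy estimate of one step. -/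
theorem step_norm {H : Type*} [NormedAddCommGroup H] [InnerProductSpace ℂ H]
    [CompleteSpace H] (W : unitary (H →L[ℂ] H)) (ρ R e : H) (r θ c r' : ℝ) (hr1 : r ≤ 1)
    (hθ : 0 < θ) (hθ1 : θ ≤ 1) (hc0 : 0 ≤ c) (hc : c ≤ θ ^ 2 / 2) (hρ : ‖ρ‖ ≤ r) (hR : ‖R‖ ≤ 10)
    (hWR : ‖(W : H →L[ℂ] H) R - R‖ ≤ θ * 504) (hin : ‖⟪ρ, R⟫_ℂ‖ ≤ θ) (he : ‖e‖ ≤ 501 * θ ^ 3)
    (hr' : 0 ≤ r') (hrr : r ^ 2 + 300000 * θ ^ 3 ≤ r' ^ 2) :
    ‖(W : H →L[ℂ] H) ρ + (c : ℂ) • R + e‖ ≤ r' := by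
  have hr0 : 0 ≤ r := (norm_nonneg _).trans hρ
  have h1 : ‖⟪(W : H →L[ℂ] H) ρ, R⟫_ℂ‖ ≤ 505 * θ := by
    have h2 : ⟪(W : H →L[ℂ] H) ρ, R⟫_ℂ =
        ⟪ρ, R⟫_ℂ - ⟪(W : H →L[ℂ] H) ρ, (W : H →L[ℂ] H) R - R⟫_ℂ := by
      rw [inner_sub_right, inner_unitary_apply]; ring
    have h3 : ‖⟪(W : H →L[ℂ] H) ρ, (W : H →L[ℂ] H) R - R⟫_ℂ‖ ≤ 1 * (θ * 504) := by
      refine (norm_inner_le_norm _ _).trans (mul_le_mul ?_ hWR (norm_nonneg _) zero_le_one)
      rw [norm_unitary_apply]; linarith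
    rw [h2]
    refine (norm_sub_le _ _).trans ?_
    linarith
  have hθ2 : θ ^ 2 ≤ 1 := pow_le_one₀ hθ.le hθ1
  have hθ3 : θ ^ 3 ≤ 1 := pow_le_one₀ hθ.le hθ1
  have hθ3' : 0 < θ ^ 3 := by positivity
  have h4 : ‖(W : H →L[ℂ] H) ρ + (c : ℂ) • R‖ ^ 2 ≤ r ^ 2 + 530 * θ ^ 3 := by
    rw [@norm_add_sq ℂ, norm_unitary_apply, inner_smul_right, norm_smul, Complex.norm_real,
      Real.norm_of_nonneg hc0]
    have h5 : RCLike.re ((c : ℂ) * ⟪(W : H →L[ℂ] H) ρ, R⟫_ℂ) ≤ θ ^ 2 / 2 * (505 * θ) := by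
      refine (RCLike.re_le_norm _).trans ?_
      rw [norm_mul, Complex.norm_real, Real.norm_of_nonneg hc0]
      exact mul_le_mul hc h1 (norm_nonneg _) (by positivity)
    have h6 : (c * ‖R‖) ^ 2 ≤ (θ ^ 2 / 2 * 10) ^ 2 :=
      pow_le_pow_left₀ (by positivity) (mul_le_mul hc hR (norm_nonneg _) (by positivity)) 2
    have h7 : ‖ρ‖ ^ 2 ≤ r ^ 2 := pow_le_pow_left₀ (norm_nonneg _) hρ 2
    have h8 : θ ^ 3 * θ ≤ θ ^ 3 * 1 := mul_le_mul_of_nonneg_left hθ1 hθ3'.le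
    nlinarith
  set q := ‖(W : H →L[ℂ] H) ρ + (c : ℂ) • R‖ with hq
  have hq0 : 0 ≤ q := norm_nonneg _
  have hq1 : q ≤ 24 := by
    refine (abs_le_of_sq_le_sq' ?_ (by norm_num)).2
    nlinarith
  refine (norm_add_le _ _).trans ((add_le_add_right he _).trans ?_)
  refine (abs_le_of_sq_le_sq' ?_ hr').2
  have h9 : q * θ ^ 3 ≤ 24 * θ ^ 3 := mul_le_mul_of_nonneg_right hq1 hθ3'.le
  have h10 : θ ^ 3 * θ ^ 3 ≤ θ ^ 3 * 1 := mul_le_mul_of_nonneg_left hθ3 hθ3'.le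
  nlinarith

variable {ι : Type}

local notation "A" => Alg (FreeGroup ι)

theorem exists_flow_VV [Finite ι] {u v : ι} (huv : u ≠ v) {L : ℕ} (hL : 1 ≤ L) {θ : ℝ}
    (hθ : 0 ≤ θ) :
    ∃ W ∈ fockGrp (FreeGroup ι),
      (∀ y : A, ‖(W : BF (FreeGroup ι)) (vec y) - vec y‖ ≤ θ * ‖vec (VV u v L y)‖) ∧
      (∀ y : A, ‖(W : BF (FreeGroup ι)) (vec y) - vec y - (θ : ℂ) • vec (VV u v L y)
          - ((θ : ℂ) ^ 2 / 2) • vec (VV u v L (VV u v L y))‖ ≤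
        θ ^ 3 * ‖vec (VV u v L (VV u v L (VV u v L y)))‖) := by
  obtain ⟨R, hR, hbd⟩ := exists_factorial_bound (VV u v L) (VV_mul u v L)
  exact exists_flow Om piL piR piL_star piR_mul piR_Om denseRange_vec (VV u v L) (VV_mul u v L)
    (VV_star u v L) (tau_VV huv hL) R hR hbd θ hθ

variable (ι) in
/-- The invariant of the iteration. -/
def PP (s r : ℝ) : Prop :=
  ∀ δ > 0, ∃ W ∈ fockGrp (FreeGroup ι), ∃ n ∈ grpAlg (FreeGroup ι), star n = n ∧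
    ‖(W : BF (FreeGroup ι)) (vec aA) - (s : ℂ) • vec aA - vec n‖ ≤ r ∧
    ∀ i, ‖(W : BF (FreeGroup ι)) (vec (gA (FreeGroup.of i))) - vec (gA (FreeGroup.of i))‖ ≤ δ

theorem PP_init : PP ι 1 0 := fun δ hδ =>
  ⟨1, one_mem _, 0, zero_mem _, star_zero _, by simp, fun i => by simpa using hδ.le⟩

theorem pp_mem (u v : ι) (L : ℕ) : pp u v L ∈ grpAlg (FreeGroup ι) :=
  add_mem (Submodule.subset_span ⟨_, rfl⟩) (Submodule.subset_span ⟨_, rfl⟩)

theorem PP_step [Finite ι] {u v : ι} (huv : u ≠ v) {s r θ r' : ℝ} (hs0 : 0 ≤ s) (hs1 : s ≤ 1)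
    (hr1 : r ≤ 1) (hθ : 0 < θ) (hθ1 : θ ≤ 1) (hr' : 0 ≤ r')
    (hrr : r ^ 2 + 300000 * θ ^ 3 ≤ r' ^ 2) (h : PP ι s r) : PP ι (s * (1 - θ ^ 2)) r' := by
  intro δ hδ
  obtain ⟨W, hW, n, hn, hns, ha, hx⟩ := h (δ / 2) (by positivity)
  set ρ := (W : BF (FreeGroup ι)) (vec aA) - (s : ℂ) • vec aA - vec n with hρ
  have e1 : ∀ᶠ L in atTop, ‖vec (VV u v L n)‖ ≤ θ ^ 2 :=
    (tendsto_norm_VV_grp huv hn).eventually (ge_mem_nhds (by positivity))
  have e2 : ∀ᶠ L in atTop, ‖⟪ρ, vec (RR u v L)⟫_ℂ‖ ≤ θ := by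
    have := (tendsto_inner_RR huv ρ).norm
    rw [norm_zero] at this
    exact this.eventually (ge_mem_nhds hθ)
  have e3 : ∀ᶠ L in atTop, ∀ i, ‖vec (VV u v L (gA (FreeGroup.of i)))‖ ≤ δ / 2 :=
    eventually_all.2 fun i =>
      (tendsto_norm_VV_gA huv _).eventually (ge_mem_nhds (by positivity))
  obtain ⟨L, hL, h1, h2, h3⟩ := ((eventually_ge_atTop 1).and (e1.and (e2.and e3))).exists
  obtain ⟨W', hW', hf1, hf2⟩ := exists_flow_VV huv hL hθ.le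
  refine ⟨W' * W, mul_mem hW' hW, n - ((s * θ : ℝ) : ℂ) • pp u v L,
    sub_mem hn (Submodule.smul_mem _ _ (pp_mem u v L)), ?_, ?_, fun i => ?_⟩
  · rw [star_sub, hns, star_smul, star_pp, Complex.star_def, Complex.conj_ofReal]
  · set e₁ := (W' : BF (FreeGroup ι)) (vec aA) - vec aA - (θ : ℂ) • vec (VV u v L aA)
          - ((θ : ℂ) ^ 2 / 2) • vec (VV u v L (VV u v L aA)) with he₁
    set e₂ := (W' : BF (FreeGroup ι)) (vec n) - vec n with he₂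
    have hR : vec (VV u v L (VV u v L aA)) = vec (RR u v L) - (2 : ℂ) • vec aA := by
      simp [RR]
    have hV : vec (VV u v L aA) = -vec (pp u v L) := by rw [VV_aA, map_neg]
    have key : ((W' * W : unitary _) : BF (FreeGroup ι)) (vec aA) -
        ((s * (1 - θ ^ 2) : ℝ) : ℂ) • vec aA - vec (n - ((s * θ : ℝ) : ℂ) • pp u v L) =
        (W' : BF (FreeGroup ι)) ρ + ((s * θ ^ 2 / 2 : ℝ) : ℂ) • vec (RR u v L) +
          ((s : ℂ) • e₁ + e₂) := by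
      rw [hρ, he₁, he₂, hR, hV]
      simp only [MulMemClass.coe_mul, mul_apply_eq_comp, map_sub, map_smul]
      push_cast
      module
    rw [key]
    have hθ2 : 0 ≤ θ ^ 2 := by positivity
    refine step_norm W' ρ _ _ r θ _ r' hr1 hθ hθ1 (by positivity) (by nlinarith) ha
      (norm_vec_RR huv hL) ((hf1 _).trans ?_) h2 ?_ hr' hrr
    · exact mul_le_mul_of_nonneg_left (norm_vec_VV_RR huv hL) hθ.le
    · have h4 : ‖e₁‖ ≤ θ ^ 3 * 500 := (hf2 _).trans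
        (mul_le_mul_of_nonneg_left (norm_vec_VV_three huv hL) (by positivity))
      have h5 : ‖e₂‖ ≤ θ * θ ^ 2 := (hf1 _).trans (mul_le_mul_of_nonneg_left h1 hθ.le)
      have h6 : ‖(s : ℂ) • e₁‖ ≤ 1 * (θ ^ 3 * 500) := by
        rw [norm_smul, Complex.norm_real, Real.norm_of_nonneg hs0]
        exact mul_le_mul hs1 h4 (norm_nonneg _) zero_le_one
      refine (norm_add_le _ _).trans ?_
      nlinarith
  · have h4 : ((W' * W : unitary _) : BF (FreeGroup ι)) (vec (gA (FreeGroup.of i))) -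
        vec (gA (FreeGroup.of i)) =
        (W' : BF (FreeGroup ι)) ((W : BF (FreeGroup ι)) (vec (gA (FreeGroup.of i))) -
          vec (gA (FreeGroup.of i))) +
        ((W' : BF (FreeGroup ι)) (vec (gA (FreeGroup.of i))) - vec (gA (FreeGroup.of i))) := by
      simp only [MulMemClass.coe_mul, mul_apply_eq_comp, map_sub]
      abel
    rw [h4]
    refine (norm_add_le _ _).trans ?_
    rw [norm_unitary_apply]
    have h5 := (hf1 (gA (FreeGroup.of i))).trans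
      (mul_le_mul hθ1 (h3 i) (norm_nonneg _) zero_le_one)
    linarith [hx i]

theorem PP_iter [Finite ι] {u v : ι} (huv : u ≠ v) {θ : ℝ} (hθ : 0 < θ) (hθ1 : θ ≤ 1) (m : ℕ)
    (hm : m * (300000 * θ ^ 3) ≤ 1) : PP ι ((1 - θ ^ 2) ^ m) √(m * (300000 * θ ^ 3)) := by
  have hθ2 : θ ^ 2 ≤ 1 := pow_le_one₀ hθ.le hθ1
  have hθ0 : 0 ≤ θ ^ 2 := by positivity
  induction m with
  | zero => simpa using PP_init
  | succ m ih =>
    have hc : 0 ≤ 300000 * θ ^ 3 := by positivity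
    have hm' : m * (300000 * θ ^ 3) ≤ 1 := by
      push_cast at hm
      linarith
    rw [pow_succ]
    refine PP_step huv (pow_nonneg (by linarith) _) (pow_le_one₀ (by linarith) (by linarith))
      (Real.sqrt_le_one.2 hm') hθ hθ1 (Real.sqrt_nonneg _) ?_ (ih hm')
    rw [Real.sq_sqrt (by positivity), Real.sq_sqrt (by positivity)]
    push_cast
    linarith

theorem exists_params {ε : ℝ} (hε : 0 < ε) : ∃ (θ : ℝ) (m : ℕ), 0 < θ ∧ θ ≤ 1 ∧
    m * (300000 * θ ^ 3) ≤ 1 ∧ (1 - θ ^ 2) ^ m ≤ ε ∧ √(m * (300000 * θ ^ 3)) ≤ ε := by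
  obtain ⟨T, hT⟩ := exists_nat_ge ε⁻¹
  have h0 : Tendsto (fun N : ℕ => (T * 300000 : ℝ) * (N : ℝ)⁻¹) atTop (𝓝 0) := by
    simpa using (tendsto_inv_atTop_nhds_zero_nat (𝕜 := ℝ)).const_mul (T * 300000 : ℝ)
  obtain ⟨N, hN, hN1, hN2⟩ := ((eventually_ge_atTop 1).and
    ((h0.eventually (ge_mem_nhds one_pos)).and
      (h0.eventually (ge_mem_nhds (by positivity : 0 < ε ^ 2))))).exists
  have hN0 : (1 : ℝ) ≤ N := by exact_mod_cast hN
  have hθ1 : (N : ℝ)⁻¹ ≤ 1 := inv_le_one_of_one_le₀ hN0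
  have hθ : 0 < (N : ℝ)⁻¹ := by positivity
  have hm : ((T * N ^ 2 : ℕ) : ℝ) * (300000 * (N : ℝ)⁻¹ ^ 3) = T * 300000 * (N : ℝ)⁻¹ := by
    push_cast
    field_simp
  refine ⟨(N : ℝ)⁻¹, T * N ^ 2, hθ, hθ1, hm ▸ hN1, ?_, ?_⟩
  · have h1 : 0 ≤ 1 - (N : ℝ)⁻¹ ^ 2 := sub_nonneg.2 (pow_le_one₀ hθ.le hθ1)
    refine (pow_le_pow_left₀ h1 (Real.one_sub_le_exp_neg _) _).trans ?_
    rw [← Real.exp_nat_mul]
    have h2 : ((T * N ^ 2 : ℕ) : ℝ) * -((N : ℝ)⁻¹ ^ 2) = -T := by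
      push_cast
      field_simp
    rw [h2, Real.exp_neg]
    refine inv_le_of_inv_le₀ hε ?_
    linarith [Real.add_one_le_exp (T : ℝ)]
  · rw [hm]
    exact Real.sqrt_le_iff.2 ⟨hε.le, hN2⟩

theorem exists_approx [Finite ι] {u v : ι} (huv : u ≠ v) {ε : ℝ} (hε : 0 < ε) :
    ∃ W ∈ fockGrp (FreeGroup ι), ∃ n ∈ grpAlg (FreeGroup ι), star n = n ∧
      ‖(W : BF (FreeGroup ι)) (vec aA) - vec n‖ ≤ ε ∧
      ∀ i, ‖(W : BF (FreeGroup ι)) (vec (gA (FreeGroup.of i))) - vec (gA (FreeGroup.of i))‖ ≤ ε := by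
  obtain ⟨θ, m, hθ, hθ1, hm, h1, h2⟩ := exists_params (half_pos hε)
  obtain ⟨W, hW, n, hn, hns, ha, hx⟩ := PP_iter huv hθ hθ1 m hm ε hε
  refine ⟨W, hW, n, hn, hns, ?_, hx⟩
  have h3 : (W : BF (FreeGroup ι)) (vec aA) - vec n =
      ((W : BF (FreeGroup ι)) (vec aA) - (((1 - θ ^ 2) ^ m : ℝ) : ℂ) • vec aA - vec n) +
        (((1 - θ ^ 2) ^ m : ℝ) : ℂ) • vec aA := by abel
  have h4 : 0 ≤ (1 - θ ^ 2) ^ m := pow_nonneg (sub_nonneg.2 (pow_le_one₀ hθ.le hθ1)) _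
  rw [h3]
  refine (norm_add_le _ _).trans ?_
  rw [norm_smul, Complex.norm_real, Real.norm_of_nonneg h4, Est.norm_vec_aA]
  linarith

theorem conj_mem_centralizer {K H : Type*} [NormedAddCommGroup K] [InnerProductSpace ℂ K]
    [CompleteSpace K] [NormedAddCommGroup H] [InnerProductSpace ℂ H] [CompleteSpace H]
    (j : K →L[ℂ] H) (U : K ≃ₗᵢ[ℂ] H) (G : ℕ → unitary (H →L[ℂ] H))
    (hG : ∀ η, Tendsto (fun k => (G k : H →L[ℂ] H) (j η)) atTop (𝓝 (U η)))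
    (𝓡 : Set (H →L[ℂ] H)) (x : K →L[ℂ] K) (y : H →L[ℂ] H) (hxy : y.comp j = j.comp x)
    (hy : ∀ k, (G k : H →L[ℂ] H) * y * star (G k : H →L[ℂ] H) ∈ 𝓡.centralizer) :
    U.conjStarAlgEquiv x ∈ 𝓡.centralizer := by
  have hlim : ∀ ξ, Tendsto (fun k => ((G k : H →L[ℂ] H) * y * star (G k : H →L[ℂ] H)) ξ) atTop
      (𝓝 (U.conjStarAlgEquiv x ξ)) := by
    intro ξ
    obtain ⟨η, rfl⟩ := U.surjective ξ
    have h1 : U.conjStarAlgEquiv x (U η) = U (x η) := by simp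
    have h2 : ∀ k, ((G k : H →L[ℂ] H) * y * star (G k : H →L[ℂ] H)) (U η) =
        (G k : H →L[ℂ] H) (j (x η)) +
        (G k : H →L[ℂ] H) (y (star (G k : H →L[ℂ] H) (U η - (G k : H →L[ℂ] H) (j η)))) := by
      intro k
      have h3 : star (G k : H →L[ℂ] H) ((G k : H →L[ℂ] H) (j η)) = j η := by
        rw [← mul_apply_eq_comp, (G k).2.1]; rfl
      have h4 : y (j η) = j (x η) := congrArg (fun T : K →L[ℂ] H => T η) hxy
      simp only [mul_apply_eq_comp, map_sub, h3, h4]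
      abel
    have h5 : Tendsto (fun k => (G k : H →L[ℂ] H)
        (y (star (G k : H →L[ℂ] H) (U η - (G k : H →L[ℂ] H) (j η))))) atTop (𝓝 0) := by
      have h6 : Tendsto (fun k => ‖y‖ * ‖U η - (G k : H →L[ℂ] H) (j η)‖) atTop (𝓝 0) := by
        have := ((tendsto_const_nhds (x := U η)).sub (hG η)).norm.const_mul ‖y‖
        simpa using this
      refine squeeze_zero_norm (fun k => ?_) h6
      rw [norm_unitary_apply]
      refine (y.le_opNorm _).trans_eq ?_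
      rw [← Unitary.coe_star, norm_unitary_apply]
    simp only [h1, h2]
    simpa using (hG (x η)).add h5
  intro z hz
  ext ξ
  have h7 := (z.continuous.tendsto _).comp (hlim ξ)
  refine tendsto_nhds_unique h7 ?_
  refine (hlim (z ξ)).congr fun k => ?_
  exact (congrArg (fun T : H →L[ℂ] H => T ξ) (hy k z hz)).symm

end Iter

open Iter

/-- The regular representation of the free group inside the Fock representation. -/
theorem exists_fock_unitary {ι : Type} [Finite ι] {u v : ι} (huv : u ≠ v) :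
    ∃ U : ltwo (FreeGroup ι) ≃ₗᵢ[ℂ] Fock (FreeGroup ι), U (dl 1) = Om ∧
      (∀ g, U.conjStarAlgEquiv (leftRegular g) ∈
        (Set.range (piR : Alg (FreeGroup ι) → BF (FreeGroup ι))).centralizer) ∧
      (∀ g, U.conjStarAlgEquiv (rightRegular g) ∈
        (Set.range (piL : Alg (FreeGroup ι) → BF (FreeGroup ι))).centralizer) := by
  choose W hW n hn hns ha hx using fun k : ℕ =>
    exists_approx huv (ε := 1 / ((k : ℝ) + 1)) (by positivity)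
  have h0 := tendsto_one_div_add_atTop_nhds_zero_nat (𝕜 := ℝ)
  obtain ⟨h1, h2⟩ := tendsto_of_generators W hW
    (fun i => tendsto_sub_nhds_zero_iff.1 (squeeze_zero_norm (fun k => hx k i) h0)) n hn hns
    (squeeze_zero_norm ha h0)
  have : TopologicalSpace.SeparableSpace (Fock (FreeGroup ι)) := separableSpace_ltwo
  obtain ⟨U, G, hG, hU⟩ := exists_intertwiner emb norm_emb_apply (fockGrp (FreeGroup ι)) W hW h1 h2
  refine ⟨U, ?_, fun g => ?_, fun g => ?_⟩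
  · have h3 := hU (dl 1)
    have h4 : ∀ j, (G j : BF (FreeGroup ι)) (emb (dl 1)) = Om := fun j => by
      rw [emb_dl]; exact (hG j).1
    simp only [h4] at h3
    exact (tendsto_nhds_unique tendsto_const_nhds h3).symm
  · refine conj_mem_centralizer emb U G hU _ _ (opL g) (opL_comp_emb g) fun k => ?_
    refine ((hG k).2.2 _).1 ?_
    rintro _ ⟨y, rfl⟩
    simpa using (commute_piL_piR (gA g) y).eq.symm
  · refine conj_mem_centralizer emb U G hU _ _ (opR g⁻¹) (opR_comp_emb g) fun k => ?_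
    refine ((hG k).2.1 _).1 ?_
    rintro _ ⟨y, rfl⟩
    simpa using (commute_piL_piR y (gA g⁻¹)).eq

end Crest.Agent.R134

end
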