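import Crest.Agent.R134.Iter
import Crest.Agent.R134.Haar
import Crest.Agent.R134.GroupVN

/-!
The isomorphism of the free group factors.
-/

set_option autoImplicit false

open Crest.OpAlg

noncomputable section

namespace Crest.Agent.R134

theorem commute_conj_trans {H₁ H₂ H : Type*} [NormedAddCommGroup H₁] [InnerProductSpace ℂ H₁]
    [CompleteSpace H₁] [NormedAddCommGroup H₂] [InnerProductSpace ℂ H₂] [CompleteSpace H₂]
    [NormedAddCommGroup H] [InnerProductSpace ℂ H] [CompleteSpace H]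
    (U₁ : H₁ ≃ₗᵢ[ℂ] H) (U₂ : H₂ ≃ₗᵢ[ℂ] H) (x : H₁ →L[ℂ] H₁) (y : H₂ →L[ℂ] H₂)
    (h : Commute (U₂.conjStarAlgEquiv y) (U₁.conjStarAlgEquiv x)) :
    Commute ((U₁.trans U₂.symm).conjStarAlgEquiv x) y := by
  ext ξ
  have := congrArg (fun T : H →L[ℂ] H => U₂.symm (T (U₂ ξ))) h.eq
  simpa using this.symm

theorem exists_iso {ι κ : Type} [Finite ι] [DecidableEq ι] [DecidableEq κ] {u v : ι} (huv : u ≠ v)
    (e : κ ≃ Option ι) :
    ∃ Φ : (groupVNA (FreeGroup ι)).toStarSubalgebra ≃⋆ₐ[ℂ] (groupVNA (FreeGroup κ)).toStarSubalgebra,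
      ∀ x : (groupVNA (FreeGroup ι)).toStarSubalgebra,
        groupTrace (FreeGroup κ) ((Φ x : (groupVNA (FreeGroup κ)).toStarSubalgebra) :
          ltwo (FreeGroup κ) →L[ℂ] ltwo (FreeGroup κ)) =
          groupTrace (FreeGroup ι) (x : ltwo (FreeGroup ι) →L[ℂ] ltwo (FreeGroup ι)) := by
  obtain ⟨U₁, h1, h1L, h1R⟩ := exists_fock_unitary huv
  obtain ⟨U₂, h2, h2L, h2R⟩ := exists_haar_unitary e
  refine exists_iso_of_unitary (U₁.trans U₂.symm) ?_ (fun g h => ?_) (fun g h => ?_)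
  · rw [← dl_eq_single, ← dl_eq_single, LinearIsometryEquiv.trans_apply, h1, ← h2,
      LinearIsometryEquiv.symm_apply_apply]
  · exact commute_conj_trans _ _ _ _ (h2R h _ (h1L g))
  · exact commute_conj_trans _ _ _ _ (h2L h _ (h1R g))

end Crest.Agent.R134

end
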