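import Crest.Agent.R134.Words

/-!
Orthogonality estimates in the Fock space.
-/

set_option autoImplicit false

open Crest.OpAlg
open scoped InnerProductSpace

noncomputable section

namespace Crest.Agent.R134

namespace Est

theorem norm_sum_le_of_orth {E : Type*} [NormedAddCommGroup E] [InnerProductSpace ℂ E]
    {α : Type*} (S : Finset α) (x : α → E) (M : ℝ) (hM0 : 0 ≤ M)
    (h : ∀ a ∈ S, ∀ b ∈ S, a ≠ b → ⟪x a, x b⟫_ℂ = 0) (hM : ∀ a ∈ S, ‖x a‖ ≤ M) :
    ‖∑ a ∈ S, x a‖ ≤ √(S.card) * M := by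
  classical
  have key : ‖∑ a ∈ S, x a‖ ^ 2 ≤ S.card * M ^ 2 := by
    induction S using Finset.induction_on with
    | empty => simp
    | insert a S ha ih =>
      have h0 : ⟪x a, ∑ b ∈ S, x b⟫_ℂ = 0 := by
        rw [inner_sum]
        exact Finset.sum_eq_zero fun b hb =>
          h a (Finset.mem_insert_self _ _) b (Finset.mem_insert_of_mem hb) (by rintro rfl; exact ha hb)
      have h1 := ih (fun a ha b hb => h a (Finset.mem_insert_of_mem ha) b (Finset.mem_insert_of_mem hb))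
        (fun a ha => hM a (Finset.mem_insert_of_mem ha))
      have h2 : ‖x a‖ ^ 2 ≤ M ^ 2 :=
        pow_le_pow_left₀ (norm_nonneg _) (hM a (Finset.mem_insert_self _ _)) 2
      rw [Finset.sum_insert ha, Finset.card_insert_of_notMem ha, @norm_add_sq ℂ, h0]
      push_cast
      simp only [map_zero, mul_zero, add_zero]
      linarith
  refine abs_le_of_sq_le_sq' ?_ (by positivity) |>.2
  rw [mul_pow, Real.sq_sqrt (by positivity)]
  exact key

variable {G : Type} [Group G]

/-- Prepending a letter. -/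
def cr (g : G) : BF G := opL g * creL

@[simp] theorem norm_cr_apply (g : G) (ξ : Fock G) : ‖cr g ξ‖ = ‖ξ‖ := by simp [cr]

theorem annL_opL_creL {k : G} (hk : k ≠ 1) : (annL : BF G) * (opL k * creL) = 0 := by
  refine ext_dl fun w => ?_
  simp [Wd.cre, Wd.lmul, annL_dl_cons hk]

theorem inner_cr_cr {g h : G} (hgh : g ≠ h) (ξ η : Fock G) : ⟪cr g ξ, cr h η⟫_ℂ = 0 := by
  rw [← ContinuousLinearMap.adjoint_inner_right, ← ContinuousLinearMap.star_eq_adjoint,
    ← mul_apply_eq_comp]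
  have : star (cr g) * cr h = 0 := by
    simp only [cr, star_mul, star_creL, star_opL]
    rw [mul_assoc, ← mul_assoc (opL g⁻¹), ← opL_mul, annL_opL_creL]
    intro h'
    exact hgh (inv_mul_eq_one.1 h')
  simp [this]

theorem norm_sum_cr_le {α : Type*} (S : Finset α) (s : α → G) (hs : Set.InjOn s S)
    (ξ : α → Fock G) (M : ℝ) (hM0 : 0 ≤ M) (hM : ∀ a ∈ S, ‖ξ a‖ ≤ M) :
    ‖∑ a ∈ S, cr (s a) (ξ a)‖ ≤ √(S.card) * M :=
  norm_sum_le_of_orth S _ M hM0
    (fun _ ha _ hb hab => inner_cr_cr (fun h => hab (hs ha hb h)) _ _)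
    (fun a ha => by simpa using hM a ha)

/-- The first-order monomials `s a s'`. -/
def TT (s s' : G) : Alg G := gA s * aA * gA s'

theorem piL_TT (s s' : G) :
    piL (TT s s') = cr s * opL s' + star (cr s'⁻¹ * opL s⁻¹) := by
  simp [TT, cr, mul_add, add_mul, mul_assoc]

theorem vec_TT (s s' : G) : vec (TT s s') = dl (Wd.cons s (Wd.one s')) := by
  rw [TT, mul_assoc, vec_mul, vec_mul]
  simp [Wd.cre, Wd.lmul]

theorem norm_sum_cr_opL_le {α : Type*} (S : Finset α) (s s' : α → G) (hs : Set.InjOn s S) :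
    ‖∑ a ∈ S, cr (s a) * opL (s' a)‖ ≤ √(S.card) := by
  refine ContinuousLinearMap.opNorm_le_bound _ (by positivity) fun ξ => ?_
  rw [sum_apply]
  exact norm_sum_cr_le S s hs (fun a => opL (s' a) ξ) _ (norm_nonneg _) (fun a _ => by simp)

theorem norm_piL_sum_TT {α : Type*} (S : Finset α) (s s' : α → G) (hs : Set.InjOn s S)
    (hs' : Set.InjOn s' S) : ‖piL (∑ a ∈ S, TT (s a) (s' a))‖ ≤ 2 * √(S.card) := by
  simp only [map_sum, piL_TT, Finset.sum_add_distrib, ← star_sum]
  refine (norm_add_le _ _).trans ?_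
  rw [norm_star]
  have h1 := norm_sum_cr_opL_le S s s' hs
  have h2 := norm_sum_cr_opL_le S (fun a => (s' a)⁻¹) (fun a => (s a)⁻¹)
    (fun a ha b hb h => hs' ha hb (inv_injective h))
  linarith

theorem vec_TT_mul (s s' : G) (Y : Alg G) (hY : ∀ w, vec Y (Wd.cons s'⁻¹ w) = 0) :
    vec (TT s s' * Y) = cr s (opL s' (vec Y)) := by
  have : annL (opL s' (vec Y)) = 0 := by
    ext w
    rw [annL_apply, opL_apply]
    simpa [Wd.cre, Wd.lmul] using hY w
  rw [vec_mul]
  simp [TT, cr, this]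

/-- Sums of products without contraction. -/
theorem norm_vec_sum_TT_mul {α : Type*} (S : Finset α) (s s' : α → G) (hs : Set.InjOn s S)
    (Y : α → Alg G) (hY : ∀ a ∈ S, ∀ w, vec (Y a) (Wd.cons (s' a)⁻¹ w) = 0) (M : ℝ) (hM0 : 0 ≤ M)
    (hM : ∀ a ∈ S, ‖vec (Y a)‖ ≤ M) :
    ‖vec (∑ a ∈ S, TT (s a) (s' a) * Y a)‖ ≤ √(S.card) * M := by
  rw [map_sum, Finset.sum_congr rfl fun a ha => vec_TT_mul (s a) (s' a) (Y a) (hY a ha)]
  exact norm_sum_cr_le S s hs _ M hM0 fun a ha => by simpa using hM a ha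

theorem norm_vec_sum_gA {α : Type*} (S : Finset α) (s : α → G) (hs : Set.InjOn s S) :
    ‖vec (∑ a ∈ S, gA (s a))‖ ≤ √(S.card) := by
  rw [map_sum, ← mul_one √(S.card)]
  refine norm_sum_le_of_orth S _ 1 zero_le_one (fun a ha b hb hab => ?_) (fun a _ => by simp)
  rw [vec_gA, vec_gA, inner_dl_left, dl_apply_ne]
  intro h
  exact hab (hs ha hb (Wd.one_injective h))

theorem norm_vec_le (y : Alg G) : ‖vec y‖ ≤ ‖piL y‖ := by
  simpa using norm_vec_mul_le y 1

theorem norm_piL_gA_le (g : G) : ‖piL (gA g)‖ ≤ 1 := by simpa using norm_opL_le g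

theorem norm_piL_TT_le (s s' : G) : ‖piL (TT s s')‖ ≤ 2 := by
  simpa using norm_piL_sum_TT ({0} : Finset ℕ) (fun _ => s) (fun _ => s') (by simp) (by simp)

/-- Uniform bound on the coefficients. -/
def Sup (y : Alg G) (ε : ℝ) : Prop := ∀ x, ‖vec y x‖ ≤ ε

theorem Sup.gA_mul {y : Alg G} {ε : ℝ} (h : Sup y ε) (g : G) : Sup (gA g * y) ε := fun x => by
  rw [vec_mul, piL_gA, opL_apply]; exact h _

theorem Sup.mul_gA {y : Alg G} {ε : ℝ} (h : Sup y ε) (g : G) : Sup (y * gA g) ε := fun x => by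
  rw [vec_mul', piR_gA, opR_apply]; exact h _

theorem Sup.sub {y z : Alg G} {ε ε' : ℝ} (h : Sup y ε) (h' : Sup z ε') : Sup (y - z) (ε + ε') :=
  fun x => by
  rw [map_sub, lp.coeFn_sub, Pi.sub_apply]
  exact (norm_sub_le _ _).trans (add_le_add (h x) (h' x))

theorem Sup.smul {y : Alg G} {ε : ℝ} (h : Sup y ε) (c : ℂ) : Sup (c • y) (‖c‖ * ε) := fun x => by
  rw [map_smul, lp.coeFn_smul, Pi.smul_apply, norm_smul]
  exact mul_le_mul_of_nonneg_left (h x) (norm_nonneg _)

theorem sup_sum_TT {α : Type*} (S : Finset α) (s s' : α → G) (hs : Set.InjOn s S) :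
    Sup (∑ a ∈ S, TT (s a) (s' a)) 1 := fun x => by
  classical
  rw [map_sum, lp.coeFn_sum, Finset.sum_apply]
  simp only [vec_TT]
  by_cases h : ∃ a ∈ S, x = Wd.cons (s a) (Wd.one (s' a))
  · obtain ⟨a, ha, rfl⟩ := h
    rw [Finset.sum_eq_single_of_mem a ha]
    · simp
    · intro b hb hba
      refine dl_apply_ne fun h => hba (hs hb ha ?_)
      simp only [Wd.cons.injEq] at h
      exact h.1.symm
  · rw [Finset.sum_eq_zero]
    · simp
    · intro a ha
      exact dl_apply_ne fun h' => h ⟨a, ha, h'⟩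

/-! ### Degrees of first letters -/

variable {ι : Type} (v : ι)

/-- No word in the support has first letter of degree `D` (for words of length at least two). -/
def Avoid (D : ℤ) (y : Alg (FreeGroup ι)) : Prop :=
  ∀ h w, deg v h = D → vec y (Wd.cons h w) = 0

variable {v}

theorem Avoid.add {D : ℤ} {y z : Alg (FreeGroup ι)} (h : Avoid v D y) (h' : Avoid v D z) :
    Avoid v D (y + z) := fun g w hg => by
  rw [map_add, lp.coeFn_add, Pi.add_apply, h g w hg, h' g w hg, add_zero]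

theorem Avoid.sub {D : ℤ} {y z : Alg (FreeGroup ι)} (h : Avoid v D y) (h' : Avoid v D z) :
    Avoid v D (y - z) := fun g w hg => by
  rw [map_sub, lp.coeFn_sub, Pi.sub_apply, h g w hg, h' g w hg, sub_zero]

theorem Avoid.smul {D : ℤ} {y : Alg (FreeGroup ι)} (h : Avoid v D y) (c : ℂ) :
    Avoid v D (c • y) := fun g w hg => by
  rw [map_smul, lp.coeFn_smul, Pi.smul_apply, h g w hg, smul_zero]

theorem Avoid.neg {D : ℤ} {y : Alg (FreeGroup ι)} (h : Avoid v D y) :
    Avoid v D (-y) := by simpa using h.smul (-1)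

theorem Avoid.sum {D : ℤ} {α : Type*} (S : Finset α) (y : α → Alg (FreeGroup ι))
    (h : ∀ a ∈ S, Avoid v D (y a)) : Avoid v D (∑ a ∈ S, y a) := fun g w hg => by
  rw [map_sum, lp.coeFn_sum, Finset.sum_apply]
  exact Finset.sum_eq_zero fun a ha => h a ha g w hg

theorem avoid_TT {D : ℤ} {s : FreeGroup ι} (hs : deg v s ≠ D) (s' : FreeGroup ι) :
    Avoid v D (TT s s') := fun g w hg => by
  rw [vec_TT]
  refine dl_apply_ne fun h => hs ?_
  simp only [Wd.cons.injEq] at h
  rw [← h.1, hg]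

theorem Avoid.Ad {D : ℤ} {y : Alg (FreeGroup ι)} (h : Avoid v D y) (g : FreeGroup ι) :
    Avoid v (deg v g + D) (Ad g y) := fun k w hk => by
  rw [R134.Ad, vec_mul', piR_gA, opR_apply, vec_mul, piL_gA, opL_apply]
  exact h _ _ (by simp [hk])

@[simp] theorem norm_vec_Ad (g : FreeGroup ι) (y : Alg (FreeGroup ι)) :
    ‖vec (Ad g y)‖ = ‖vec y‖ := by simp [R134.Ad]

/-! ### Conjugates of translations -/

open Classical in
/-- The action of the free group on `ℚ` by `u : x ↦ x + 1`, `v : x ↦ 2 x`. -/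
def aff (u v : ι) : FreeGroup ι →* Equiv.Perm ℚ :=
  FreeGroup.lift fun i => if i = v then Equiv.mulLeft₀ 2 two_ne_zero
    else if i = u then Equiv.addRight 1 else 1

theorem aff_add (u v : ι) (g : FreeGroup ι) (x t : ℚ) :
    aff u v g (x + t) = aff u v g x + (2 : ℚ) ^ deg v g * t := by
  have hof : ∀ i x t, aff u v (FreeGroup.of i) (x + t) =
      aff u v (FreeGroup.of i) x + (2 : ℚ) ^ deg v (FreeGroup.of i) * t := by
    intro i x t
    by_cases hi : i = v
    · subst hi; simp [aff, mul_add]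
    · by_cases hu : i = u
      · subst hu; simp [aff, hi, deg_of_ne hi]; ring
      · simp [aff, hi, hu, deg_of_ne hi]
  induction g using FreeGroup.induction_on generalizing x t with
  | C1 => simp
  | of i => exact hof i x t
  | inv_of i _ =>
    rw [map_inv, Equiv.Perm.inv_eq_iff_eq, hof]
    have : (2 : ℚ) ^ deg v (FreeGroup.of i) ≠ 0 := zpow_ne_zero _ two_ne_zero
    simp [this]
  | mul g h hg hh =>
    simp only [map_mul, Equiv.Perm.mul_apply, hh, hg, deg_mul]
    rw [zpow_add₀ two_ne_zero, mul_assoc]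

theorem aff_conj (u v : ι) (g h : FreeGroup ι) (β : ℚ) (hh : ∀ x, aff u v h x = x + β) (x : ℚ) :
    aff u v (g * h * g⁻¹) x = x + (2 : ℚ) ^ deg v g * β := by
  simp [hh, aff_add]

theorem aff_ww {u v : ι} (huv : u ≠ v) (L : ℕ) (x : ℚ) :
    aff u v (ww u v L) x = x + ∑ j ∈ Finset.range L, (2 : ℚ) ^ (2 ^ j : ℕ) := by
  induction L generalizing x with
  | zero => simp [ww]
  | succ L ih =>
    rw [ww, map_mul, Equiv.Perm.mul_apply, ih, aff_conj u v _ _ 1 (by simp [aff, huv]),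
      Finset.sum_range_succ]
    simp only [deg_pow, deg_of_self, mul_one, zpow_natCast]
    ring

theorem deg_eq_of_conj_sq {u v : ι} (huv : u ≠ v) {L : ℕ} (hL : 1 ≤ L) {g g' : FreeGroup ι}
    (h : g * (ww u v L * ww u v L) * g⁻¹ = g' * (ww u v L * ww u v L) * g'⁻¹) :
    deg v g = deg v g' := by
  set β : ℚ := ∑ j ∈ Finset.range L, (2 : ℚ) ^ (2 ^ j : ℕ) with hβ
  have hpos : 0 < β := Finset.sum_pos (fun _ _ => by positivity) ⟨0, by simp; omega⟩
  have h2 : ∀ x, aff u v (ww u v L * ww u v L) x = x + (β + β) := by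
    intro x
    rw [map_mul, Equiv.Perm.mul_apply, aff_ww huv, aff_ww huv, add_assoc]
  have h3 := aff_conj u v g _ _ h2 0
  rw [h, aff_conj u v g' _ _ h2 0, zero_add, zero_add] at h3
  have h4 := mul_right_cancel₀ (by positivity) h3
  exact (zpow_right_injective₀ (by norm_num) (by norm_num) h4).symm

end Est

end Crest.Agent.R134

end
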