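import Crest.Agent.R134.Basic

/-!
Degree bookkeeping for the long words.
-/

set_option autoImplicit false

noncomputable section

namespace Crest.Agent.R134

variable {ι : Type}

open Classical in
/-- The exponent-sum homomorphism of a generator. -/
def degHom (i : ι) : FreeGroup ι →* Multiplicative ℤ :=
  FreeGroup.lift fun j => if j = i then Multiplicative.ofAdd 1 else 1

/-- The exponent sum of the generator `i`. -/
def deg (i : ι) (g : FreeGroup ι) : ℤ := (degHom i g).toAdd

@[simp] theorem deg_one (i : ι) : deg i 1 = 0 := by simp [deg]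
@[simp] theorem deg_mul (i : ι) (g h : FreeGroup ι) : deg i (g * h) = deg i g + deg i h := by
  simp [deg]
@[simp] theorem deg_inv (i : ι) (g : FreeGroup ι) : deg i g⁻¹ = -deg i g := by simp [deg]
@[simp] theorem deg_pow (i : ι) (g : FreeGroup ι) (k : ℕ) : deg i (g ^ k) = k * deg i g := by
  simp [deg]
@[simp] theorem deg_of_self (i : ι) : deg i (FreeGroup.of i) = 1 := by simp [deg, degHom]
theorem deg_of_ne {i j : ι} (h : j ≠ i) : deg i (FreeGroup.of j) = 0 := by simp [deg, degHom, h]

variable {u v : ι}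

theorem deg_v_ww (huv : u ≠ v) (L : ℕ) : deg v (ww u v L) = 0 := by
  induction L with
  | zero => simp [ww]
  | succ L ih => simp [ww, ih, deg_of_ne huv]

theorem deg_u_ww (huv : u ≠ v) (L : ℕ) : deg u (ww u v L) = L := by
  induction L with
  | zero => simp [ww]
  | succ L ih => simp [ww, ih, deg_of_ne huv.symm]

theorem deg_v_qq (huv : u ≠ v) (j : ℕ) : deg v (qq u v j) = 2 ^ j := by
  simp [qq, deg_v_ww huv]

theorem qq_injective (huv : u ≠ v) : Function.Injective (qq u v) := by
  intro i j h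
  have := congrArg (deg v) h
  rw [deg_v_qq huv, deg_v_qq huv] at this
  exact pow_right_injective₀ (by norm_num) (by norm_num) this

theorem ww_succ (L : ℕ) :
    ww u v (L + 1) = qq u v L * FreeGroup.of u * (FreeGroup.of v ^ (2 ^ L))⁻¹ := by
  simp [ww, qq, mul_assoc]

/-- Powers of two form a Sidon set. -/
theorem two_pow_sidon {i j k l : ℕ} (hij : i ≠ j) (h : (2 : ℤ) ^ i - 2 ^ j = 2 ^ k - 2 ^ l) :
    i = k ∧ j = l := by
  have key : ∀ a b c d : ℕ, a < b → c ≤ d → (2 : ℤ) ^ b - 2 ^ a = 2 ^ d - 2 ^ c → b = d ∧ a = c := by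
    intro a b c d hab hcd h
    have hb : (2 : ℤ) ^ a * 2 ≤ 2 ^ b := by
      rw [← pow_succ]; exact pow_le_pow_right₀ (by norm_num) hab
    have ha0 : (0 : ℤ) < 2 ^ a := by positivity
    have hc0 : (0 : ℤ) < 2 ^ c := by positivity
    have hcd' : c < d := by
      rcases hcd.lt_or_eq with h' | h'
      · exact h'
      · subst h'; linarith
    have hd : (2 : ℤ) ^ c * 2 ≤ 2 ^ d := by
      rw [← pow_succ]; exact pow_le_pow_right₀ (by norm_num) hcd'
    have hbd : b = d := by
      rcases lt_trichotomy b d with h' | h' | h'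
      · have : (2 : ℤ) ^ b * 2 ≤ 2 ^ d := by
          rw [← pow_succ]; exact pow_le_pow_right₀ (by norm_num) h'
        linarith
      · exact h'
      · have : (2 : ℤ) ^ d * 2 ≤ 2 ^ b := by
          rw [← pow_succ]; exact pow_le_pow_right₀ (by norm_num) h'
        linarith
    subst hbd
    exact ⟨rfl, pow_right_injective₀ (a := (2 : ℤ)) (by norm_num) (by norm_num) (by linarith)⟩
  rcases lt_or_gt_of_ne hij with h1 | h1
  · have hlt : (2 : ℤ) ^ i < 2 ^ j := pow_lt_pow_right₀ (by norm_num) h1
    have hkl : k ≤ l := by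
      by_contra hc
      have : (2 : ℤ) ^ l < 2 ^ k := pow_lt_pow_right₀ (by norm_num) (not_le.1 hc)
      linarith
    have := key i j k l h1 hkl (by linarith)
    exact ⟨this.2, this.1⟩
  · have hlt : (2 : ℤ) ^ j < 2 ^ i := pow_lt_pow_right₀ (by norm_num) h1
    have hkl : l ≤ k := by
      by_contra hc
      have : (2 : ℤ) ^ k < 2 ^ l := pow_lt_pow_right₀ (by norm_num) (not_le.1 hc)
      linarith
    exact key j i l k h1 hkl h

theorem two_pow_sub_ne_zero {i j : ℕ} (hij : i ≠ j) : (2 : ℤ) ^ i - 2 ^ j ≠ 0 := fun h =>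
  hij (pow_right_injective₀ (a := (2 : ℤ)) (by norm_num) (by norm_num) (sub_eq_zero.1 h))

end Crest.Agent.R134

end
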